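import Crest.Agent.N336.R.Met

/-! # Row 336, replica package: the asymptotic inequalities, second half (helper43) -/

set_option autoImplicit false
set_option linter.unusedSectionVars false

open Matrix Finset MeasureTheory Filter
open scoped ComplexOrder MatrixOrder Matrix.Norms.L2Operator InnerProductSpace Topology

namespace Crest.Agent.N336.R

open Crest.Agent.N336.Q Crest.Agent.N336.Eng Crest.Agent.N336.C

namespace I2

section gen

variable {n : Type} [Fintype n] [DecidableEq n]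

lemma qf_rsm (c : ℝ) (M : Matrix n n ℂ) (v : Q.Vec n) : qf v (c • M) = c * qf v M := by
  rw [← Complex.coe_smul, qf_smul]

lemma inv_le_of_le {A B B' : Matrix n n ℂ} (hB : B.PosDef) (hB' : B' * B = 1) {c : ℝ}
    (h : Real.exp (-c) • B ≤ A) : A⁻¹ ≤ Real.exp c • B' := by
  have h1 := inv_anti (hB.smul (Real.exp_pos _)) h
  rwa [Matrix.inv_eq_left_inv (A := Real.exp (-c) • B) (B := Real.exp c • B') (by
    rw [smul_mul_smul_comm, ← Real.exp_add, add_neg_cancel, Real.exp_zero, one_smul, hB'])] at h1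

/-- the linear functional `G ↦ ⟨u, G X v⟩` -/
noncomputable def phiL (X : Matrix n n ℂ) (u v : Q.Vec n) : Matrix n n ℂ →L[ℂ] ℂ :=
  (innerSL ℂ u).comp ((ContinuousLinearMap.apply ℂ (Q.Vec n) (ap X v)).comp (SB.apL n))

lemma phiL_apply (X G : Matrix n n ℂ) (u v : Q.Vec n) :
    phiL X u v G = ⟪u, ap (G * X) v⟫_ℂ := by rw [ap_mul]; rfl

/-- Berezin-Lieb for a small power -/
lemma lg_le_of_pw [Nonempty n] {k : ℕ} {N : Ms k n} (hN : N.PosDef) {α δ : ℝ} (hα : 0 < α)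
    {g : Sph n → ℝ} (hg : Continuous g)
    (h : ∀ χ : Sph n, qf (cv k χ.1) (pw N α) ≤ Real.exp (α * k * (g χ + δ)))
    (hd : (dk k n : ℝ) ≤ Real.exp (α * δ * k)) :
    lg N ≤ (k : ℝ) • Tr k g + (2 * δ * k) • (1 : Ms k n) := by
  have h1 := bl (pw_posDef hN α) (g := fun χ => α * k * (g χ + δ)) (by fun_prop) fun χ => by
    rcases (re_inner_ap_nonneg (pw_posDef hN α).posSemidef (cv k χ.1)).eq_or_lt with h0 | h0
    · have h2 := ev_pos (pw_posDef hN α)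
      have h3 := sum_sq_inner_evec (pw N α) (cv k χ.1)
      rw [norm_cv, norm_eq_of_mem_sphere χ, one_pow, one_pow] at h3
      have h4 := qf_self (pw_posDef hN α).1 (cv k χ.1)
      rw [qf, ← h0] at h4
      have h5 := (Finset.sum_eq_zero_iff_of_nonneg fun i _ =>
        mul_nonneg (h2 i).le (sq_nonneg _)).1 h4.symm
      rw [Finset.sum_eq_zero fun i hi => (mul_eq_zero.1 (h5 i hi)).resolve_left (h2 i).ne'] at h3
      norm_num at h3
    · exact (Real.log_le_iff_le_exp h0).2 (h χ)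
  have h2 : Tr k (fun χ => α * k * (g χ + δ)) =
      (α * k) • Tr k g + (α * k * δ) • (1 : Ms k n) := by
    have e : (fun χ : Sph n => ((α * k * (g χ + δ) : ℝ) : ℂ)) =
        fun χ => ((α * k : ℝ) : ℂ) * (g χ : ℂ) + ((α * k * δ : ℝ) : ℂ) := by
      funext χ; push_cast; ring
    rw [Tr, e, Tc_add k (by fun_prop) continuous_const, Tc_smul, Tc_const, Complex.coe_smul,
      Complex.coe_smul]
  have h3 : Real.log (dk k n) ≤ α * δ * k :=
    (Real.log_le_iff_le_exp (by exact_mod_cast dk_pos k)).2 hd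
  rw [lg_pw hN, h2, Complex.coe_smul] at h1
  have h4 := h1.trans (add_le_add_right (smul_le_smul_of_nonneg_right h3 zero_le_one) _)
  refine le_of_smul_le_smul_left (h4.trans (le_of_eq ?_)) hα
  rw [smul_add, smul_smul, smul_smul, add_assoc, ← add_smul]
  congr 2
  ring

end gen

variable {ι : Type} [Fintype ι] [DecidableEq ι] {d : ι → Type} [∀ x, Fintype (d x)]
  [∀ x, DecidableEq (d x)] [∀ x, Nonempty (d x)]

variable {s δ : ℝ}

lemma one_le_dim (A : Finset ι) : (1 : ℝ) ≤ dim d A := by exact_mod_cast dim_pos A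

lemma dim_le_univ (A : Finset ι) : (dim d A : ℝ) ≤ dim d univ := by
  rw [← dim_mul_compl A]
  push_cast
  exact le_mul_of_one_le_right (dim_pos_real A).le (one_le_dim _)

lemma W_posDef {ε : ℝ} (hε : 0 < ε) (hε1 : ε ≤ 1) (s : ℝ) (k : ℕ) (b : Bool) (A : Finset ι) :
    (W d s ε k b A).PosDef := Wm_posDef _ _ _ _ (MM_pos (one_le_dim _) hε hε1)

lemma sy_W (s ε : ℝ) (k : ℕ) (b : Bool) (A : Finset ι) : Sy (W d s ε k b A) := sy_Wm _ _ _ _ _

lemma lw_eq {ε : ℝ} (hε : 0 < ε) (hε1 : ε ≤ 1) (s : ℝ) (k : ℕ) (b : Bool) (A : Finset ι) :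
    lw d s ε k b A = lg (cmp (W d s ε k b A)) :=
  cmp_fc (sy_W _ _ _ _ _) (W_posDef hε hε1 _ _ _ _).1 _

lemma W_commute_rq {e : ℝ} (he : 0 < e) (s ε : ℝ) (k : ℕ) (b : Bool) {A Z : Finset ι}
    (h : Z ⊆ A ∨ Disjoint Z A) (χ : Q.Vec (Cfg d)) (t : ℝ) :
    Commute (W d s ε k b A) (tp k (pw (rq χ Z e) t)) :=
  Wm_commute_tp (supp_pw (supp_rq _ _ _) (rq_isHermitian _ _ _) _)
    (pw_posDef (rq_posDef _ _ he) _).posSemidef h _ _ _ _

lemma tp_pw_neg_mul {e : ℝ} (he : 0 < e) (k : ℕ) (χ : Q.Vec (Cfg d)) (A : Finset ι) (t : ℝ) :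
    tp k (pw (rq χ A e) (-t)) * tp k (pw (rq χ A e) t) = 1 := by
  rw [← tp_mul, pw_neg_mul (rq_posDef _ _ he), tp_one]

/-- the lower bound at a pure state -/
lemma ev_le_W' (hs : 0 < s) (hs1 : s ≤ 1) (hδ : 0 < δ) :
    Ev fun ε k => ∀ (b : Bool) (A : Finset ι) (χ : Q.Vec (Cfg d)), ‖χ‖ = 1 →
      Real.exp (-(δ * k)) • tp k (pw (rq χ A ε) s) ≤ W d s ε k b A :=
  (ev_le_W hs hs1 hδ).mono fun _ _ h b A χ hχ => h b true A (pj χ) (dens_pj hχ)

/-- the upper bound at a pure state -/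
lemma ev_key (hs : 0 < s) (hs1 : s ≤ 1) (hδ : 0 < δ) :
    Ev fun ε k => ∀ (b : Bool) (A : Finset ι) (χ : Q.Vec (Cfg d)) (e : ℝ), ‖χ‖ = 1 → 0 < e →
      qf (tv k χ) (W d s ε k b A * tp k (pw (rq χ A e) (-s))) ≤ Real.exp (δ * k) :=
  (ev_norm_map_W hs hδ).mono fun ε k h b A χ e hχ he => by
    have := h b A ℂ (phiL (tp k (pw (rq χ A e) (-s))) (tv k χ) (tv k χ)) 1 fun ω h1 h2 => by
      rw [phiL_apply, ← tp_mul, ap_tp_tv, inner_tv, norm_pow]
      exact pow_le_one₀ (norm_nonneg _) (key_le A h1 h2 hχ hs.le hs1 he)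
    rw [phiL_apply, mul_one] at this
    exact (Complex.re_le_norm _).trans this

lemma qf_lg_tp {e : ℝ} (he : 0 < e) (k : ℕ) {χ : Q.Vec (Cfg d)} (hχ : ‖χ‖ = 1) (A : Finset ι)
    (t : ℝ) : qf (tv k χ) (lg (tp k (pw (rq χ A e) t))) = k * (t * qf χ (lg (rq χ A e))) := by
  rw [lg_tp k (pw_posDef (rq_posDef _ _ he) _), qf, inner_tv_dG k _ hχ, ← Complex.ofReal_natCast,
    Complex.re_ofReal_mul, lg_pw (rq_posDef _ _ he), ← qf, qf_smul]

theorem ev_compl (hs : 0 < s) (hs1 : s ≤ 1 / 2) (hδ : 0 < δ) :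
    Ev fun ε k => ∀ A : Finset ι, ee ((2 : ℝ) • lw d s ε k true A) ≤
      Real.exp (δ * k) • ee ((2 : ℝ) • lw d s ε k true Aᶜ) := by
  have hδ' : 0 < δ / 6 := by positivity
  have hk : Ev fun _ k => (dk k (Cfg d) : ℝ) ≤ Real.exp (δ / 6 * k) :=
    Eventually.of_forall fun _ => dk_le_exp hδ'
  refine ((((ev_small one_pos 0).and (ev_le_W' (d := d) hs (by linarith) hδ')).and
    (ev_key (d := d) hs (by linarith) hδ')).and hk).mono ?_
  rintro ε k ⟨⟨⟨⟨hε, hε1, -⟩, h1⟩, h2⟩, h3⟩ A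
  have pa := W_posDef (d := d) hε hε1 s k true A
  have pb := W_posDef (d := d) hε hε1 s k true Aᶜ
  have hc : Commute (W d s ε k true A) (W d s ε k true Aᶜ) :=
    Wm_commute_Wf (Or.inr disjoint_compl_left) _ _ _ _ _ _ _ _
  have hc' := cmp_commute (sy_W _ _ _ _ _) (sy_W _ _ _ _ _) hc
  have pa' := cmp_posDef pa
  have pb' := cmp_posDef pb
  have h4 := le_dk_smul (cmp_posDef (posDef_mul_inv pa pb hc)).posSemidef
    (c := Real.exp (δ / 6 * k) * Real.exp (δ / 6 * k)) fun χ => by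
      have hχ := norm_eq_of_mem_sphere χ
      have c1 := W_commute_rq hε s ε k true (A := A) (Or.inr disjoint_compl_left) χ.1 (-s)
      have a1 := mul_le_mul_comm (inv_le_of_le (tp_posDef k (pw_posDef (rq_posDef _ _ hε) _))
        (tp_pw_neg_mul hε k χ.1 Aᶜ s) (h1 true Aᶜ χ hχ)) pa.posSemidef (commute_inv pb hc).symm
        (c1.symm.smul_left _)
      have a2 := re_inner_ap_mono a1 (tv k χ.1)
      rw [← (commute_inv pb hc).eq, Matrix.smul_mul, ← c1.eq] at a2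
      rw [qf_cv_cmp]
      refine a2.trans ?_
      have a3 := h2 true A χ ε hχ hε
      rw [← qf, qf_rsm]
      refine mul_le_mul_of_nonneg_left (le_trans (le_of_eq ?_) a3) (Real.exp_pos _).le
      simp only [qf, ap_mul, ap_tp_tv, pw, fr, ap_fc_rq_compl _ A]
  rw [cmp_mul _ ((sy_W _ _ _ _ _).inv pb), cmp_inv (sy_W _ _ _ _ _) pb] at h4
  have h0 : (dk k (Cfg d) : ℝ) * (Real.exp (δ / 6 * k) * Real.exp (δ / 6 * k)) ≤
      Real.exp (δ / 2 * k) := by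
    refine (mul_le_mul_of_nonneg_right h3 (by positivity)).trans (le_of_eq ?_)
    rw [← Real.exp_add, ← Real.exp_add]; congr 1; ring
  have h5 := mul_le_mul_comm (h4.trans (smul_le_smul_of_nonneg_right h0 zero_le_one)) pb'.posSemidef
    (hc'.mul_left (commute_inv pb' (Commute.refl _)).symm) ((Commute.one_left _).smul_left _)
  rw [Matrix.mul_assoc, Matrix.nonsing_inv_mul _ ((isUnit_iff_isUnit_det _).1 pb'.isUnit),
    Matrix.mul_one, Matrix.smul_mul, Matrix.one_mul] at h5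
  have h6 := sq_le_sq_comm pa'.posSemidef h5 (hc'.smul_right _)
  have e : ∀ {M : Ms k (Cfg d)}, M.PosDef → ee ((2 : ℝ) • lg M) = M * M := fun hM => by
    rw [ee_smul_lg hM, ← one_add_one_eq_two, pw_add hM, pw_one hM.1]
  rw [lw_eq hε hε1, lw_eq hε hε1, e pa', e pb']
  refine h6.trans (le_of_eq ?_)
  rw [smul_mul_smul_comm, ← Real.exp_add]
  congr 2
  ring

theorem ev_lo (hs : 0 < s) (hs1 : s ≤ 1 / 2) (hδ : 0 < δ) :
    Ev fun ε k => ∀ (b : Bool) (A : Finset ι) (χ : Q.Vec (Cfg d)), ‖χ‖ = 1 →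
      |qf (cv k χ) (lw d s ε k b A) + s * k * SV χ A| ≤ δ * k := by
  have hδ' : 0 < δ / 2 := by positivity
  have hD := dim_pos_real (d := d) univ
  refine ((((ev_small one_pos 0).and (ev_small (div_pos hδ hD) 0)).and
    (ev_le_W' (d := d) hs (by linarith) hδ')).and (ev_key (d := d) hs (by linarith) hδ')).mono ?_
  rintro ε k ⟨⟨⟨⟨hε, hε1, -⟩, -, hε2, -⟩, h1⟩, h2⟩ b A χ hχ
  have pa := W_posDef (d := d) hε hε1 s k b A
  have pr := fun t => tp_posDef k (pw_posDef (rq_posDef χ A hε) t)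
  have hc := W_commute_rq hε s ε k b (A := A) (Or.inl Subset.rfl) χ
  have hv : ‖tv k χ‖ = 1 := by rw [norm_tv, hχ, one_pow]
  obtain ⟨l1, l2⟩ := qf_lg_rq χ A hε
  have l3 : ε * dim d A ≤ δ :=
    (mul_le_mul_of_nonneg_left (dim_le_univ A) hε.le).trans ((le_div_iff₀ hD).1 hε2)
  have hk : (0 : ℝ) ≤ k := Nat.cast_nonneg k
  have a1 := re_inner_ap_mono (lg_mono ((pr s).smul (Real.exp_pos _)) (h1 b A χ hχ)) (tv k χ)
  rw [lg_smul (pr s) (Real.exp_pos _), Real.log_exp, ← qf, ← qf, qf_add, qf_rsm, qf_one, hv,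
    qf_lg_tp hε k hχ] at a1
  have pX := posDef_mul pa (pr (-s)) (hc _)
  have a2 := qf_lg_le pX hv
  have a3 := Real.log_le_log (by
    have := exp_qf_le (fr_isHermitian Real.log (W d s ε k b A * tp k (pw (rq χ A ε) (-s)))) hv
    rw [ee_lg pX] at this
    exact (Real.exp_pos _).trans_le this) (h2 b A χ ε hχ hε)
  rw [lg_mul pa (pr (-s)) (hc _), qf_add, qf_lg_tp hε k hχ] at a2
  rw [Real.log_exp] at a3
  have b1 := mul_le_mul_of_nonneg_left l1 (mul_nonneg hk hs.le)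
  have b2 := mul_le_mul_of_nonneg_left (l2.trans (add_le_add_right l3 _)) (mul_nonneg hk hs.le)
  have b3 : k * s * δ ≤ k * (1 / 2) * δ := by gcongr
  have b4 : 0 ≤ δ * k := by positivity
  rw [lw, qf_cv_cmp, abs_le]
  constructor <;> nlinarith

theorem ev_up (hs : 0 < s) (hs1 : s ≤ 1 / 2) (hδ : 0 < δ) :
    Ev fun ε k => ∀ (b : Bool) (A : Finset ι) (g : Sph (Cfg d) → ℝ), Continuous g →
      (∀ χ : Sph (Cfg d), -(s * SV χ.1 A) ≤ g χ) →
      lw d s ε k b A ≤ (k : ℝ) • Tr k g + (δ * k) • (1 : Ms k (Cfg d)) := by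
  have hδ' : 0 < δ / 6 := by positivity
  have hD := dim_pos_real (d := d) univ
  filter_upwards [((ev_small one_pos 0).and (ev_small (div_pos hδ' hD) 0)).and
    (ev_key (d := d) hs (by linarith) hδ')] with ε hE
  obtain ⟨-, ⟨⟨hε, hε1, -⟩, -, hε2, -⟩, -⟩ := hE.exists
  obtain ⟨C, hC, hq⟩ := qf_pw_rq_le (d := d) hε hε1
  obtain ⟨α, hα, hα1, hα2⟩ : ∃ α : ℝ, 0 < α ∧ α ≤ 1 / 2 ∧ C * α ≤ δ / 6 :=
    ⟨min (1 / 2) (δ / 6 / (C + 1)), by positivity, min_le_left _ _, by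
      have := (le_div_iff₀ (by positivity : 0 < C + 1)).1 (min_le_right (1 / 2) (δ / 6 / (C + 1)))
      have h0 : 0 ≤ min (1 / 2) (δ / 6 / (C + 1)) := by positivity
      nlinarith⟩
  filter_upwards [hE, dk_le_exp (n := Cfg d) (mul_pos hα (half_pos hδ))] with k ⟨_, h2⟩ h3 b A g
    hg hS
  have pa := W_posDef (d := d) hε hε1 s k b A
  have hk : (0 : ℝ) ≤ k := Nat.cast_nonneg k
  have := lg_le_of_pw (cmp_posDef pa) hα hg (δ := δ / 2) (fun χ => ?_) h3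
  · rwa [← lw_eq hε hε1, mul_div_cancel₀ _ two_ne_zero] at this
  have hχ := norm_eq_of_mem_sphere χ
  have pq := rq_posDef χ.1 A hε
  have pr := fun t => tp_posDef k (pw_posDef pq t)
  have hc := W_commute_rq hε s ε k b (A := A) (Or.inl Subset.rfl) χ.1
  have hv : ‖tv k χ.1‖ = 1 := by rw [norm_tv, hχ, one_pow]
  have pX := posDef_mul pa (pr (-s)) (hc _)
  set X := W d s ε k b A * tp k (pw (rq χ.1 A ε) (-s)) with hX
  have e1 : W d s ε k b A = X * tp k (pw (rq χ.1 A ε) s) := by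
    rw [hX, Matrix.mul_assoc, tp_pw_neg_mul hε, Matrix.mul_one]
  have e2 : pw (W d s ε k b A) α = pw X α * tp k (pw (rq χ.1 A ε) (α * s)) := by
    rw [e1, pw_mul pX (pr s) ((hc s).mul_left (tp_commute k (fc_commute _ _ _))),
      pw_tp k (pw_posDef pq s), pw_pw pq]
  have a1 : ‖ap (pw X α) (tv k χ.1)‖ ≤ Real.exp (α * (δ / 6 * k)) := by
    rw [← sq_le_sq₀ (norm_nonneg _) (Real.exp_pos _).le, norm_ap_pw_sq pX, ← Real.exp_nat_mul]
    refine (qf_pw_le pX.posSemidef hv (by positivity) (by linarith)).trans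
      ((Real.rpow_le_rpow (re_inner_ap_nonneg pX.posSemidef _) (h2 b A χ ε hχ hε)
        (by positivity)).trans (le_of_eq ?_))
    rw [← Real.exp_mul]; congr 1; push_cast; ring
  have a2 : ‖ap (pw (rq χ.1 A ε) (α * s)) χ.1‖ ≤ Real.exp (α * (g χ + δ / 3)) := by
    rw [← sq_le_sq₀ (norm_nonneg _) (Real.exp_pos _).le, norm_ap_pw_sq pq, ← Real.exp_nat_mul]
    have hs2 : α * s ≤ 1 / 2 * (1 / 2) := by gcongr
    refine (hq A χ _ hχ (by rw [abs_of_pos (by positivity)]; linarith)).trans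
      (Real.exp_le_exp.2 ?_)
    have l2 := (qf_lg_rq χ.1 A hε).2
    have l3 : ε * dim d A ≤ δ / 6 :=
      (mul_le_mul_of_nonneg_left (dim_le_univ A) hε.le).trans ((le_div_iff₀ hD).1 hε2)
    have b1 := mul_le_mul_of_nonneg_left (l2.trans (add_le_add_right l3 _)) hs.le
    have b2 : s * (δ / 6) ≤ 1 / 2 * (δ / 6) := by gcongr
    have b3 : s * qf χ.1 (lg (rq χ.1 A ε)) ≤ g χ + δ / 6 := by nlinarith [hS χ]
    have b4 : C * α * s ^ 2 ≤ δ / 6 * (1 / 2) ^ 2 := by gcongr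
    have b5 := mul_le_mul_of_nonneg_left b3 hα.le
    have b6 := mul_le_mul_of_nonneg_left b4 hα.le
    have b7 : 0 < α * δ := by positivity
    push_cast
    nlinarith
  rw [pw, fr, ← cmp_fc (sy_W _ _ _ _ _) pa.1, qf_cv_cmp, ← fr, ← pw, e2, qf, ap_mul,
    inner_ap_right, pw_conjTranspose, ap_tp_tv]
  refine (Complex.re_le_norm _).trans ((norm_inner_le_norm _ _).trans ?_)
  rw [norm_tv]
  refine (mul_le_mul a1 (pow_le_pow_left₀ (norm_nonneg _) a2 k) (by positivity)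
    (Real.exp_pos _).le).trans (le_of_eq ?_)
  rw [← Real.exp_nat_mul, ← Real.exp_add]
  congr 1
  ring

theorem ev_up' (hs : 0 < s) (hs1 : s ≤ 1 / 2) (hδ : 0 < δ) :
    Ev fun ε k => ∀ (b : Bool) (A : Finset ι) (g : Sph (Cfg d) → ℝ), Continuous g →
      (∀ χ : Sph (Cfg d), s * SV χ.1 A ≤ g χ) →
      -lw d s ε k b A ≤ (k : ℝ) • Tr k g + (δ * k) • (1 : Ms k (Cfg d)) := by
  have hδ' : 0 < δ / 4 := by positivity
  filter_upwards [(ev_small one_pos 0).and (ev_le_W' (d := d) hs (by linarith) hδ')] with ε hE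
  obtain ⟨-, ⟨hε, hε1, -⟩, -⟩ := hE.exists
  obtain ⟨C, hC, hq⟩ := qf_pw_rq_le (d := d) hε hε1
  obtain ⟨α, hα, hα1, hα2⟩ : ∃ α : ℝ, 0 < α ∧ α ≤ 1 / 2 ∧ C * α ≤ δ / 4 :=
    ⟨min (1 / 2) (δ / 4 / (C + 1)), by positivity, min_le_left _ _, by
      have := (le_div_iff₀ (by positivity : 0 < C + 1)).1 (min_le_right (1 / 2) (δ / 4 / (C + 1)))
      have h0 : 0 ≤ min (1 / 2) (δ / 4 / (C + 1)) := by positivity
      nlinarith⟩
  filter_upwards [hE, dk_le_exp (n := Cfg d) (mul_pos hα (half_pos hδ))] with k ⟨_, h1⟩ h3 b A g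
    hg hS
  have pa := W_posDef (d := d) hε hε1 s k b A
  have hk : (0 : ℝ) ≤ k := Nat.cast_nonneg k
  have := lg_le_of_pw (cmp_posDef pa).inv hα hg (δ := δ / 2) (fun χ => ?_) h3
  · rwa [lg_inv (cmp_posDef pa), ← lw_eq hε hε1, mul_div_cancel₀ _ two_ne_zero] at this
  have hχ := norm_eq_of_mem_sphere χ
  have pq := rq_posDef χ.1 A hε
  have pr := fun t => tp_posDef k (pw_posDef pq t)
  have a1 := pw_mono pa.inv.posSemidef (inv_le_of_le (pr s) (tp_pw_neg_mul hε k χ.1 A s)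
    (h1 b A χ hχ)) hα.le (by linarith)
  rw [pw_smul (pr _) (Real.exp_pos _), pw_tp k (pw_posDef pq _), pw_pw pq] at a1
  have a2 : qf χ.1 (pw (rq χ.1 A ε) (α * -s)) ≤ Real.exp (α * (g χ + δ / 4)) := by
    have hs2 : α * s ≤ 1 / 2 * (1 / 2) := by gcongr
    refine (hq A χ _ hχ (by rw [mul_neg, abs_neg, abs_of_pos (by positivity)]; linarith)).trans
      (Real.exp_le_exp.2 ?_)
    have b1 := mul_le_mul_of_nonneg_left (qf_lg_rq χ.1 A hε).1 hs.le
    have b3 : -(s * qf χ.1 (lg (rq χ.1 A ε))) ≤ g χ := by nlinarith [hS χ]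
    have b4 : C * α * s ^ 2 ≤ δ / 4 * (1 / 2) ^ 2 := by gcongr
    have b5 := mul_le_mul_of_nonneg_left b3 hα.le
    have b6 := mul_le_mul_of_nonneg_left b4 hα.le
    have b7 : 0 < α * δ := by positivity
    nlinarith
  rw [← cmp_inv (sy_W _ _ _ _ _) pa, pw, fr, ← cmp_fc ((sy_W _ _ _ _ _).inv pa) pa.inv.1,
    qf_cv_cmp]
  refine (re_inner_ap_mono a1 _).trans ?_
  rw [← qf, qf_rsm, qf_tv_tp k (pw_isHermitian _ _), ← Real.exp_mul]
  refine (mul_le_mul_of_nonneg_left (pow_le_pow_left₀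
    (re_inner_ap_nonneg (pw_posDef pq _).posSemidef _) a2 k) (Real.exp_pos _).le).trans
    (le_of_eq ?_)
  rw [← Real.exp_nat_mul, ← Real.exp_add]
  congr 1
  ring

end I2

variable {ι : Type} [Fintype ι] [DecidableEq ι] {d : ι → Type} [∀ x, Fintype (d x)]
  [∀ x, DecidableEq (d x)] [∀ x, Nonempty (d x)]

variable {s δ : ℝ}

theorem ev_compl (hs : 0 < s) (hs1 : s ≤ 1 / 2) (hδ : 0 < δ) :
    Ev fun ε k => ∀ A : Finset ι, ee ((2 : ℝ) • lw d s ε k true A) ≤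
      Real.exp (δ * k) • ee ((2 : ℝ) • lw d s ε k true Aᶜ) :=
  I2.ev_compl hs hs1 hδ

theorem ev_lo (hs : 0 < s) (hs1 : s ≤ 1 / 2) (hδ : 0 < δ) :
    Ev fun ε k => ∀ (b : Bool) (A : Finset ι) (χ : Q.Vec (Cfg d)), ‖χ‖ = 1 →
      |qf (cv k χ) (lw d s ε k b A) + s * k * SV χ A| ≤ δ * k :=
  I2.ev_lo hs hs1 hδ

theorem ev_up (hs : 0 < s) (hs1 : s ≤ 1 / 2) (hδ : 0 < δ) :
    Ev fun ε k => ∀ (b : Bool) (A : Finset ι) (g : Sph (Cfg d) → ℝ), Continuous g →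
      (∀ χ : Sph (Cfg d), -(s * SV χ.1 A) ≤ g χ) →
      lw d s ε k b A ≤ (k : ℝ) • Tr k g + (δ * k) • (1 : Ms k (Cfg d)) :=
  I2.ev_up hs hs1 hδ

theorem ev_up' (hs : 0 < s) (hs1 : s ≤ 1 / 2) (hδ : 0 < δ) :
    Ev fun ε k => ∀ (b : Bool) (A : Finset ι) (g : Sph (Cfg d) → ℝ), Continuous g →
      (∀ χ : Sph (Cfg d), s * SV χ.1 A ≤ g χ) →
      -lw d s ε k b A ≤ (k : ℝ) • Tr k g + (δ * k) • (1 : Ms k (Cfg d)) :=
  I2.ev_up' hs hs1 hδ

end Crest.Agent.N336.R
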