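import Crest.Agent.N336.R.Ineq1
import Crest.Agent.N336.R.Ineq2

/-! # Row 336, replica package: the asymptotic inequalities

`ev_mono`, `ev_gain` are in `R/Ineq1`; `ev_compl`, `ev_lo`, `ev_up`, `ev_up'` in `R/Ineq2`. -/
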