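import Crest.Agent.N336.R.LD
import Crest.Agent.N336.R.Ineq
import Crest.Agent.N336.C.SV

/-! # Row 336, replica package: assembly -/

set_option autoImplicit false
set_option linter.unusedSectionVars false

open Matrix Finset MeasureTheory Filter
open scoped ComplexOrder MatrixOrder Matrix.Norms.L2Operator InnerProductSpace Topology

namespace Crest.Agent.N336.R

open Crest.Agent.N336.Q Crest.Agent.N336.Eng Crest.Agent.N336.C

namespace Mn

section gen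

variable {n : Type} [Fintype n] [DecidableEq n]

lemma conj_add_le {V : Matrix n n ℂ} (hV : V.PosSemidef) (a b : Matrix n n ℂ) :
    (a + b)ᴴ * V * (a + b) ≤ (2 : ℝ) • (aᴴ * V * a) + (2 : ℝ) • (bᴴ * V * b) := by
  rw [Matrix.le_iff]
  have : (2 : ℝ) • (aᴴ * V * a) + (2 : ℝ) • (bᴴ * V * b) - (a + b)ᴴ * V * (a + b) =
      (a - b)ᴴ * V * (a - b) := by
    simp only [two_smul, conjTranspose_add, conjTranspose_sub, Matrix.add_mul, Matrix.mul_add,
      Matrix.sub_mul, Matrix.mul_sub]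
    abel
  rw [this]
  exact hV.conjTranspose_mul_mul_same _

lemma smul_one_mono {c c' : ℝ} (h : c ≤ c') :
    c • (1 : Matrix n n ℂ) ≤ c' • (1 : Matrix n n ℂ) := by
  rw [Matrix.le_iff, ← sub_smul]; exact PosSemidef.one.smul (sub_nonneg.2 h)

lemma rsmul_mono {c : ℝ} (hc : 0 ≤ c) {A B : Matrix n n ℂ} (h : A ≤ B) : c • A ≤ c • B := by
  rw [Matrix.le_iff, ← smul_sub]; exact (Matrix.le_iff.1 h).smul hc

lemma conj_inv_le {V : Matrix n n ℂ} {t : ℝ} (ht : 0 < t) (h : t • (1 : Matrix n n ℂ) ≤ V)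
    (b : Matrix n n ℂ) : bᴴ * V⁻¹ * b ≤ (t⁻¹ * ‖b‖ ^ 2) • (1 : Matrix n n ℂ) := by
  have h1 := inv_anti (PosDef.one.smul ht) h
  have h2 : (t • (1 : Matrix n n ℂ))⁻¹ = t⁻¹ • (1 : Matrix n n ℂ) :=
    Matrix.inv_eq_left_inv (by rw [smul_mul_smul_comm, inv_mul_cancel₀ ht.ne', one_smul, mul_one])
  rw [h2] at h1
  refine (conj_mono h1 b).trans ?_
  rw [Matrix.mul_smul, Matrix.mul_one, Matrix.smul_mul, mul_smul]
  refine rsmul_mono (inv_nonneg.2 ht.le) ?_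
  refine (le_norm_smul_one (isHermitian_conjTranspose_mul_self b)).trans (smul_one_mono ?_)
  rw [l2_opNorm_conjTranspose_mul_self, sq]

variable [Nonempty n]

lemma Tr_lin (k : ℕ) {g : Sph n → ℝ} (hg : Continuous g) (a b : ℝ) :
    Tr k (fun χ => a * g χ + b) = a • Tr k g + b • (1 : Ms k n) := by
  have h1 : Continuous fun χ => (a : ℂ) * (g χ : ℂ) :=
    continuous_const.mul (Complex.continuous_ofReal.comp hg)
  have := Tc_add k h1 (continuous_const (y := (b : ℂ)))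
  rw [Tc_smul, Tc_const, Complex.coe_smul, Complex.coe_smul] at this
  rw [← this, Tr]
  simp only [Complex.ofReal_add, Complex.ofReal_mul]

/-- the defect bound from the symbol -/
lemma dfc_core (k : ℕ) {c : Sph n → ℂ} {h g : Sph n → ℝ} (hc : Continuous c) (hh : Continuous h)
    (hg : Continuous g) (h0 : ∀ χ, 0 ≤ h χ) (g0 : ∀ χ, 0 ≤ g χ)
    (H : ∀ χ, ‖c χ - h χ‖ ^ 2 ≤ g χ / 8 * (h χ + g χ / 8)) {δ : ℝ} (hδ : 0 < δ) {X : Ms k n}
    (hX : ‖X - Tc k c‖ ≤ δ / 6) :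
    ∃ W : Ms k n, W.PosDef ∧ (X - W)ᴴ * W⁻¹ * (X - W) ≤ Tr k g + δ • (1 : Ms k n) := by
  set v : Sph n → ℝ := fun χ => h χ + g χ / 8 + δ / 8 with hv
  have cv' : Continuous v := (hh.add (hg.div_const 8)).add continuous_const
  have vp : ∀ χ, 0 < v χ := fun χ => by
    have := h0 χ; have := g0 χ; simp only [hv]; positivity
  obtain ⟨hW, h1⟩ := Tc_defect k hc cv' vp
  refine ⟨Tr k v, hW, ?_⟩
  have h2 : (Tr k fun χ => ‖c χ - v χ‖ ^ 2 / v χ) ≤ Tr k fun χ => 1 / 2 * g χ + δ / 4 := by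
    refine Tr_mono k (Continuous.div
      ((hc.sub (Complex.continuous_ofReal.comp cv')).norm.pow 2) cv' fun χ => (vp χ).ne')
      ((continuous_const.mul hg).add continuous_const) fun χ => ?_
    rw [div_le_iff₀ (vp χ)]
    have e : c χ - v χ = (c χ - h χ) - ((g χ / 8 + δ / 8 : ℝ) : ℂ) := by
      simp only [hv]; push_cast; ring
    have a0 := h0 χ
    have a1 := g0 χ
    have a2 : ‖c χ - v χ‖ ≤ ‖c χ - h χ‖ + (g χ / 8 + δ / 8) := by
      rw [e]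
      refine (norm_sub_le _ _).trans ?_
      rw [Complex.norm_real, Real.norm_of_nonneg (by positivity)]
    have a3 := H χ
    have a4 := pow_le_pow_left₀ (norm_nonneg _) a2 2
    simp only [hv] at a4 ⊢
    nlinarith [sq_nonneg (‖c χ - h χ‖ - (g χ / 8 + δ / 8)), mul_nonneg a0 a1, mul_nonneg a0 hδ.le,
      mul_nonneg a1 hδ.le]
  rw [Tr_lin k hg] at h2
  have h3 : (δ / 8) • (1 : Ms k n) ≤ Tr k v := by
    have := Tr_mono k (f := fun χ => 0 * g χ + δ / 8) (by fun_prop) cv' fun χ => by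
      have := h0 χ; have := g0 χ; simp only [hv]; linarith
    rwa [Tr_lin k hg, zero_smul, zero_add] at this
  have h4 := conj_inv_le (by positivity) h3 (X - Tc k c)
  have h5 := conj_add_le hW.inv.posSemidef (Tc k c - Tr k v) (X - Tc k c)
  rw [show Tc k c - Tr k v + (X - Tc k c) = X - Tr k v by abel] at h5
  refine h5.trans ((add_le_add (rsmul_mono zero_le_two (h1.trans h2))
    (rsmul_mono zero_le_two h4)).trans ?_)
  rw [smul_add, smul_smul, smul_smul, smul_smul, add_assoc, ← add_smul]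
  rw [show (2 : ℝ) * (1 / 2) = 1 by norm_num, one_smul]
  refine add_le_add le_rfl (smul_one_mono ?_)
  have a4 := pow_le_pow_left₀ (norm_nonneg _) hX 2
  have : (δ / 8)⁻¹ * ‖X - Tc k c‖ ^ 2 ≤ δ / 4 := by
    rw [inv_mul_le_iff₀ (by positivity)]; nlinarith
  linarith

end gen

variable {ι : Type} [Fintype ι] [DecidableEq ι] {d : ι → Type} [∀ x, Fintype (d x)]
  [∀ x, DecidableEq (d x)] [∀ x, Nonempty (d x)]

/-- the one-body map -/
noncomputable def hhL (k : ℕ) (n : Type) [Fintype n] [DecidableEq n] :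
    Matrix n n ℂ →ₗ[ℂ] Ms k n where
  toFun h := (k : ℂ)⁻¹ • cmp (dG k h)
  map_add' A B := by rw [dG_add, cmp_add, smul_add]
  map_smul' c A := by rw [dG_smul, cmp_smul, smul_comm, RingHom.id_apply]

/-- the replica data -/
noncomputable def rp (d : ι → Type) [∀ x, Fintype (d x)] [∀ x, DecidableEq (d x)]
    [∀ x, Nonempty (d x)] (s ε : ℝ) (k : ℕ) : Rp d (Sym (Cfg d) k) :=
  ⟨k, lw d s ε k, hhL k (Cfg d), fun O => cmp (tp k O), cv k, TL k (Cfg d)⟩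

lemma one_le_dim : (1 : ℝ) ≤ dim d univ := by exact_mod_cast dim_pos (d := d) univ

variable {s ε : ℝ} {k : ℕ}

lemma W_pd (hε : 0 < ε) (hε1 : ε ≤ 1) (b : Bool) (A : Finset ι) : (W d s ε k b A).PosDef :=
  Wm_posDef _ _ _ _ (MM_pos one_le_dim hε hε1)

lemma sy_W (b : Bool) (A : Finset ι) : Sy (W d s ε k b A) := sy_Wm _ _ _ _ _

lemma sy_lgW (hε : 0 < ε) (hε1 : ε ≤ 1) (b : Bool) (A : Finset ι) : Sy (lg (W d s ε k b A)) :=
  (sy_W b A).fc (W_pd hε hε1 b A).1 _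

lemma rp_alg (hε : 0 < ε) (hε1 : ε ≤ 1) (hk : 1 ≤ k) : (rp d s ε k).Alg where
  k_pos := hk
  herm _ _ := cmp_isHermitian (fr_isHermitian _ _)
  comm b b' A A' h := cmp_commute (sy_lgW hε hε1 b A) (sy_lgW hε hε1 b' A')
    (commute_fc_fc (W_pd hε hε1 b A).1 (W_pd hε hε1 b' A').1
      (Wm_commute_Wf h k _ _ _ _ _ _ _).symm)
  comm_hh b A _ h hs hZ := (cmp_commute (sy_lgW hε hε1 b A) (sy_dG k h)
    (commute_fc_left _ (W_pd hε hε1 b A).1 (Wm_commute_dG hs hZ k _ _ _))).smul_right _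
  comm_tp b A _ O hs hO hZ := cmp_commute (sy_lgW hε hε1 b A) (sy_tp k O)
    (commute_fc_left _ (W_pd hε hε1 b A).1 (Wm_commute_tp hs hO hZ k _ _ _))
  hh_pos _ h := (cmp_posSemidef (dG_posSemidef k h)).smul (by positivity)
  hh_cv H Ω E h := by
    change ap ((k : ℂ)⁻¹ • cmp (dG k H)) (cv k Ω) = E • cv k Ω
    have : (k : ℂ) ≠ 0 := by exact_mod_cast (by omega : k ≠ 0)
    rw [ap_smul, ap_cmp_dG k h, smul_smul, inv_mul_cancel_left₀ this]
  tp_cv O χ := ap_cmp_tp k O χ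
  tp_proj O h h' := ⟨cmp_isHermitian (tp_isHermitian k h), by
    change cmp (tp k O) * cmp (tp k O) = cmp (tp k O)
    rw [← cmp_mul _ (sy_tp k O), ← tp_mul, h']⟩
  cv_norm χ h := by
    change ‖cv k χ‖ = 1
    rw [norm_cv, h, one_pow]
  cv_smul c χ := cv_smul k c χ
  T_one := Tc_one k
  T_mono f g h := Tr_mono k f.continuous g.continuous h

lemma ee_lw (hε : 0 < ε) (hε1 : ε ≤ 1) (b : Bool) (A : Finset ι) :
    ee (lw d s ε k b A) = cmp (W d s ε k b A) :=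
  (cmp_fc (sy_lgW hε hε1 b A) (fr_isHermitian _ _) _).symm.trans
    (congrArg cmp (ee_lg (W_pd hε hε1 b A)))

lemma ee_neg_lw (hε : 0 < ε) (hε1 : ε ≤ 1) (b : Bool) (A : Finset ι) :
    ee (-lw d s ε k b A) = cmp (W d s ε k b A)⁻¹ := by
  rw [cmp_inv (sy_W b A) (W_pd hε hε1 b A), ← ee_lw hε hε1]
  exact ee_neg (cmp_isHermitian (fr_isHermitian _ _))

lemma rp_X (hε : 0 < ε) (hε1 : ε ≤ 1) (A Y : Finset ι) (h : Q.Op d) :
    (rp d s ε k).X A Y h = cmp ((W d s ε k true A)⁻¹ * W d s ε k false Y * ((k : ℂ)⁻¹ • dG k h) *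
      (W d s ε k false Y)⁻¹ * W d s ε k true A) := by
  rw [cmp_mul _ (sy_W true A), cmp_mul _ ((sy_W false Y).inv (W_pd hε hε1 false Y)),
    cmp_mul _ ((sy_dG k h).smul _), cmp_mul _ (sy_W false Y), cmp_smul]
  change ee (-lw d s ε k true A) * ee (lw d s ε k false Y) * ((k : ℂ)⁻¹ • cmp (dG k h)) *
    ee (-lw d s ε k false Y) * ee (lw d s ε k true A) = _
  rw [ee_lw hε hε1, ee_lw hε hε1, ee_neg_lw hε hε1, ee_neg_lw hε hε1]

lemma sym_eq {P Y A : Finset ι} (hd : Disjoint Y P) (hA : A = P ∨ A = Pᶜ) (χ : Q.Vec (Cfg d))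
    (s ε ε' : ℝ) (h : Q.Op d) :
    ⟪χ, ap (pw (rq χ A ε) (-s) * pw (rq χ Y ε') s * h * pw (rq χ Y ε') (-s) *
      pw (rq χ A ε) s) χ⟫_ℂ = sym χ P Y s ε ε' h := by
  have hc : ∀ t t' : ℝ, Commute (pw (rq χ Y ε') t) (pw (rq χ P ε) t') := fun t t' =>
    commute_fc_fc (rq_isHermitian _ _ _) (rq_isHermitian _ _ _)
      ((supp_rq _ _ _).commute (supp_rq _ _ _) hd)
  have h1 : ⟪χ, ap (pw (rq χ P ε) (-s) * pw (rq χ Y ε') s * h * pw (rq χ Y ε') (-s) *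
      pw (rq χ P ε) s) χ⟫_ℂ = sym χ P Y s ε ε' h := by
    rw [sym, (hc _ _).eq, Matrix.mul_assoc _ (pw (rq χ Y ε') (-s)), (hc _ _).eq,
      ← Matrix.mul_assoc]
  rcases hA with rfl | rfl
  · exact h1
  · rw [← h1]
    simp only [Matrix.mul_assoc]
    rw [ap_mul, inner_ap_right, ap_mul (pw (rq χ P ε) (-s)), inner_ap_right (pw (rq χ P ε) (-s)),
      pw_conjTranspose, pw_conjTranspose]
    simp only [ap_mul]
    rw [ap_fc_rq_compl _ P χ ε, ap_fc_rq_compl _ P χ ε]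

lemma adm_Ls (A : Finset ι) (hs : 0 < s) (hs1 : s ≤ 1) (hε : 0 < ε) (hε1 : ε ≤ 1) (b : Bool)
    (χ : Q.Vec (Cfg d)) (hχ : ‖χ‖ = 1) :
    Adm A (MM (dim d univ) ε) (Ls A s (eb (dim d univ) ε b) χ) := by
  have h := div_le_self hε.le (one_le_dim (d := d))
  refine (adm_reg A hs hs1 hε hε1 (dens_pj hχ) (e := eb (dim d univ) ε b) ?_ ?_ le_rfl hε.le).1
  all_goals cases b <;> simp [eb, h]

lemma ev_of {p : ℝ → ℕ → Prop} (h : ∀ ε, 0 < ε → ε ≤ 1 → ∀ᶠ k in atTop, p ε k) : Ev p :=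
  Filter.mem_of_superset (Ioc_mem_nhdsGT (zero_lt_one' ℝ)) fun ε hε => h ε hε.1 hε.2

/-- the conjugated term has the symbol `sym` -/
lemma hasSym_rp {P Y A : Finset ι} (hd : Disjoint Y P) (hA : A = P ∨ A = Pᶜ) (hs : 0 < s)
    (hs1 : s ≤ 1) (hε : 0 < ε) (hε1 : ε ≤ 1) (h : Q.Op d) :
    HasSym (fun k => (rp d s ε k).X A Y h) fun χ => sym χ.1 P Y s ε (ε / dim d univ) h := by
  have hA' : Y ⊆ A ∨ Disjoint Y A := by
    rcases hA with rfl | rfl
    · exact Or.inr hd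
    · exact Or.inl (subset_compl_iff_disjoint_right.2 hd)
  exact (hasSym_X hA' hs hε (div_pos hε (dim_pos_real univ)) (MM_pos one_le_dim hε hε1)
    (adm_Ls A hs hs1 hε hε1 true) (adm_Ls Y hs hs1 hε hε1 false) h).congr
    (Eventually.of_forall fun k => (rp_X hε hε1 A Y h).symm) fun χ => sym_eq hd hA _ _ _ _ _

lemma rpow_aux {x y l : ℝ} {a a' : ℕ} (ha : 1 ≤ a) (haa : a ≤ a') (hx : 0 ≤ x) (hxy : x ≤ y)
    (hl : 1 ≤ l) (hxl : x ≤ 3 * l) : x ^ ((1 : ℝ) / a) ≤ 3 * l * y ^ ((1 : ℝ) / a') := by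
  have a0 : (1 : ℝ) ≤ a := by exact_mod_cast ha
  have a1 : (a : ℝ) ≤ a' := by exact_mod_cast haa
  have p0 : 0 ≤ (1 : ℝ) / a' := by positivity
  have h1 : x ^ ((1 : ℝ) / a') ≤ y ^ ((1 : ℝ) / a') := Real.rpow_le_rpow hx hxy p0
  rcases le_total x 1 with h | h
  · have h2 : x ^ ((1 : ℝ) / a) ≤ x ^ ((1 : ℝ) / a') :=
      Real.rpow_le_rpow_of_exponent_ge' hx h p0 (one_div_le_one_div_of_le (by linarith) a1)
    have h3 : 0 ≤ y ^ ((1 : ℝ) / a') := Real.rpow_nonneg (hx.trans hxy) _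
    nlinarith
  · have h2 : x ^ ((1 : ℝ) / a) ≤ x := by
      conv_rhs => rw [← Real.rpow_one x]
      exact Real.rpow_le_rpow_of_exponent_le h ((div_le_one (by linarith)).2 a0)
    have h3 : 1 ≤ y ^ ((1 : ℝ) / a') := Real.one_le_rpow (h.trans hxy) p0
    nlinarith

theorem rep0 (hK : KStmt) (hG : GStmt) : RepStmt := by
  obtain ⟨aK, CK, haK, hCK, hK⟩ := hK
  obtain ⟨aG, CG, haG, hCG, hG⟩ := hG
  refine ⟨aK + aG, 24 * CK + CG + 2, by omega, by linarith, ?_⟩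
  intro ι _ _ d _ _ _ V _ h Z J l s δ hh hJ hl hs hC hδ
  have l0 : 0 ≤ l := by linarith
  have lK : l ^ aK * l ≤ l ^ (aK + aG) := by
    rw [← pow_succ]; exact pow_le_pow_right₀ hl (by omega)
  have lK' : l ^ aK ≤ l ^ (aK + aG) := pow_le_pow_right₀ hl (by omega)
  have lG : l ^ aG ≤ l ^ (aK + aG) := pow_le_pow_right₀ hl (by omega)
  have l1 : 1 ≤ l ^ (aK + aG) := one_le_pow₀ hl
  have q0 : 0 ≤ l ^ (aK + aG) * s := by positivity
  have hs2 : s ≤ 1 / 2 := by nlinarith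
  have hs1 : s ≤ 1 := by linarith
  have cK : CK * l ^ aK * s ≤ 1 := by
    have : CK * l ^ aK * s ≤ CK * l ^ (aK + aG) * s := by gcongr
    nlinarith
  have cG : CG * l ^ aG * s ≤ 1 := by
    have : CG * l ^ aG * s ≤ CG * l ^ (aK + aG) * s := by gcongr
    nlinarith
  have hD := dim_pos_real (d := d) univ
  have hD1 := one_le_dim (d := d)
  have e1 : Ev fun ε k => ∀ q : V × Finset ι × Finset ι × Finset ι, Disjoint q.2.2.1 q.2.1 →
      q.2.2.2 = q.2.1 ∨ q.2.2.2 = q.2.1ᶜ → ‖(rp d s ε k).X q.2.2.2 q.2.2.1 (h q.1) -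
        Tc k fun χ => sym χ.1 q.2.1 q.2.2.1 s ε (ε / dim d univ) (h q.1)‖ ≤ δ / 6 :=
    Ev.all fun q => ev_of fun ε hε hε1 => by
      by_cases h1 : Disjoint q.2.2.1 q.2.1 ∧ (q.2.2.2 = q.2.1 ∨ q.2.2.2 = q.2.1ᶜ)
      · exact ((hasSym_rp h1.1 h1.2 hs hs1 hε hε1 (h q.1)).lim.eventually
          (ge_mem_nhds (by positivity : (0 : ℝ) < δ / 6))).mono fun k hk _ _ => hk
      · exact Eventually.of_forall fun k h2 h3 => (h1 ⟨h2, h3⟩).elim
  have e2 : Ev fun _ k => (dk k (Cfg d) : ℝ) ≤ Real.exp (δ * k) ∧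
      ‖(k : ℂ)⁻¹ • cmp (dG k (∑ v, h v)) - Tc k fun χ => ⟪χ.1, ap (∑ v, h v) χ.1⟫_ℂ‖ ≤ δ :=
    ev_of fun ε _ _ => (dk_le_exp hδ).and ((hasSym_dG _).lim.eventually (ge_mem_nhds hδ))
  obtain ⟨ε, k, ⟨hε, hεc, hk⟩, e1, ⟨e2, e3⟩, m1, m2, m3, m4, m5, m6⟩ :=
    ((ev_small (c := min δ 1 / (2 * dim d univ)) (by positivity) 1).and (e1.and (e2.and
      ((ev_mono (d := d) hs hs2 hδ).and ((ev_compl (d := d) hs hs2 hδ).and
      ((ev_gain (d := d) hs hs2 hδ).and ((ev_lo (d := d) hs hs2 hδ).and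
      ((ev_up (d := d) hs hs2 hδ).and (ev_up' (d := d) hs hs2 hδ))))))))).exists
  rw [le_div_iff₀ (by positivity)] at hεc
  have c1 : 2 * ε * dim d univ ≤ δ := by linarith [min_le_left δ 1]
  have c2 : 2 * ε * dim d univ ≤ 1 := by linarith [min_le_right δ 1]
  have c0 : 0 ≤ ε * dim d univ := by positivity
  have c3 : ε * dim d univ ≤ 1 := by linarith
  have hε1 : ε ≤ 1 := by nlinarith
  refine ⟨Sym (Cfg d) k, inferInstance, inferInstance, rp d s ε k, rp_alg hε hε1 hk,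
    ⟨fun M g hM H => ?_, m1, m2, fun P y Y h1 h2 h3 hy χ hχ => ?_,
      fun v P y Y A h1 h2 h3 h4 h5 hA hv hZ g H => ?_, fun b A g H => m5 b A g g.continuous H,
      fun b A g H => m6 b A g g.continuous H, m4, fun g H => ?_⟩⟩
  · have b1 := bl hM (g := fun χ => k * g χ + 0) (by fun_prop) fun χ => by
      rw [add_zero]; exact H χ
    rw [Tr_lin k g.continuous, zero_smul, add_zero] at b1
    refine b1.trans (add_le_add le_rfl (smul_one_mono ?_))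
    exact (Real.log_le_iff_le_exp (by exact_mod_cast dk_pos k)).2 e2
  · refine (m3 P y Y χ _ h1 h2 h3 hχ fun ω ω' w1 w2 w3 w4 =>
      hG ι d P y Y ω ω' χ l s ε h1 h2 h3 w1 w2 w3 w4 hl hy hs cG hχ hε c3).trans ?_
    have b1 : s ^ (1 + (1 : ℝ) / aG) ≤ s ^ (1 + (1 : ℝ) / (aK + aG : ℕ)) :=
      Real.rpow_le_rpow_of_exponent_ge hs hs1 (add_le_add le_rfl (one_div_le_one_div_of_le
        (by exact_mod_cast haG) (by exact_mod_cast Nat.le_add_left _ _)))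
    change _ ≤ Real.exp (k * _)
    gcongr
    linarith
  · have hd : Disjoint (Y ∪ y) P := disjoint_union_left.2 ⟨h2.symm, h1.symm⟩
    have key : ∀ χ : Sph (Cfg d), ∃ e : ℝ, 0 ≤ e ∧ e ≤ g χ / 8 ∧
        ‖sym χ.1 P (Y ∪ y) s ε (ε / dim d univ) (h v) - (qf χ.1 (h v) : ℂ)‖ ^ 2 ≤
          e * (qf χ.1 (h v) + e) := fun χ => by
      have hχ : ‖χ.1‖ = 1 := norm_eq_of_mem_sphere χ
      have n0 := C.eta_nonneg χ.1 h1 h2 h3
      have n1 := C.eta_le hχ P y Y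
      have n2 := log_dim_mono (d := d) h4
      refine ⟨_, by positivity, ?_, hK ι d P y Y (Z v) (h v) χ.1 J l s ε (ε / dim d univ) h1 h2 h3
        h4 h5 (hh v).2 (hh v).1 hv hl hZ hs cK hχ (by positivity)
        (div_mul_cancel₀ _ hD.ne').le c3⟩
      have r1 := rpow_aux (x := eta χ.1 P y Y + 2 * ε * dim d univ) (y := eta χ.1 P y Y + δ)
        haK (Nat.le_add_right aK aG) (by positivity) (by linarith) hl (by linarith)
      have r0 : 0 ≤ (eta χ.1 P y Y + δ) ^ ((1 : ℝ) / (aK + aG : ℕ)) := by positivity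
      have r2 := H χ
      set u := (eta χ.1 P y Y + δ) ^ ((1 : ℝ) / (aK + aG : ℕ))
      calc _ ≤ CK * J * s ^ 2 * l ^ aK * (3 * l * u) := by gcongr
        _ = 24 * CK * J * s ^ 2 * (l ^ aK * l) * u / 8 := by ring
        _ ≤ (24 * CK + CG + 2) * J * s ^ 2 * l ^ (aK + aG) * u / 8 := by gcongr; linarith
        _ ≤ g χ / 8 := by gcongr
    have q0 : ∀ χ : Sph (Cfg d), 0 ≤ qf χ.1 (h v) := fun χ => re_inner_ap_nonneg (hh v).1 _
    refine dfc_core k (hasSym_rp hd hA hs hs1 hε hε1 (h v)).cont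
      (h := fun χ => qf χ.1 (h v)) (by fun_prop) g.continuous q0 (fun χ => ?_) (fun χ => ?_) hδ
      (e1 (v, P, Y ∪ y, A) hd hA)
    · obtain ⟨e, r0, r1, -⟩ := key χ
      linarith
    · obtain ⟨e, r0, r1, r2⟩ := key χ
      have := q0 χ
      refine r2.trans ?_
      gcongr
      linarith
  · have hH : (∑ v, h v).PosSemidef := posSemidef_sum _ fun v _ => (hh v).1
    have b1 : (Tc k fun χ => ⟪χ.1, ap (∑ v, h v) χ.1⟫_ℂ) = Tr k fun χ => qf χ.1 (∑ v, h v) :=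
      congrArg (Tc k) (funext fun χ => Complex.ext rfl (im_inner_ap hH.1 _))
    rw [b1, norm_sub_rev] at e3
    have b2 := (le_norm_smul_one ((Tr_isHermitian k _).sub
      ((rp_alg (s := s) hε hε1 hk).hh_pos _ hH).1)).trans (smul_one_mono e3)
    exact (Tr_mono k g.continuous (by fun_prop) H).trans (sub_le_iff_le_add'.1 b2)

end Mn

theorem rep (hK : KStmt) (hG : GStmt) : RepStmt := Mn.rep0 hK hG

end Crest.Agent.N336.R
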