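import Crest.Agent.N336.R.CohP

/-! # Row 336, replica package: coherent states, Berezin-Lieb -/

set_option autoImplicit false
set_option linter.unusedSectionVars false

open Matrix Finset MeasureTheory Filter
open scoped ComplexOrder MatrixOrder Matrix.Norms.L2Operator InnerProductSpace Topology

namespace Crest.Agent.N336.R

open Crest.Agent.N336.Q Crest.Agent.N336.Eng Crest.Agent.N336.C

variable {n : Type} [Fintype n] [DecidableEq n] [Nonempty n] {k : ℕ}

instance : IsProbabilityMeasure (sm n) := by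
  have : NeZero (Measure.addHaar : Measure (Q.Vec n)).toSphere :=
    ⟨Measure.toSphere_ne_zero _⟩
  exact isProbabilityMeasureSMul

/-- a unitary as a continuous linear equivalence -/
noncomputable def uE {U : Matrix n n ℂ} (h1 : Uᴴ * U = 1) (h2 : U * Uᴴ = 1) :
    Q.Vec n ≃L[ℂ] Q.Vec n :=
  ContinuousLinearEquiv.equivOfInverse (ap U) (ap Uᴴ)
    (fun v => by rw [← ap_mul, h1, ap_one]) (fun v => by rw [← ap_mul, h2, ap_one])

lemma map_ap_addHaar {U : Matrix n n ℂ} (h1 : Uᴴ * U = 1) (h2 : U * Uᴴ = 1) :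
    (Measure.addHaar : Measure (Q.Vec n)).map (ap U) = Measure.addHaar := by
  have : ((Measure.addHaar : Measure (Q.Vec n)).map (ap U)).IsAddHaarMeasure :=
    (uE h1 h2).isAddHaarMeasure_map _
  have h := Measure.isAddLeftInvariant_eq_smul
    ((Measure.addHaar : Measure (Q.Vec n)).map (ap U)) Measure.addHaar
  have hb : ((Measure.addHaar : Measure (Q.Vec n)).map (ap U)) (Metric.ball 0 1) =
      Measure.addHaar (Metric.ball (0 : Q.Vec n) 1) := by
    rw [Measure.map_apply (ap U).continuous.measurable Metric.isOpen_ball.measurableSet]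
    congr 1
    ext v
    simp [norm_ap_unitary h1]
  have h0 : (Measure.addHaar : Measure (Q.Vec n)) (Metric.ball 0 1) ≠ 0 :=
    (Metric.measure_ball_pos _ _ one_pos).ne'
  rw [h, Measure.smul_apply, ENNReal.smul_def, smul_eq_mul] at hb
  have h3 := (ENNReal.mul_left_inj h0 measure_ball_lt_top.ne).1 (hb.trans (one_mul _).symm)
  rw [h, ENNReal.coe_eq_one.1 h3, one_smul]

/-- action of a unitary on the sphere -/
noncomputable def uS {U : Matrix n n ℂ} (h1 : Uᴴ * U = 1) (χ : Sph n) : Sph n :=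
  ⟨ap U χ.1, by rw [mem_sphere_zero_iff_norm, norm_ap_unitary h1, norm_eq_of_mem_sphere]⟩

lemma continuous_uS {U : Matrix n n ℂ} (h1 : Uᴴ * U = 1) : Continuous (uS h1) :=
  ((ap U).continuous.comp continuous_subtype_val).subtype_mk _

open scoped Pointwise in
lemma map_uS {U : Matrix n n ℂ} (h1 : Uᴴ * U = 1) (h2 : U * Uᴴ = 1) :
    (sm n).map (uS h1) = sm n := by
  have key : (Measure.addHaar : Measure (Q.Vec n)).toSphere.map (uS h1) =
      (Measure.addHaar : Measure (Q.Vec n)).toSphere := by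
    ext s hs
    rw [Measure.map_apply (continuous_uS h1).measurable hs,
      Measure.toSphere_apply' _ ((continuous_uS h1).measurable hs), Measure.toSphere_apply' _ hs]
    congr 1
    conv_rhs => rw [← map_ap_addHaar h1 h2]
    have := (uE h1 h2).toHomeomorph.toMeasurableEquiv.map_apply
      (μ := (Measure.addHaar : Measure (Q.Vec n))) (Set.Ioo (0 : ℝ) 1 • (Subtype.val '' s))
    refine Eq.trans ?_ this.symm
    congr 1
    ext v
    simp only [Set.mem_preimage, Set.mem_smul, Set.mem_image]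
    change _ ↔ ∃ a ∈ Set.Ioo (0 : ℝ) 1, ∃ b, (∃ x ∈ s, ↑x = b) ∧ a • b = ap U v
    constructor
    · rintro ⟨a, ha, _, ⟨x, hx, rfl⟩, rfl⟩
      exact ⟨a, ha, _, ⟨_, hx, rfl⟩, ((ap U).map_smul_of_tower a x.1).symm⟩
    · rintro ⟨a, ha, _, ⟨x, hx, rfl⟩, h⟩
      have h3 : (Uᴴ)ᴴ * Uᴴ = 1 := by rw [conjTranspose_conjTranspose, h2]
      refine ⟨a, ha, _, ⟨uS h3 x, ?_, rfl⟩, ?_⟩
      · have : uS h1 (uS h3 x) = x := Subtype.ext (by
          change ap U (ap Uᴴ x.1) = x.1
          rw [← ap_mul, h2, ap_one])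
        rwa [this]
      · change a • ap Uᴴ x.1 = v
        rw [← (ap Uᴴ).map_smul_of_tower, h, ← ap_mul, h1, ap_one]
  rw [sm, Measure.map_smul, key]

lemma integral_uS {U : Matrix n n ℂ} (h1 : Uᴴ * U = 1) (h2 : U * Uᴴ = 1) {E : Type*}
    [NormedAddCommGroup E] [NormedSpace ℝ E] {F : Sph n → E} (hF : Continuous F) :
    ∫ χ, F (uS h1 χ) ∂(sm n) = ∫ χ, F χ ∂(sm n) := by
  rw [← integral_map (continuous_uS h1).measurable.aemeasurable hF.aestronglyMeasurable,
    map_uS h1 h2]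

lemma integrable_sm {E : Type*} [NormedAddCommGroup E] {F : Sph n → E} (hF : Continuous F) :
    Integrable F (sm n) :=
  hF.integrable_of_hasCompactSupport (HasCompactSupport.of_compactSpace _)

lemma norm_sph (χ : Sph n) : ‖χ.1‖ = 1 := norm_eq_of_mem_sphere χ

lemma continuous_pj_cv (k : ℕ) : Continuous fun χ : Sph n => pj (cv k χ.1) :=
  continuous_pj.comp ((continuous_cv k).comp continuous_subtype_val)

lemma continuous_tp_pj (k : ℕ) : Continuous fun χ : Sph n => tp k (pj χ.1) :=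
  (continuous_tp k).comp (continuous_pj.comp continuous_subtype_val)

/-- the averaged product projection -/
noncomputable def G0 (k : ℕ) (n : Type) [Fintype n] [DecidableEq n] : Mk k n :=
  ∫ χ, tp k (pj χ.1) ∂(sm n)

lemma G0_commute_unitary (k : ℕ) {U : Matrix n n ℂ} (h1 : Uᴴ * U = 1) (h2 : U * Uᴴ = 1) :
    Commute (G0 k n) (tp k U) := by
  have hi := integrable_sm (continuous_tp_pj (n := n) k)
  have h : G0 k n = tp k U * G0 k n * tp k Uᴴ := by
    rw [G0, ← integral_const_mul_of_integrable hi, ← integral_mul_const_of_integrable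
      (hi.const_mul _), ← integral_uS h1 h2 (continuous_tp_pj k)]
    refine integral_congr_ae (ae_of_all _ fun χ => ?_)
    change tp k (pj (ap U χ.1)) = _
    rw [pj_ap, tp_mul, tp_mul]
  change G0 k n * tp k U = tp k U * G0 k n
  conv_lhs => rw [h]
  rw [Matrix.mul_assoc, ← tp_mul, h1, tp_one, Matrix.mul_one]

lemma G0_commute_dG (k : ℕ) {A : Matrix n n ℂ} (hA : A.IsHermitian) :
    Commute (G0 k n) (dG k A) := by
  refine commute_dG_of_unitary hA fun t => G0_commute_unitary k ?_ ?_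
  all_goals
    rw [fc_conjTranspose, fc_mul, ← fc_one A]
    refine fc_congr fun i => ?_
    rw [Complex.star_def, ← Complex.exp_conj, ← Complex.exp_add]
    simp

lemma G0_isHermitian (k : ℕ) : (G0 k n).IsHermitian :=
  isHermitian_integral (ae_of_all _ fun _ => tp_isHermitian k (pj_isHermitian _))

lemma G0_eig (k : ℕ) {v : Q.Vec n} (hv : ‖v‖ = 1) :
    ap (G0 k n) (tv k v) = ⟪tv k v, ap (G0 k n) (tv k v)⟫_ℂ • tv k v := by
  have h : Commute (G0 k n) (tp k (pj v)) :=
    commute_tp_of_dG (pj_posSemidef v) fun g => G0_commute_dG k (fr_isHermitian _ _)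
  rw [tp_pj] at h
  have h1 := congrArg (fun M => ap M (tv k v)) h.eq
  simp only [ap_mul, ap_kb, inner_self_eq_norm_sq_to_K, norm_tv, hv] at h1
  simpa using h1

lemma G0_const (k : ℕ) {v w : Q.Vec n} (hv : ‖v‖ = 1) (hw : ‖w‖ = 1) (h : ⟪v, w⟫_ℂ ≠ 0) :
    ⟪tv k v, ap (G0 k n) (tv k v)⟫_ℂ = ⟪tv k w, ap (G0 k n) (tv k w)⟫_ℂ := by
  have h1 := inner_ap_right (G0 k n) (tv k v) (tv k w)
  rw [(G0_isHermitian k).eq, G0_eig k hv, G0_eig k hw, inner_smul_right, inner_smul_left,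
    inner_tv, Complex.conj_eq_iff_im.2 (im_inner_ap (G0_isHermitian k) _)] at h1
  exact (mul_right_cancel₀ (pow_ne_zero k h) h1).symm

lemma G0_const' (k : ℕ) {v w : Q.Vec n} (hv : ‖v‖ = 1) (hw : ‖w‖ = 1) :
    ⟪tv k v, ap (G0 k n) (tv k v)⟫_ℂ = ⟪tv k w, ap (G0 k n) (tv k w)⟫_ℂ := by
  by_cases h : ⟪v, w⟫_ℂ = 0
  · have h' : ⟪w, v⟫_ℂ = 0 := by rw [← inner_conj_symm, h, map_zero]
    have h1 : ⟪v, v + w⟫_ℂ = 1 := by
      rw [inner_add_right, h, inner_self_eq_norm_sq_to_K, hv]; simp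
    have h2 : ⟪w, v + w⟫_ℂ = 1 := by
      rw [inner_add_right, h', inner_self_eq_norm_sq_to_K, hw]; simp
    have h0 : ‖v + w‖ ≠ 0 := fun h0 => by
      rw [norm_eq_zero.1 h0, inner_zero_right] at h1; exact zero_ne_one h1
    have hc : ((‖v + w‖ : ℂ))⁻¹ ≠ 0 := inv_ne_zero (by exact_mod_cast h0)
    have hu : ‖((‖v + w‖ : ℂ))⁻¹ • (v + w)‖ = 1 := by
      rw [norm_smul, norm_inv, Complex.norm_real, norm_norm, inv_mul_cancel₀ h0]
    rw [G0_const k hv hu (by rwa [inner_smul_right, h1, mul_one]),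
      G0_const k hw hu (by rwa [inner_smul_right, h2, mul_one])]
  · exact G0_const k hv hw h

/-- compression as a continuous linear map -/
noncomputable def cmpL (k : ℕ) (n : Type) [Fintype n] [DecidableEq n] : Mk k n →L[ℂ] Ms k n :=
  LinearMap.toContinuousLinearMap
    { toFun := cmp, map_add' := cmp_add, map_smul' := cmp_smul }

lemma cmp_integral {X : Type*} [MeasurableSpace X] {μ : Measure X} {F : X → Mk k n}
    (hF : Integrable F μ) : cmp (∫ x, F x ∂μ) = ∫ x, cmp (F x) ∂μ :=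
  ((cmpL k n).integral_comp_comm hF).symm

/-- trace as a continuous linear map -/
noncomputable def trL (m : Type) [Fintype m] [DecidableEq m] : Matrix m m ℂ →L[ℂ] ℂ :=
  LinearMap.toContinuousLinearMap (Matrix.traceLinearMap m ℂ ℂ)

lemma trace_integral {m : Type} [Fintype m] [DecidableEq m] {X : Type*} [MeasurableSpace X]
    {μ : Measure X} {F : X → Matrix m m ℂ} (hF : Integrable F μ) :
    trace (∫ x, F x ∂μ) = ∫ x, trace (F x) ∂μ :=
  ((trL m).integral_comp_comm hF).symm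

lemma norm_cv_sph (k : ℕ) (χ : Sph n) : ‖cv k χ.1‖ = 1 := by rw [norm_cv, norm_sph, one_pow]

lemma dk_smul_integral (k : ℕ) :
    (dk k n : ℂ) • ∫ χ, pj (cv k χ.1) ∂(sm n) = (1 : Ms k n) := by
  obtain ⟨v, hv⟩ := exists_norm_eq (Q.Vec n) zero_le_one
  set a := ⟪tv k v, ap (G0 k n) (tv k v)⟫_ℂ
  have h1 : ∫ χ, pj (cv k χ.1) ∂(sm n) = cmp (G0 k n) := by
    rw [G0, cmp_integral (integrable_sm (continuous_tp_pj k))]
    simp only [cmp_tp_pj]
  have hs : Sy (G0 k n - a • 1) := (Sy.integral fun _ => sy_tp _ _).sub (sy_one.smul a)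
  have h2 : cmp (G0 k n) = a • (1 : Ms k n) := by
    rw [← sub_eq_zero, ← cmp_one, ← cmp_smul, ← cmp_sub]
    refine ext_cv fun χ hχ => ?_
    rw [← norm_eq_zero, norm_ap_cmp_cv hs, ap_sub, ap_smul, ap_one, G0_eig k hχ,
      G0_const' k hχ hv, sub_self, norm_zero]
  have h3 := trace_integral (integrable_sm (continuous_pj_cv (n := n) k))
  simp only [trace_pj, norm_cv_sph, one_pow, integral_const, probReal_univ, one_smul] at h3
  rw [h1, h2, trace_smul, trace_one, smul_eq_mul, Complex.ofReal_one] at h3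
  rw [h1, h2, smul_smul, mul_comm, h3, one_smul]

theorem Tc_one (k : ℕ) : Tc k (fun _ : Sph n => 1) = 1 := by
  simp only [Tc, one_smul, dk_smul_integral]

lemma integrable_Tc (k : ℕ) {f : Sph n → ℂ} (hf : Continuous f) :
    Integrable (fun χ : Sph n => f χ • pj (cv k χ.1)) (sm n) :=
  integrable_sm (hf.smul (continuous_pj_cv k))

lemma Tc_add (k : ℕ) {f g : Sph n → ℂ} (hf : Continuous f) (hg : Continuous g) :
    Tc k (fun χ => f χ + g χ) = Tc k f + Tc k g := by
  simp only [Tc, add_smul]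
  rw [integral_add (integrable_Tc k hf) (integrable_Tc k hg), smul_add]

lemma Tc_sub (k : ℕ) {f g : Sph n → ℂ} (hf : Continuous f) (hg : Continuous g) :
    Tc k (fun χ => f χ - g χ) = Tc k f - Tc k g := by
  simp only [Tc, sub_smul]
  rw [integral_sub (integrable_Tc k hf) (integrable_Tc k hg), smul_sub]

lemma Tc_smul (k : ℕ) (c : ℂ) (f : Sph n → ℂ) : Tc k (fun χ => c * f χ) = c • Tc k f := by
  simp only [Tc, mul_smul]
  rw [integral_smul, smul_comm]

lemma Tc_neg (k : ℕ) (f : Sph n → ℂ) : Tc k (fun χ => -f χ) = -Tc k f := by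
  simp only [Tc, neg_smul, integral_neg, smul_neg]

lemma Tc_const (k : ℕ) (c : ℂ) : Tc k (fun _ : Sph n => c) = c • (1 : Ms k n) := by
  rw [← Tc_one, ← Tc_smul]; simp only [mul_one]

lemma Tc_conj (k : ℕ) (f : Sph n → ℂ) : Tc k (fun χ => star (f χ)) = (Tc k f)ᴴ := by
  simp only [Tc, conjTranspose_smul, ← integral_conjTranspose, (pj_isHermitian _).eq,
    star_natCast]

lemma Tr_isHermitian (k : ℕ) (f : Sph n → ℝ) : (Tr k f).IsHermitian := by
  unfold Matrix.IsHermitian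
  rw [← Tc_conj]
  simp only [Complex.star_def, Complex.conj_ofReal]

/-- the density of the coherent state POVM -/
noncomputable def PP (k : ℕ) (χ : Sph n) : Ms k n := (dk k n : ℝ) • pj (cv k χ.1)

lemma PP_posSemidef (k : ℕ) (χ : Sph n) : (PP k χ).PosSemidef :=
  (pj_posSemidef _).smul (Nat.cast_nonneg _)

lemma continuous_PP (k : ℕ) : Continuous (PP k : Sph n → Ms k n) :=
  (continuous_pj_cv k).const_smul (dk k n : ℝ)

lemma Tc_eq (k : ℕ) (f : Sph n → ℂ) : Tc k f = ∫ χ, f χ • PP k χ ∂(sm n) := by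
  rw [Tc, ← integral_smul]
  refine integral_congr_ae (ae_of_all _ fun χ => ?_)
  simp only [PP, rsmul_eq, Complex.ofReal_natCast]
  rw [smul_comm]

lemma Tr_eq (k : ℕ) (f : Sph n → ℝ) : Tr k f = ∫ χ, f χ • PP k χ ∂(sm n) := Tc_eq k _

lemma integral_PP (k : ℕ) : ∫ χ, PP k χ ∂(sm n) = 1 := by
  simpa only [Tc_eq, one_smul] using Tc_one (n := n) k

lemma Tr_const (k : ℕ) (c : ℝ) : Tr k (fun _ : Sph n => c) = c • (1 : Ms k n) := Tc_const k c

lemma Tr_mono (k : ℕ) {f g : Sph n → ℝ} (hf : Continuous f) (hg : Continuous g)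
    (h : ∀ χ, f χ ≤ g χ) : Tr k f ≤ Tr k g := by
  rw [Tr_eq, Tr_eq]
  exact integral_mono_mat (integrable_sm (hf.smul (continuous_PP k)))
    (integrable_sm (hg.smul (continuous_PP k)))
    (ae_of_all _ fun χ => rsmul_le_rsmul (PP_posSemidef k χ) (h χ))

lemma Tr_posDef (k : ℕ) {v : Sph n → ℝ} (hv : Continuous v) (h : ∀ χ, 0 < v χ) :
    (Tr k v).PosDef := by
  obtain ⟨w, hw⟩ := exists_norm_eq (Q.Vec n) zero_le_one
  have : Nonempty (Sph n) := ⟨⟨w, mem_sphere_zero_iff_norm.2 hw⟩⟩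
  obtain ⟨χ, -, hχ⟩ := isCompact_univ.exists_isMinOn Set.univ_nonempty hv.continuousOn
  refine posDef_of_le (PosDef.one.smul (h χ)) ?_
  rw [← Tr_const]
  exact Tr_mono k continuous_const hv fun χ' => hχ (Set.mem_univ χ')

lemma Tc_schur (k : ℕ) {e : Sph n → ℂ} {v : Sph n → ℝ} (he : Continuous e) (hv : Continuous v)
    (h : ∀ χ, 0 < v χ) :
    (Tc k e)ᴴ * (Tr k v)⁻¹ * Tc k e ≤ Tr k fun χ => ‖e χ‖ ^ 2 / v χ := by
  have hp := Tr_posDef k hv h
  rw [Tr_eq] at hp
  rw [Tr_eq, Tr_eq, Tc_eq]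
  exact schur (ae_of_all _ (PP_posSemidef k)) (ae_of_all _ h)
    (integrable_sm (he.smul (continuous_PP k))) (integrable_sm (hv.smul (continuous_PP k)))
    (integrable_sm (((he.norm.pow 2).div hv fun χ => (h χ).ne').smul (continuous_PP k))) hp

lemma norm_Tc_le (k : ℕ) {f : Sph n → ℂ} (hf : Continuous f) {C : ℝ} (h : ∀ χ, ‖f χ‖ ≤ C) :
    ‖Tc k f‖ ≤ C := by
  obtain ⟨w, hw⟩ := exists_norm_eq (Q.Vec n) zero_le_one
  have hC : 0 ≤ C := (norm_nonneg _).trans (h ⟨w, mem_sphere_zero_iff_norm.2 hw⟩)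
  have h1 := Tc_schur k hf (v := fun _ => 1) continuous_const fun _ => one_pos
  rw [Tr_const, one_smul, inv_one, Matrix.mul_one] at h1
  have h2 : Tr k (fun χ => ‖f χ‖ ^ 2 / 1) ≤ Tr k fun _ : Sph n => C ^ 2 :=
    Tr_mono k ((hf.norm.pow 2).div_const 1) continuous_const fun χ => by
      rw [div_one]; exact pow_le_pow_left₀ (norm_nonneg _) (h χ) 2
  rw [Tr_const] at h2
  have h3 := (le_smul_one_iff (posSemidef_conjTranspose_mul_self _) (sq_nonneg C)).1 (h1.trans h2)
  rw [l2_opNorm_conjTranspose_mul_self, ← sq] at h3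
  exact (pow_le_pow_iff_left₀ (norm_nonneg _) hC two_ne_zero).1 h3

/-- the Toeplitz map as a linear map -/
noncomputable def TL (k : ℕ) (n : Type) [Fintype n] [DecidableEq n] [Nonempty n] :
    C(Sph n, ℝ) →ₗ[ℝ] Ms k n where
  toFun f := Tr k f
  map_add' f g := by
    simp only [Tr, ContinuousMap.add_apply, Complex.ofReal_add]
    exact Tc_add k (Complex.continuous_ofReal.comp f.continuous)
      (Complex.continuous_ofReal.comp g.continuous)
  map_smul' c f := by
    rw [RingHom.id_apply, rsmul_eq, ← Tc_smul]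
    simp only [Tr, ContinuousMap.smul_apply, smul_eq_mul, Complex.ofReal_mul]

lemma TL_apply (k : ℕ) (f : C(Sph n, ℝ)) : TL k n f = Tr k f := rfl

lemma pj_le_qf_smul_inv {m : Type} [Fintype m] [DecidableEq m] {M : Matrix m m ℂ} (hM : M.PosDef)
    (v : Q.Vec m) : pj v ≤ qf v M • M⁻¹ := by
  have h1 : ‖ap (pw M (1 / 2)) v‖ ^ 2 = qf v M := by
    rw [norm_ap_pw_sq hM, mul_one_div_cancel two_ne_zero, pw_one hM.1]
  have h2 : pj (ap (pw M (1 / 2)) v) ≤ qf v M • (1 : Matrix m m ℂ) :=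
    (le_smul_one_iff (pj_posSemidef _) (re_inner_ap_nonneg hM.posSemidef v)).2
      ((norm_kb_le _ _).trans (le_of_eq ((sq _).symm.trans h1)))
  have h3 := conj_mono h2 (pw M (-(1 / 2)))
  rwa [pj_ap, pw_conjTranspose, pw_conjTranspose, ← Matrix.mul_assoc, ← Matrix.mul_assoc,
    pw_neg_mul hM, Matrix.one_mul, Matrix.mul_assoc, pw_mul_neg hM, Matrix.mul_one,
    Matrix.mul_smul, Matrix.mul_one, Matrix.smul_mul, pw_mul_pw hM,
    show -(1 / 2 : ℝ) + -(1 / 2) = -1 by norm_num, pw_neg_one hM] at h3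

/-- Berezin-Lieb -/
theorem bl {M : Ms k n} (hM : M.PosDef) {g : Sph n → ℝ} (hg : Continuous g)
    (h : ∀ χ : Sph n, Real.log (qf (cv k χ.1) M) ≤ g χ) :
    lg M ≤ Tr k g + Real.log (dk k n) • (1 : Ms k n) := by
  obtain ⟨C, hC⟩ := isCompact_univ.exists_bound_of_continuousOn hg.neg.continuousOn
  obtain ⟨h1, h2⟩ := povm_log (integrable_sm (continuous_PP k)) (ae_of_all _ (PP_posSemidef k))
    (integral_PP k) hg.neg.aestronglyMeasurable (ae_of_all _ fun χ => hC χ (Set.mem_univ _))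
  have hd : (0 : ℝ) < dk k n := by exact_mod_cast dk_pos k
  have h3 : ∫ χ, Real.exp ((-g) χ) • PP k χ ∂(sm n) ≤ (dk k n : ℝ) • M⁻¹ := by
    refine (integral_mono_mat (G := fun _ => (dk k n : ℝ) • M⁻¹) (integrable_sm
      ((Real.continuous_exp.comp hg.neg).smul (continuous_PP k))) (integrable_const _)
      (ae_of_all _ fun χ => ?_)).trans (by simp)
    change Real.exp ((-g) χ) • (dk k n : ℝ) • pj (cv k χ.1) ≤ (dk k n : ℝ) • M⁻¹
    rw [smul_comm]
    refine rsmul_mono ?_ hd.le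
    refine (rsmul_mono (pj_le_qf_smul_inv hM _) (Real.exp_pos _).le).trans ?_
    rw [smul_smul]
    conv_rhs => rw [← one_smul ℝ M⁻¹]
    refine rsmul_le_rsmul hM.inv.posSemidef ?_
    rw [Pi.neg_apply, Real.exp_neg, inv_mul_le_iff₀ (Real.exp_pos _), mul_one]
    exact (Real.le_exp_log _).trans (Real.exp_le_exp.2 (h χ))
  have h4 := h2.trans (lg_mono h1 h3)
  rw [lg_smul hM.inv hd, lg_inv hM] at h4
  simp only [Pi.neg_apply, neg_smul, integral_neg, ← Tr_eq] at h4
  rw [Matrix.le_iff] at h4 ⊢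
  have e : Tr k g + Real.log (dk k n) • (1 : Ms k n) - lg M =
      -lg M + Real.log (dk k n) • (1 : Ms k n) - -Tr k g := by abel
  rwa [e]

theorem le_dk_smul {M : Ms k n} (hM : M.PosSemidef) {c : ℝ}
    (h : ∀ χ : Sph n, qf (cv k χ.1) M ≤ c) : M ≤ (dk k n * c) • (1 : Ms k n) := by
  have hi := integrable_sm (continuous_PP (n := n) k)
  have h1 : trace M = ∫ χ, trace (M * PP k χ) ∂(sm n) := by
    rw [← trace_integral (hi.const_mul M), integral_const_mul_of_integrable hi, integral_PP,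
      Matrix.mul_one]
  have h2 : (trace M).re ≤ dk k n * c := by
    have h3 := Complex.reCLM.integral_comp_comm ((trL _).integrable_comp (hi.const_mul M))
    rw [h1]
    refine le_trans (le_of_eq h3.symm) ?_
    refine (integral_mono (Complex.reCLM.integrable_comp ((trL _).integrable_comp
      (hi.const_mul M))) (integrable_const ((dk k n : ℝ) * c)) fun χ => ?_).trans (by simp)
    change (trace (M * PP k χ)).re ≤ dk k n * c
    rw [PP, Matrix.mul_smul, trace_smul, trace_mul_kb, Complex.smul_re, smul_eq_mul]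
    exact mul_le_mul_of_nonneg_left (h χ) (Nat.cast_nonneg _)
  rw [trace_eq_sum_ev hM.1, Complex.ofReal_re] at h2
  refine le_of_ev_le hM.1 fun i => le_trans ?_ h2
  exact Finset.single_le_sum (fun j _ => ev_nonneg hM j) (Finset.mem_univ i)

/-- Schur complement bound -/
theorem Tc_defect (k : ℕ) {c : Sph n → ℂ} {v : Sph n → ℝ} (hc : Continuous c) (hv : Continuous v)
    (h : ∀ χ, 0 < v χ) : (Tr k v).PosDef ∧
      (Tc k c - Tr k v)ᴴ * (Tr k v)⁻¹ * (Tc k c - Tr k v) ≤
        Tr k fun χ => ‖c χ - v χ‖ ^ 2 / v χ := by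
  have hv' : Continuous fun χ => (v χ : ℂ) := Complex.continuous_ofReal.comp hv
  rw [← Tc_sub k hc hv']
  exact ⟨Tr_posDef k hv h, Tc_schur k (hc.sub hv') hv h⟩

end Crest.Agent.N336.R
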