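import Crest.Agent.N336.R.CohA

/-! # Row 336, replica package: coherent states, Berezin-Lieb, symbols -/

set_option autoImplicit false
set_option linter.unusedSectionVars false

open Matrix Finset MeasureTheory Filter
open scoped ComplexOrder MatrixOrder Matrix.Norms.L2Operator InnerProductSpace Topology

namespace Crest.Agent.N336.R

open Crest.Agent.N336.Q Crest.Agent.N336.Eng Crest.Agent.N336.C

namespace CB

section schur
variable {X : Type*} [TopologicalSpace X] [CompactSpace X] [MeasurableSpace X] [BorelSpace X]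
  [SecondCountableTopology X] {μ : Measure X} [IsFiniteMeasure μ]

lemma intg {E : Type*} [NormedAddCommGroup E] {f : X → E} (hf : Continuous f) : Integrable f μ :=
  hf.integrable_of_hasCompactSupport (HasCompactSupport.of_compactSpace f)

lemma cont_int {S : X → X → ℝ} (hS : Continuous (Function.uncurry S)) :
    Integrable (fun x => ∫ y, S x y ∂μ) μ :=
  (intg (μ := μ.prod μ) hS).integral_prod_left

/-- Schur test -/
lemma schurT {S : X → X → ℝ} (hS : Continuous (Function.uncurry S)) (h0 : ∀ x y, 0 ≤ S x y)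
    (hs : ∀ x y, S x y = S y x) {e : ℝ} (he : ∀ x, ∫ y, S x y ∂μ ≤ e) {a b : X → ℝ}
    (ha : Continuous a) (hb : Continuous b) :
    ∫ x, a x * ∫ y, S x y * b y ∂μ ∂μ ≤ e * ((∫ x, a x ^ 2 ∂μ + ∫ x, b x ^ 2 ∂μ) / 2) := by
  have hS' : ∀ x, Continuous (S x) := fun x => hS.uncurry_left x
  have c1 : Continuous (Function.uncurry fun x y => S x y * b y ^ 2) :=
    hS.mul ((hb.comp continuous_snd).pow 2)
  have c2 : Continuous (Function.uncurry fun x y => S x y * b y) :=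
    hS.mul (hb.comp continuous_snd)
  have h1 : ∀ x, a x * ∫ y, S x y * b y ∂μ ≤
      (e * a x ^ 2 + ∫ y, S x y * b y ^ 2 ∂μ) / 2 := fun x => by
    have : a x * ∫ y, S x y * b y ∂μ ≤ ∫ y, (S x y * a x ^ 2 + S x y * b y ^ 2) / 2 ∂μ := by
      rw [← integral_const_mul]
      refine integral_mono (intg (by fun_prop)) (intg (by fun_prop)) fun y => ?_
      have := mul_nonneg (h0 x y) (sq_nonneg (a x - b y))
      dsimp only
      nlinarith
    rw [integral_div, integral_add (intg (by fun_prop)) (intg (by fun_prop)),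
      integral_mul_const] at this
    have := mul_le_mul_of_nonneg_right (he x) (sq_nonneg (a x))
    linarith
  have h2 : ∫ x, ∫ y, S x y * b y ^ 2 ∂μ ∂μ ≤ e * ∫ x, b x ^ 2 ∂μ := by
    rw [integral_integral_swap (intg (μ := μ.prod μ) c1), ← integral_const_mul]
    refine integral_mono (intg (μ := μ.prod μ) c1).integral_prod_right (intg (by fun_prop))
      fun y => ?_
    dsimp only
    rw [integral_mul_const]
    refine mul_le_mul_of_nonneg_right ?_ (sq_nonneg _)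
    simpa only [hs _ y] using he y
  obtain ⟨C, hC⟩ := isCompact_univ.exists_bound_of_continuousOn ha.continuousOn
  calc ∫ x, a x * ∫ y, S x y * b y ∂μ ∂μ
      ≤ ∫ x, (e * a x ^ 2 + ∫ y, S x y * b y ^ 2 ∂μ) / 2 ∂μ := by
        refine integral_mono ?_ (((intg (by fun_prop)).add (cont_int c1)).div_const 2) h1
        exact (cont_int c2).bdd_mul ha.aestronglyMeasurable
          (Eventually.of_forall fun x => hC x (Set.mem_univ x))
    _ ≤ _ := by
        rw [integral_div, integral_add (intg (by fun_prop)) (cont_int c1), integral_const_mul]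
        linarith

end schur

section mat
variable {m : Type} [Fintype m] [DecidableEq m]

/-- matrix elements as a continuous linear functional -/
noncomputable def mel (u w : Q.Vec m) : Matrix m m ℂ →L[ℂ] ℂ :=
  LinearMap.toContinuousLinearMap
    { toFun := fun M => ⟪u, ap M w⟫_ℂ
      map_add' := fun M N => by rw [ap_add, inner_add_right]
      map_smul' := fun c M => by rw [ap_smul, inner_smul_right]; rfl }

lemma mel_apply (u w : Q.Vec m) (M : Matrix m m ℂ) : mel u w M = ⟪u, ap M w⟫_ℂ := rfl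

lemma norm_le_of_inner {M : Matrix m m ℂ} {c : ℝ} (hc : 0 ≤ c)
    (h : ∀ u w : Q.Vec m, ‖u‖ = 1 → ‖w‖ = 1 → ‖⟪u, ap M w⟫_ℂ‖ ≤ c) : ‖M‖ ≤ c := by
  rw [← norm_ap]
  refine ContinuousLinearMap.opNorm_le_of_unit_norm hc fun w hw => ?_
  by_cases h0 : ap M w = 0
  · rw [h0, norm_zero]; exact hc
  have hn : 0 < ‖ap M w‖ := norm_pos_iff.2 h0
  have := h (((‖ap M w‖⁻¹ : ℝ) : ℂ) • ap M w) w
    (by rw [norm_smul, Complex.norm_real, norm_inv, norm_norm, inv_mul_cancel₀ hn.ne']) hw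
  rw [inner_smul_left, inner_self_eq_norm_sq_to_K, norm_mul, Complex.conj_ofReal,
    Complex.norm_real, norm_inv, norm_norm, norm_pow] at this
  simp only [Complex.coe_algebraMap, Complex.norm_real, norm_norm] at this
  rwa [sq, inv_mul_cancel_left₀ hn.ne'] at this

lemma qf_rs (c : ℝ) (M : Matrix m m ℂ) (v : Q.Vec m) : qf v (c • M) = c * qf v M :=
  qf_smul c M v

lemma herm_rsmul {M : Matrix m m ℂ} (h : M.IsHermitian) (c : ℝ) : (c • M).IsHermitian := by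
  rw [IsHermitian, conjTranspose_smul, h.eq, star_trivial]

lemma norm_le_of_two {M : Matrix m m ℂ} {c : ℝ} (hc : 0 ≤ c) (h1 : M ≤ c • (1 : Matrix m m ℂ))
    (h2 : -M ≤ c • (1 : Matrix m m ℂ)) : ‖M‖ ≤ c := by
  have hM : M.IsHermitian := by
    have := (herm_rsmul isHermitian_one c).sub (Matrix.le_iff.1 h1).1
    rwa [sub_sub_cancel] at this
  rw [← fc_id hM]
  refine norm_fc_le hc fun i => ?_
  have e1 := re_inner_ap_mono h1 (evec M i)
  have e2 := re_inner_ap_mono h2 (evec M i)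
  change qf _ _ ≤ qf _ _ at e1 e2
  rw [qf_rs, qf_one, norm_evec] at e1 e2
  rw [qf_neg] at e2
  rw [Complex.norm_real, Real.norm_eq_abs, ev_eq_re_inner hM, abs_le]
  constructor <;> linarith

lemma qf_ee_le {B : Matrix m m ℂ} (hB : B.IsHermitian) {v : Q.Vec m} (hv : ‖v‖ = 1) :
    qf v (ee B) ≤ 1 + (qf v B + ‖B‖ ^ 2 * Real.exp ‖B‖) := by
  have := qf_fr_le_lin (A := B) (g := Real.exp) (k₁ := fun x => x) (k₂ := fun x => x)
    (k₃ := fun x => x) (a := 1 + ‖B‖ ^ 2 * Real.exp ‖B‖) (b₁ := 1) (b₂ := 0) (b₃ := 0) hv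
    fun i => by
      have h1 := Mom.exp_le_quad (ev B i)
      have h2 := abs_ev_le hB i
      have h3 : ev B i ^ 2 * Real.exp |ev B i| ≤ ‖B‖ ^ 2 * Real.exp ‖B‖ := by
        rw [← sq_abs]; gcongr
      linarith
  rw [fr_id hB] at this
  linarith

lemma pj_smul_of_norm {c : ℂ} (hc : ‖c‖ = 1) (v : Q.Vec m) : pj (c • v) = pj v := by
  rw [pj, kb_smul_left, kb_smul_right, smul_smul, Complex.star_def, Complex.mul_conj,
    Complex.normSq_eq_norm_sq, hc]
  simp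

end mat

variable {n : Type} [Fintype n] [DecidableEq n] [Nonempty n] {k : ℕ}

lemma norm_sph (χ : Sph n) : ‖χ.1‖ = 1 := mem_sphere_zero_iff_norm.1 χ.2

lemma cont_cv (k : ℕ) : Continuous fun χ : Sph n => cv k χ.1 :=
  (continuous_cv k).comp continuous_subtype_val

lemma inner_Tc (k : ℕ) {f : Sph n → ℂ} (hf : Continuous f) (u w : Q.Vec (Sym n k)) :
    ⟪u, ap (Tc k f) w⟫_ℂ =
      dk k n * ∫ χ, f χ * (⟪u, cv k χ.1⟫_ℂ * ⟪cv k χ.1, w⟫_ℂ) ∂(sm n) := by
  rw [← mel_apply, Tc, map_smul, smul_eq_mul, ← ContinuousLinearMap.integral_comp_comm _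
    (intg (f := fun χ : Sph n => f χ • pj (cv k χ.1)) (hf.smul (continuous_pj.comp (cont_cv k))))]
  congr 1
  refine integral_congr_ae (Eventually.of_forall fun χ => ?_)
  simp only [map_smul, mel_apply, smul_eq_mul, ap_kb, inner_smul_right]
  ring

lemma inner_eq_int (k : ℕ) (u w : Q.Vec (Sym n k)) :
    ⟪u, w⟫_ℂ = dk k n * ∫ χ, ⟪u, cv k χ.1⟫_ℂ * ⟪cv k χ.1, w⟫_ℂ ∂(sm n) := by
  have := inner_Tc k (f := fun _ : Sph n => 1) continuous_const u w
  rw [Tc_one, ap_one] at this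
  simpa using this

lemma parseval (k : ℕ) (w : Q.Vec (Sym n k)) :
    dk k n * ∫ χ, ‖⟪cv k χ.1, w⟫_ℂ‖ ^ 2 ∂(sm n) = ‖w‖ ^ 2 := by
  have := inner_eq_int k w w
  rw [inner_self_eq_norm_sq_to_K] at this
  have h2 : ∀ χ : Sph n, ⟪w, cv k χ.1⟫_ℂ * ⟪cv k χ.1, w⟫_ℂ =
      ((‖⟪cv k χ.1, w⟫_ℂ‖ ^ 2 : ℝ) : ℂ) := fun χ => by
    rw [← inner_conj_symm w, Complex.conj_mul']; norm_cast
  simp only [h2, integral_complex_ofReal] at this
  refine Complex.ofReal_injective ?_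
  push_cast at this ⊢
  exact this.symm

lemma kernel_int (j : ℕ) (χ : Sph n) :
    dk j n * ∫ χ', ‖⟪χ.1, χ'.1⟫_ℂ‖ ^ (2 * j) ∂(sm n) = 1 := by
  have := parseval j (cv j χ.1)
  rw [norm_cv, norm_sph, one_pow, one_pow] at this
  refine Eq.trans ?_ this
  congr 1
  refine integral_congr_ae (Eventually.of_forall fun χ' => ?_)
  simp only [inner_cv, norm_pow]
  rw [norm_inner_symm, pow_mul']

lemma exists_eta {g : Sph n → ℂ} (hg : Continuous g) (hi : Inv g) {δ : ℝ} (hδ : 0 < δ) :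
    ∃ η : ℝ, 0 < η ∧ η < 1 ∧ ∀ χ χ' : Sph n, δ ≤ ‖g χ' - g χ‖ → ‖⟪χ.1, χ'.1⟫_ℂ‖ ≤ η := by
  let K : Set (Sph n × Sph n) := {p | δ ≤ ‖g p.2 - g p.1‖}
  have hK : IsCompact K := (isClosed_le continuous_const (by fun_prop)).isCompact
  rcases K.eq_empty_or_nonempty with h | h
  · refine ⟨1 / 2, by norm_num, by norm_num, fun χ χ' hh => ?_⟩
    have : (χ, χ') ∈ K := hh
    rw [h] at this
    exact this.elim
  obtain ⟨p, hp, hm⟩ := hK.exists_isMaxOn h
    (f := fun p : Sph n × Sph n => ‖⟪p.1.1, p.2.1⟫_ℂ‖) (by fun_prop)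
  have hlt : ‖⟪p.1.1, p.2.1⟫_ℂ‖ < 1 := by
    have h1 := norm_inner_le_norm (𝕜 := ℂ) p.1.1 p.2.1
    refine lt_of_le_of_ne (by rwa [norm_sph, norm_sph, one_mul] at h1) fun he => ?_
    have hne : ∀ χ : Sph n, χ.1 ≠ 0 := fun χ => by
      rw [← norm_ne_zero_iff, norm_sph]; exact one_ne_zero
    obtain ⟨r, -, hr⟩ := (norm_inner_eq_norm_iff (𝕜 := ℂ) (hne p.1) (hne p.2)).1
      (by rw [he, norm_sph, norm_sph, one_mul])
    have hr1 : ‖r‖ = 1 := by
      have := norm_sph p.2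
      rwa [hr, norm_smul, norm_sph, mul_one] at this
    have : g p.2 = g p.1 := hi _ _ (by rw [hr, pj_smul_of_norm hr1])
    have hp' : δ ≤ ‖g p.2 - g p.1‖ := hp
    rw [this, sub_self, norm_zero] at hp'
    linarith
  exact ⟨max (1 / 2) ‖⟪p.1.1, p.2.1⟫_ℂ‖, lt_max_of_lt_left (by norm_num),
    max_lt (by norm_num) hlt, fun χ χ' hh => le_max_of_le_right (hm (a := (χ, χ')) hh)⟩

lemma dk_mul_pow {η : ℝ} (h0 : 0 < η) (h1 : η < 1) :
    Tendsto (fun k : ℕ => (dk k n : ℝ) * η ^ k) atTop (𝓝 0) := by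
  have hl : 0 < -Real.log η / 2 := by have := Real.log_neg h0 h1; linarith
  have ht := tendsto_pow_atTop_nhds_zero_of_lt_one (Real.exp_pos (Real.log η / 2)).le
    (Real.exp_lt_one_iff.2 (by linarith))
  refine squeeze_zero' (Eventually.of_forall fun k => by positivity) ?_ ht
  filter_upwards [dk_le_exp (n := n) hl] with k hk
  calc (dk k n : ℝ) * η ^ k ≤ Real.exp (-Real.log η / 2 * k) * Real.exp (Real.log η) ^ k := by
        rw [Real.exp_log h0]; gcongr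
    _ = _ := by
        rw [← Real.exp_nat_mul, ← Real.exp_nat_mul, ← Real.exp_add]; congr 1; ring

lemma kernel_le {g : Sph n → ℂ} (hg : Continuous g) (hi : Inv g) {ε : ℝ} (hε : 0 < ε) :
    ∀ᶠ k : ℕ in atTop, ∀ χ : Sph n,
      dk k n * ∫ χ', ‖g χ' - g χ‖ * ‖⟪χ.1, χ'.1⟫_ℂ‖ ^ k ∂(sm n) ≤ ε := by
  obtain ⟨C, hC⟩ := isCompact_univ.exists_bound_of_continuousOn hg.continuousOn
  have hδ : 0 < ε / 2 / 2 ^ Fintype.card n := by positivity
  obtain ⟨η, h0, h1, hη⟩ := exists_eta hg hi hδ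
  have ht := (dk_mul_pow (n := n) h0 h1).const_mul (2 * C)
  rw [mul_zero] at ht
  filter_upwards [ht.eventually (gt_mem_nhds (half_pos hε))] with k hk χ
  set δ := ε / 2 / 2 ^ Fintype.card n with hδe
  have hC0 : 0 ≤ C := (norm_nonneg _).trans (hC χ (Set.mem_univ _))
  have hp : ∀ χ' : Sph n, ‖g χ' - g χ‖ * ‖⟪χ.1, χ'.1⟫_ℂ‖ ^ k ≤
      δ * ‖⟪χ.1, χ'.1⟫_ℂ‖ ^ (2 * (k / 2)) + 2 * C * η ^ k := fun χ' => by
    have hi1 : ‖⟪χ.1, χ'.1⟫_ℂ‖ ≤ 1 := by
      have h1 := norm_inner_le_norm (𝕜 := ℂ) χ.1 χ'.1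
      rwa [norm_sph, norm_sph, one_mul] at h1
    rcases le_total δ ‖g χ' - g χ‖ with h | h
    · have h2 : ‖g χ' - g χ‖ ≤ 2 * C := by
        linarith [norm_sub_le (g χ') (g χ), hC χ (Set.mem_univ _), hC χ' (Set.mem_univ _)]
      have h3 := hη χ χ' h
      refine le_add_of_nonneg_of_le (by positivity) ?_
      gcongr
    · refine le_add_of_le_of_nonneg ?_ (by positivity)
      exact mul_le_mul h (pow_le_pow_of_le_one (norm_nonneg _) hi1 (Nat.mul_div_le k 2))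
        (by positivity) hδ.le
  have h2 : ∫ χ', ‖g χ' - g χ‖ * ‖⟪χ.1, χ'.1⟫_ℂ‖ ^ k ∂(sm n) ≤
      δ * ∫ χ', ‖⟪χ.1, χ'.1⟫_ℂ‖ ^ (2 * (k / 2)) ∂(sm n) + 2 * C * η ^ k := by
    refine (integral_mono (intg (by fun_prop)) (intg (by fun_prop)) hp).trans ?_
    rw [integral_add (intg (by fun_prop)) (intg (by fun_prop)), integral_const_mul]
    simp
  have h3 := kernel_int (k / 2) χ
  have h4 : (dk k n : ℝ) ≤ 2 ^ Fintype.card n * dk (k / 2) n := by exact_mod_cast dk_le_half k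
  have h5 : 0 ≤ ∫ χ', ‖⟪χ.1, χ'.1⟫_ℂ‖ ^ (2 * (k / 2)) ∂(sm n) :=
    integral_nonneg fun _ => by positivity
  set I := ∫ χ', ‖⟪χ.1, χ'.1⟫_ℂ‖ ^ (2 * (k / 2)) ∂(sm n)
  have h6 : dk k n * (δ * I) ≤ ε / 2 := by
    calc dk k n * (δ * I) ≤ 2 ^ Fintype.card n * dk (k / 2) n * (δ * I) := by gcongr
      _ = 2 ^ Fintype.card n * δ * (dk (k / 2) n * I) := by ring
      _ = ε / 2 := by rw [h3, hδe]; field_simp
  calc _ ≤ dk k n * (δ * I + 2 * C * η ^ k) := by gcongr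
    _ = dk k n * (δ * I) + 2 * C * (dk k n * η ^ k) := by ring
    _ ≤ ε := by linarith

lemma inner_defect_le (k : ℕ) {g : Sph n → ℂ} (hg : Continuous g) (χ : Sph n)
    (w : Q.Vec (Sym n k)) :
    ‖⟪cv k χ.1, ap (Tc k g) w⟫_ℂ - g χ * ⟪cv k χ.1, w⟫_ℂ‖ ≤
      dk k n * ∫ χ', ‖g χ' - g χ‖ * ‖⟪χ.1, χ'.1⟫_ℂ‖ ^ k * ‖⟪cv k χ'.1, w⟫_ℂ‖ ∂(sm n) := by
  have hc := cont_cv (n := n) k
  rw [inner_Tc k hg, inner_eq_int k (cv k χ.1) w, mul_left_comm, ← mul_sub, ← integral_const_mul,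
    ← integral_sub (intg (by fun_prop)) (intg (by fun_prop)), norm_mul, Complex.norm_natCast]
  gcongr
  refine (norm_integral_le_integral_norm _).trans (le_of_eq ?_)
  refine integral_congr_ae (Eventually.of_forall fun χ' => ?_)
  simp only [← sub_mul, norm_mul, inner_cv, norm_pow, mul_assoc]

lemma norm_mul_sub_le (k : ℕ) {f g : Sph n → ℂ} (hf : Continuous f) (hg : Continuous g) {C ε : ℝ}
    (hC : ∀ χ, ‖f χ‖ ≤ C) (hε : 0 ≤ ε) (h : ∀ χ : Sph n,
      dk k n * ∫ χ', ‖g χ' - g χ‖ * ‖⟪χ.1, χ'.1⟫_ℂ‖ ^ k ∂(sm n) ≤ ε) :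
    ‖Tc k f * Tc k g - Tc k fun χ => f χ * g χ‖ ≤ C * ε := by
  have hc := cont_cv (n := n) k
  have hd : (0 : ℝ) < dk k n := by exact_mod_cast dk_pos k
  have hC0 : 0 ≤ C := by
    obtain ⟨χ⟩ : Nonempty (Sph n) := nonempty_of_isProbabilityMeasure (sm n)
    exact (norm_nonneg _).trans (hC χ)
  refine norm_le_of_inner (by positivity) fun u w hu hw => ?_
  have c1 : Continuous (Function.uncurry fun χ χ' : Sph n =>
      ‖g χ' - g χ‖ * ‖⟪χ.1, χ'.1⟫_ℂ‖ ^ k) := by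
    change Continuous fun p : Sph n × Sph n => ‖g p.2 - g p.1‖ * ‖⟪p.1.1, p.2.1⟫_ℂ‖ ^ k
    fun_prop
  have hs := schurT (μ := sm n) c1 (fun _ _ => by positivity)
    (fun χ χ' => by rw [norm_sub_rev, norm_inner_symm]) (e := ε / dk k n)
    (fun χ => by rw [le_div_iff₀' hd]; exact h χ)
    (a := fun χ => ‖⟪cv k χ.1, u⟫_ℂ‖) (b := fun χ => ‖⟪cv k χ.1, w⟫_ℂ‖) (by fun_prop)
    (by fun_prop)
  have p1 := parseval k u
  have p2 := parseval k w
  rw [hu, one_pow] at p1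
  rw [hw, one_pow] at p2
  have c2 : Continuous (Function.uncurry fun χ χ' : Sph n =>
      ‖g χ' - g χ‖ * ‖⟪χ.1, χ'.1⟫_ℂ‖ ^ k * ‖⟪cv k χ'.1, w⟫_ℂ‖) :=
    c1.mul ((by fun_prop : Continuous fun χ : Sph n => ‖⟪cv k χ.1, w⟫_ℂ‖).comp continuous_snd)
  obtain ⟨D, hD⟩ := isCompact_univ.exists_bound_of_continuousOn
    (f := fun χ : Sph n => ‖⟪cv k χ.1, u⟫_ℂ‖) (Continuous.continuousOn (by fun_prop))
  rw [ap_sub, inner_sub_right, ap_mul, inner_Tc k hf,
    inner_Tc k (f := fun χ => f χ * g χ) (hf.mul hg), ← mul_sub,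
    ← integral_sub (intg (by fun_prop)) (intg (by fun_prop)), norm_mul, Complex.norm_natCast]
  calc _ ≤ dk k n * ∫ χ, C * dk k n * (‖⟪cv k χ.1, u⟫_ℂ‖ * ∫ χ',
        ‖g χ' - g χ‖ * ‖⟪χ.1, χ'.1⟫_ℂ‖ ^ k * ‖⟪cv k χ'.1, w⟫_ℂ‖ ∂(sm n)) ∂(sm n) := by
        gcongr
        refine norm_integral_le_of_norm_le (Integrable.const_mul ?_ _)
          (Eventually.of_forall fun χ => ?_)
        · exact (cont_int c2).bdd_mul (by fun_prop : Continuous fun χ : Sph n =>
            ‖⟪cv k χ.1, u⟫_ℂ‖).aestronglyMeasurable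
            (Eventually.of_forall fun x => hD x (Set.mem_univ x))
        · have := inner_defect_le k hg χ w
          calc _ = ‖f χ‖ * (‖⟪cv k χ.1, u⟫_ℂ‖ *
                ‖⟪cv k χ.1, ap (Tc k g) w⟫_ℂ - g χ * ⟪cv k χ.1, w⟫_ℂ‖) := by
                rw [norm_inner_symm (cv k χ.1) u, ← norm_mul, ← norm_mul]; congr 1; ring
            _ ≤ C * (‖⟪cv k χ.1, u⟫_ℂ‖ * _) :=
                mul_le_mul (hC χ) (mul_le_mul_of_nonneg_left this (norm_nonneg _))
                  (by positivity) hC0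
            _ = _ := by ring
    _ ≤ dk k n * (C * dk k n * (ε / dk k n * ((∫ χ, ‖⟪cv k χ.1, u⟫_ℂ‖ ^ 2 ∂(sm n) +
        ∫ χ, ‖⟪cv k χ.1, w⟫_ℂ‖ ^ 2 ∂(sm n)) / 2))) := by
        rw [integral_const_mul]; gcongr
    _ = C * ε * ((dk k n * ∫ χ, ‖⟪cv k χ.1, u⟫_ℂ‖ ^ 2 ∂(sm n) +
        dk k n * ∫ χ, ‖⟪cv k χ.1, w⟫_ℂ‖ ^ 2 ∂(sm n)) / 2) := by field_simp
    _ = _ := by rw [p1, p2]; ring

lemma exists_bd {g : Sph n → ℂ} (hg : Continuous g) : ∃ C : ℝ, 0 < C ∧ ∀ χ, ‖g χ‖ ≤ C := by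
  obtain ⟨C, hC⟩ := isCompact_univ.exists_bound_of_continuousOn hg.continuousOn
  exact ⟨max C 1, lt_max_of_lt_right one_pos, fun χ => le_max_of_le_left (hC χ (Set.mem_univ _))⟩

lemma tendsto_of_le {a : ℕ → ℝ} (h0 : ∀ k, 0 ≤ a k)
    (h : ∀ δ : ℝ, 0 < δ → ∀ᶠ k in atTop, a k ≤ δ) : Tendsto a atTop (𝓝 0) := by
  refine tendsto_order.2 ⟨fun b hb => Eventually.of_forall fun k => hb.trans_le (h0 k),
    fun b hb => ?_⟩
  filter_upwards [h (b / 2) (half_pos hb)] with k hk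
  linarith

end CB

open CB

variable {n : Type} [Fintype n] [DecidableEq n] [Nonempty n] {k : ℕ}

/-- multiplicativity -/
theorem Tc_mul {f g : Sph n → ℂ} (hf : Continuous f) (hg : Continuous g) (hi : Inv g) :
    Tendsto (fun k => ‖Tc k f * Tc k g - Tc k fun χ => f χ * g χ‖) atTop (𝓝 0) := by
  obtain ⟨C, hC0, hC⟩ := exists_bd hf
  refine tendsto_of_le (fun _ => norm_nonneg _) fun δ hδ => ?_
  filter_upwards [kernel_le hg hi (div_pos hδ hC0)] with k hk
  have := norm_mul_sub_le k hf hg hC (div_pos hδ hC0).le hk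
  rwa [mul_div_cancel₀ _ hC0.ne'] at this

variable {G G' : ∀ k : ℕ, Ms k n} {g g' : Sph n → ℂ}

lemma CB.hasSym_Tc (hg : Continuous g) (hi : Inv g) : HasSym (fun k => Tc k g) g :=
  ⟨hg, hi, by simp⟩

lemma HasSym.add (h : HasSym G g) (h' : HasSym G' g') :
    HasSym (fun k => G k + G' k) fun χ => g χ + g' χ := by
  refine ⟨h.cont.add h'.cont, fun χ χ' e => by rw [h.inv _ _ e, h'.inv _ _ e], ?_⟩
  refine squeeze_zero (fun _ => norm_nonneg _) (fun k => ?_) (by simpa using h.lim.add h'.lim)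
  rw [Tc_add k h.cont h'.cont, add_sub_add_comm]
  exact norm_add_le _ _

lemma HasSym.smul (h : HasSym G g) (c : ℂ) : HasSym (fun k => c • G k) fun χ => c * g χ := by
  refine ⟨continuous_const.mul h.cont, fun χ χ' e => by rw [h.inv _ _ e], ?_⟩
  have := h.lim.const_mul ‖c‖
  rw [mul_zero] at this
  refine this.congr fun k => ?_
  rw [Tc_smul, ← smul_sub, norm_smul]

lemma HasSym.mul (h : HasSym G g) (h' : HasSym G' g') :
    HasSym (fun k => G k * G' k) fun χ => g χ * g' χ := by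
  refine ⟨h.cont.mul h'.cont, fun χ χ' e => by rw [h.inv _ _ e, h'.inv _ _ e], ?_⟩
  obtain ⟨C, -, hC⟩ := exists_bd h.cont
  obtain ⟨C', -, hC'⟩ := exists_bd h'.cont
  have ht := ((h.lim.mul (h'.lim.add_const C')).add (h'.lim.const_mul C)).add
    (Tc_mul h.cont h'.cont h'.inv)
  refine squeeze_zero (fun _ => norm_nonneg _) (fun k => ?_) (by simpa using ht)
  have e : G k * G' k - Tc k (fun χ => g χ * g' χ) = (G k - Tc k g) * G' k +
      Tc k g * (G' k - Tc k g') + (Tc k g * Tc k g' - Tc k fun χ => g χ * g' χ) := by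
    noncomm_ring
  have h1 : ‖G' k‖ ≤ ‖G' k - Tc k g'‖ + C' :=
    (norm_le_norm_sub_add _ (Tc k g')).trans (by gcongr; exact norm_Tc_le k h'.cont hC')
  have h2 := norm_Tc_le k h.cont hC
  rw [e]
  refine (norm_add₃_le).trans ?_
  gcongr
  · exact (norm_mul_le _ _).trans (by gcongr)
  · exact (norm_mul_le _ _).trans (by gcongr)

lemma CB.hasSym_const (c : ℂ) : HasSym (fun k => c • (1 : Ms k n)) fun _ => c :=
  ⟨continuous_const, fun _ _ _ => rfl, by simp [Tc_const]⟩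

lemma HasSym.congr (h : HasSym G g) (h1 : ∀ᶠ k in atTop, G k = G' k) (h2 : ∀ χ, g χ = g' χ) :
    HasSym G' g' := by
  obtain rfl : g = g' := funext h2
  exact ⟨h.cont, h.inv, h.lim.congr' (h1.mono fun k hk => by rw [hk])⟩

lemma HasSym.sum {α : Type*} (s : Finset α) {G : α → ∀ k : ℕ, Ms k n} {g : α → Sph n → ℂ}
    (h : ∀ a ∈ s, HasSym (G a) (g a)) :
    HasSym (fun k => ∑ a ∈ s, G a k) fun χ => ∑ a ∈ s, g a χ := by
  classical
  induction s using Finset.induction_on with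
  | empty => simpa using hasSym_const (n := n) 0
  | insert a s ha ih =>
    simp only [Finset.sum_insert ha]
    exact (h a (mem_insert_self _ _)).add (ih fun b hb => h b (mem_insert_of_mem hb))

lemma CB.Tr_neg (k : ℕ) (g : Sph n → ℝ) : Tr k (fun χ => -g χ) = -Tr k g := by
  have := Tc_smul k (-1) fun χ => (g χ : ℂ)
  simpa [Tr] using this

lemma CB.Tr_lin (k : ℕ) {g : Sph n → ℝ} (hg : Continuous g) (a b : ℝ) :
    Tr k (fun χ => a * g χ + b) = a • Tr k g + b • (1 : Ms k n) := by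
  have h1 := Tc_add k (f := fun χ => (a : ℂ) * (g χ : ℂ)) (g := fun _ => (b : ℂ)) (by fun_prop)
    continuous_const
  rw [Tc_smul, Tc_const] at h1
  simp only [Tr, Complex.ofReal_add, Complex.ofReal_mul]
  exact h1

/-- two-sided bounds give the symbol -/
lemma hasSym_of_le {g : Sph n → ℝ} (hg : Continuous g) (hi : Inv fun χ => (g χ : ℂ))
    (h1 : ∀ δ : ℝ, 0 < δ → ∀ᶠ k in atTop, G k ≤ Tr k g + δ • (1 : Ms k n))
    (h2 : ∀ δ : ℝ, 0 < δ → ∀ᶠ k in atTop, -G k ≤ Tr k (fun χ => -g χ) + δ • (1 : Ms k n)) :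
    HasSym G fun χ => (g χ : ℂ) := by
  refine ⟨by fun_prop, hi, tendsto_of_le (fun _ => norm_nonneg _) fun δ hδ => ?_⟩
  filter_upwards [h1 δ hδ, h2 δ hδ] with k e1 e2
  rw [Tr_neg] at e2
  refine norm_le_of_two hδ.le (sub_le_iff_le_add'.2 e1) ?_
  rw [neg_sub, sub_eq_add_neg, ← le_sub_iff_add_le', sub_eq_neg_add]
  exact e2

lemma CB.inv_inner (A : Matrix n n ℂ) : Inv fun χ : Sph n => ⟪χ.1, ap A χ.1⟫_ℂ := fun χ χ' e => by
  simp only [← trace_mul_kb]
  exact congrArg (fun P => trace (A * P)) e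

lemma CB.dG_le {A : Matrix n n ℂ} (hA : A.IsHermitian) {δ : ℝ} (hδ : 0 < δ) :
    ∀ᶠ k : ℕ in atTop, (k : ℂ)⁻¹ • cmp (dG k A) ≤
      Tr k (fun χ : Sph n => qf χ.1 A) + δ • (1 : Ms k n) := by
  set C := ‖A‖ ^ 2 * Real.exp ‖A‖ with hC
  have hC0 : 0 ≤ C := by positivity
  set t := min 1 (δ / 2 / (C + 1)) with ht
  have t0 : 0 < t := lt_min one_pos (by positivity)
  have t1 : t ≤ 1 := min_le_left _ _
  have t2 : t * C ≤ δ / 2 := by
    have := (le_div_iff₀ (by positivity : 0 < C + 1)).1 (min_le_right 1 (δ / 2 / (C + 1)))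
    nlinarith
  have hq : Continuous fun χ : Sph n => qf χ.1 A := by unfold qf; fun_prop
  filter_upwards [dk_le_exp (n := n) (δ := δ / 2 * t) (by positivity), eventually_gt_atTop 0]
    with k hk k0
  have hB := herm_rsmul hA t
  have hP := tp_posDef k (ee_posDef (t • A))
  have hb := bl (cmp_posDef hP) (g := fun χ => k * t * qf χ.1 A + k * (t ^ 2 * C)) (by fun_prop)
    fun χ => by
      rw [qf_cv_cmp, qf_tv_tp k (ee_posDef _).1, Real.log_pow, mul_assoc, ← mul_add]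
      refine mul_le_mul_of_nonneg_left ?_ (Nat.cast_nonneg k)
      have h1 := qf_ee_le hB (norm_sph χ)
      have h2 := (Real.exp_pos _).trans_le (exp_qf_le hB (norm_sph χ))
      have h3 : ‖t • A‖ ^ 2 * Real.exp ‖t • A‖ ≤ t ^ 2 * C := by
        rw [norm_smul, Real.norm_eq_abs, abs_of_pos t0, hC, mul_pow, mul_assoc]
        gcongr
        exact mul_le_of_le_one_left (norm_nonneg _) t1
      have h4 := Real.log_le_sub_one_of_pos h2
      rw [qf_rs] at h1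
      linarith
  rw [lg, fr, ← cmp_fc (sy_tp _ _) hP.1, Tr_lin k hq] at hb
  change cmp (lg _) ≤ _ at hb
  rw [lg_tp k (ee_posDef _), lg_ee hB, dG_rsmul, cmp_rsmul, add_assoc, ← add_smul] at hb
  have k0' : (0 : ℝ) < k := by exact_mod_cast k0
  have hl : Real.log (dk k n) ≤ δ / 2 * t * k :=
    (Real.log_le_iff_le_exp (by exact_mod_cast dk_pos k)).2 hk
  have h5 := smul_le_smul_of_nonneg_left hb (show (0 : ℝ) ≤ (k * t)⁻¹ by positivity)
  rw [smul_add, smul_smul, smul_smul, smul_smul, inv_mul_cancel₀ (by positivity), one_smul,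
    show (k * t : ℝ)⁻¹ * t = (k : ℝ)⁻¹ by field_simp] at h5
  have e : (k : ℂ)⁻¹ • cmp (dG k A) = (k : ℝ)⁻¹ • cmp (dG k A) := by
    rw [← Complex.coe_smul]; simp
  rw [e]
  refine h5.trans ?_
  gcongr
  rw [inv_mul_le_iff₀ (by positivity)]
  nlinarith [mul_le_mul_of_nonneg_left t2 (mul_pos k0' t0).le]

lemma CB.hasSym_dG_herm {A : Matrix n n ℂ} (hA : A.IsHermitian) :
    HasSym (fun k => (k : ℂ)⁻¹ • cmp (dG k A)) fun χ => ⟪χ.1, ap A χ.1⟫_ℂ := by
  have e : ∀ χ : Sph n, (qf χ.1 A : ℂ) = ⟪χ.1, ap A χ.1⟫_ℂ := fun χ =>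
    Complex.ext rfl (by rw [im_inner_ap hA]; rfl)
  refine (hasSym_of_le (g := fun χ : Sph n => qf χ.1 A) (by unfold qf; fun_prop)
    (by simpa only [e] using inv_inner A) (fun δ hδ => dG_le hA hδ) fun δ hδ => ?_).congr
    (Eventually.of_forall fun _ => rfl) e
  filter_upwards [dG_le hA.neg hδ] with k hk
  have e1 : dG k (-A) = -dG k A := by simpa using dG_smul k (-1) A
  simpa only [e1, cmp_neg, smul_neg, qf_neg] using hk

theorem hasSym_dG (A : Matrix n n ℂ) :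
    HasSym (fun k => (k : ℂ)⁻¹ • cmp (dG k A)) fun χ => ⟪χ.1, ap A χ.1⟫_ℂ := by
  have h1 : (A + Aᴴ).IsHermitian := isHermitian_add_transpose_self A
  have h2 : (Complex.I • (A - Aᴴ)).IsHermitian := by
    rw [IsHermitian, conjTranspose_smul, conjTranspose_sub, conjTranspose_conjTranspose,
      Complex.star_def, Complex.conj_I, neg_smul, ← smul_neg, neg_sub]
  have e : A = (1 / 2 : ℂ) • (A + Aᴴ) + (-Complex.I / 2) • (Complex.I • (A - Aᴴ)) := by
    rw [smul_smul, show -Complex.I / 2 * Complex.I = 1 / 2 by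
      rw [div_mul_eq_mul_div, neg_mul, Complex.I_mul_I, neg_neg], ← smul_add]
    rw [add_add_sub_cancel, ← two_smul ℂ A, smul_smul]
    norm_num
  refine (((hasSym_dG_herm h1).smul (1 / 2)).add
    ((hasSym_dG_herm h2).smul (-Complex.I / 2))).congr (Eventually.of_forall fun k => ?_)
    fun χ => ?_
  · conv_rhs => rw [e, dG_add, dG_smul k (1 / 2), dG_smul k (-Complex.I / 2), cmp_add,
      cmp_smul (1 / 2), cmp_smul (-Complex.I / 2), smul_add, smul_comm, smul_comm (k : ℂ)⁻¹]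
  · conv_rhs => rw [e, ap_add, ap_smul (1 / 2), ap_smul (-Complex.I / 2), inner_add_right,
      inner_smul_right, inner_smul_right]

end Crest.Agent.N336.R
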