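import Crest.Agent.N336.R.Sym

/-! # Row 336, replica package: integrals of matrices, POVM Jensen inequalities -/

set_option autoImplicit false
set_option linter.unusedSectionVars false

open Matrix Finset MeasureTheory Filter
open scoped ComplexOrder MatrixOrder Matrix.Norms.L2Operator InnerProductSpace Topology

namespace Crest.Agent.N336.R

open Crest.Agent.N336.Q Crest.Agent.N336.Eng Crest.Agent.N336.C

section povm
variable {m : Type} [Fintype m] [DecidableEq m] {X : Type*} [MeasurableSpace X] {μ : Measure X}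

/-- matrix elements as continuous linear forms -/
noncomputable def iL (v w : Q.Vec m) : Matrix m m ℂ →L[ℂ] ℂ :=
  (innerSL ℂ v).comp ((ContinuousLinearMap.apply ℂ (Q.Vec m) w).comp (SB.apL m))

lemma iL_apply (v w : Q.Vec m) (M : Matrix m m ℂ) : iL v w M = ⟪v, ap M w⟫_ℂ := rfl

lemma inner_integral {F : X → Matrix m m ℂ} (hF : Integrable F μ) (v w : Q.Vec m) :
    ⟪v, ap (∫ x, F x ∂μ) w⟫_ℂ = ∫ x, ⟪v, ap (F x) w⟫_ℂ ∂μ :=
  ((iL v w).integral_comp_comm hF).symm

lemma qf_integral {F : X → Matrix m m ℂ} (hF : Integrable F μ) (v : Q.Vec m) :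
    qf v (∫ x, F x ∂μ) = ∫ x, qf v (F x) ∂μ := by
  rw [qf, inner_integral hF]
  exact (Complex.reCLM.integral_comp_comm ((iL v v).integrable_comp hF)).symm

lemma integral_conjTranspose (F : X → Matrix m m ℂ) :
    ∫ x, (F x)ᴴ ∂μ = (∫ x, F x ∂μ)ᴴ :=
  (starL' ℝ : Matrix m m ℂ ≃L[ℝ] Matrix m m ℂ).integral_comp_comm F

lemma isHermitian_integral {F : X → Matrix m m ℂ} (h : ∀ᵐ x ∂μ, (F x).IsHermitian) :
    (∫ x, F x ∂μ).IsHermitian := by
  unfold Matrix.IsHermitian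
  rw [← integral_conjTranspose]
  exact integral_congr_ae h

lemma posSemidef_integral {F : X → Matrix m m ℂ} (h : ∀ᵐ x ∂μ, (F x).PosSemidef) :
    (∫ x, F x ∂μ).PosSemidef := by
  by_cases hF : Integrable F μ
  · refine posSemidef_of_re_inner (isHermitian_integral (h.mono fun x hx => hx.1)) fun v => ?_
    change 0 ≤ qf v _
    rw [qf_integral hF]
    exact integral_nonneg_of_ae (h.mono fun x hx => re_inner_ap_nonneg hx v)
  · rw [integral_undef hF]; exact PosSemidef.zero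

lemma integral_mono_mat {F G : X → Matrix m m ℂ} (hF : Integrable F μ) (hG : Integrable G μ)
    (h : ∀ᵐ x ∂μ, F x ≤ G x) : ∫ x, F x ∂μ ≤ ∫ x, G x ∂μ := by
  rw [Matrix.le_iff, ← integral_sub hG hF]
  exact posSemidef_integral (h.mono fun x hx => Matrix.le_iff.1 hx)

lemma rsmul_le_rsmul {P : Matrix m m ℂ} (hP : P.PosSemidef) {a b : ℝ} (h : a ≤ b) :
    a • P ≤ b • P := by
  rw [Matrix.le_iff, ← sub_smul]
  exact hP.smul (sub_nonneg.2 h)

lemma rsmul_mono {A B : Matrix m m ℂ} (h : A ≤ B) {a : ℝ} (ha : 0 ≤ a) : a • A ≤ a • B := by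
  rw [Matrix.le_iff, ← smul_sub]
  exact (Matrix.le_iff.1 h).smul ha

lemma rsmul_eq (a : ℝ) (A : Matrix m m ℂ) : a • A = (a : ℂ) • A := rfl

lemma le_of_forall_add_smul {A B : Matrix m m ℂ} (hA : A.IsHermitian) (hB : B.IsHermitian)
    (h : ∀ ε : ℝ, 0 < ε → A ≤ B + ε • (1 : Matrix m m ℂ)) : A ≤ B := by
  rw [Matrix.le_iff]
  refine posSemidef_of_re_inner (hB.sub hA) fun v => ?_
  change 0 ≤ qf v _
  rw [qf_sub, sub_nonneg]
  refine le_of_forall_pos_le_add fun ε hε => ?_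
  have h1 : qf v A ≤ qf v (B + (ε / (‖v‖ ^ 2 + 1)) • (1 : Matrix m m ℂ)) :=
    re_inner_ap_mono (h _ (by positivity)) v
  rw [qf_add, qf_rsmul, qf_one] at h1
  have h2 : ε / (‖v‖ ^ 2 + 1) * ‖v‖ ^ 2 ≤ ε := by
    rw [div_mul_eq_mul_div, div_le_iff₀ (by positivity)]; nlinarith
  linarith

/-- Schur complement inequality for an operator valued measure -/
theorem schur {P : X → Matrix m m ℂ} (hp : ∀ᵐ x ∂μ, (P x).PosSemidef) {e : X → ℂ} {v : X → ℝ}
    (hv : ∀ᵐ x ∂μ, 0 < v x) (h1 : Integrable (fun x => e x • P x) μ)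
    (h2 : Integrable (fun x => v x • P x) μ) (h3 : Integrable (fun x => (‖e x‖ ^ 2 / v x) • P x) μ)
    (hV : (∫ x, v x • P x ∂μ).PosDef) :
    (∫ x, e x • P x ∂μ)ᴴ * (∫ x, v x • P x ∂μ)⁻¹ * (∫ x, e x • P x ∂μ) ≤
      ∫ x, (‖e x‖ ^ 2 / v x) • P x ∂μ := by
  set E := ∫ x, e x • P x ∂μ with hE
  set V := ∫ x, v x • P x ∂μ with hVd
  set Y := V⁻¹ * E with hY
  have hVi : V * V⁻¹ = 1 := Matrix.mul_nonsing_inv _ ((isUnit_iff_isUnit_det _).1 hV.isUnit)
  have hVh : (V⁻¹)ᴴ = V⁻¹ := hV.inv.1.eq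
  have h1' : Integrable (fun x => (e x • P x)ᴴ) μ :=
    (starL' ℝ : Matrix m m ℂ ≃L[ℝ] Matrix m m ℂ).toContinuousLinearMap.integrable_comp h1
  have key : (∫ x, ((‖e x‖ ^ 2 / v x) • P x - (e x • P x)ᴴ * Y - Yᴴ * (e x • P x) +
      Yᴴ * (v x • P x) * Y) ∂μ).PosSemidef := by
    refine posSemidef_integral ?_
    filter_upwards [hp, hv] with x hx hvx
    have := (hx.conjTranspose_mul_mul_same (e x • (1 : Matrix m m ℂ) - (v x : ℂ) • Y)).smul
      (inv_pos.2 hvx).le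
    convert this using 1
    have hv0 : (v x : ℂ) ≠ 0 := by exact_mod_cast hvx.ne'
    have hn : ((‖e x‖ ^ 2 / v x : ℝ) : ℂ) = (v x : ℂ)⁻¹ * (star (e x) * e x) := by
      rw [Complex.star_def, Complex.conj_mul']; push_cast; field_simp
    simp only [rsmul_eq, hn, conjTranspose_sub, conjTranspose_smul, conjTranspose_one, hx.1.eq,
      Matrix.sub_mul, Matrix.mul_sub, Matrix.smul_mul, Matrix.mul_smul, Matrix.one_mul,
      Matrix.mul_one, smul_sub, smul_smul, Complex.ofReal_inv, Complex.star_def,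
      Complex.conj_ofReal]
    have e1 : (v x : ℂ)⁻¹ * ((v x : ℂ) * (starRingEnd ℂ) (e x)) = (starRingEnd ℂ) (e x) := by
      field_simp
    have e2 : (v x : ℂ)⁻¹ * (e x * (v x : ℂ)) = e x := by field_simp
    have e3 : (v x : ℂ)⁻¹ * ((v x : ℂ) * (v x : ℂ)) = v x := by field_simp
    rw [e1, e2, e3, mul_comm (e x)]
    abel
  have i1 : Integrable (fun x => (‖e x‖ ^ 2 / v x) • P x - (e x • P x)ᴴ * Y) μ :=
    h3.sub (h1'.mul_const Y)
  have i2 : Integrable (fun x => (‖e x‖ ^ 2 / v x) • P x - (e x • P x)ᴴ * Y -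
      Yᴴ * (e x • P x)) μ := i1.sub (h1.const_mul Yᴴ)
  rw [integral_add i2 ((h2.const_mul Yᴴ).mul_const Y), integral_sub i1 (h1.const_mul Yᴴ),
    integral_sub h3 (h1'.mul_const Y),
    integral_mul_const_of_integrable h1', integral_const_mul_of_integrable h1,
    integral_mul_const_of_integrable (h2.const_mul Yᴴ), integral_const_mul_of_integrable h2,
    integral_conjTranspose, ← hE, ← hVd] at key
  have e1 : Yᴴ * V * Y = Yᴴ * E := by
    rw [Matrix.mul_assoc, hY, ← Matrix.mul_assoc V, hVi, Matrix.one_mul]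
  rw [e1, sub_add_cancel, hY, ← Matrix.mul_assoc] at key
  exact Matrix.le_iff.2 key

lemma integrable_bdd_smul {P : X → Matrix m m ℂ} (hP : Integrable P μ) {g : X → ℝ}
    (hg : AEStronglyMeasurable g μ) {C : ℝ} (hC : ∀ᵐ x ∂μ, |g x| ≤ C) :
    Integrable (fun x => g x • P x) μ :=
  hP.bdd_smul C hg hC

lemma one_sub_inv_le_lg {A : Matrix m m ℂ} (hA : A.PosDef) : 1 - A⁻¹ ≤ lg A := by
  have : 1 - A⁻¹ = fr (fun x => 1 - x⁻¹) A := by
    rw [inv_eq_fr hA, ← fc_one A, fc_sub]; exact fc_congr fun i => by simp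
  rw [this]
  exact fr_le_fr fun i => Real.one_sub_inv_le_log_of_pos (ev_pos hA i)

/-- operator Jensen inequality for the logarithm -/
theorem povm_log {P : X → Matrix m m ℂ} (hP : Integrable P μ) (hp : ∀ᵐ x ∂μ, (P x).PosSemidef)
    (h1 : ∫ x, P x ∂μ = 1) {f : X → ℝ} (hf : AEStronglyMeasurable f μ) {C : ℝ}
    (hC : ∀ᵐ x ∂μ, |f x| ≤ C) :
    (∫ x, Real.exp (f x) • P x ∂μ).PosDef ∧
      ∫ x, f x • P x ∂μ ≤ lg (∫ x, Real.exp (f x) • P x ∂μ) := by
  set Z : ℝ → Matrix m m ℂ := fun s => ∫ x, Real.exp (s * f x) • P x ∂μ with hZ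
  have hb : ∀ s : ℝ, ∀ᵐ x ∂μ, |s * f x| ≤ |s| * C := fun s => hC.mono fun x hx => by
    rw [abs_mul]; gcongr
  have hi : ∀ s : ℝ, Integrable (fun x => Real.exp (s * f x) • P x) μ := fun s =>
    integrable_bdd_smul hP (Real.continuous_exp.comp_aestronglyMeasurable (hf.const_mul s))
      (C := Real.exp (|s| * C)) ((hb s).mono fun x hx => by
        rw [abs_of_pos (Real.exp_pos _)]; exact Real.exp_le_exp.2 ((le_abs_self _).trans hx))
  have hc : ∀ c : ℝ, ∫ x, c • P x ∂μ = c • (1 : Matrix m m ℂ) := fun c => by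
    rw [integral_smul, h1]
  have hpd : ∀ s, (Z s).PosDef := fun s => by
    refine posDef_of_le (A := Real.exp (-(|s| * C)) • (1 : Matrix m m ℂ))
      (PosDef.one.smul (Real.exp_pos _)) ?_
    rw [← hc]
    refine integral_mono_mat (hP.smul (Real.exp (-(|s| * C)))) (hi s) ?_
    filter_upwards [hp, hb s] with x hx h
    exact rsmul_le_rsmul hx (Real.exp_le_exp.2 (neg_le_of_abs_le h))
  -- Kadison
  have hK : ∀ s, Z s * Z s ≤ Z (2 * s) := fun s => by
    have hn : ∀ x, ‖((Real.exp (s * f x) : ℝ) : ℂ)‖ ^ 2 / 1 = Real.exp (2 * s * f x) := fun x => by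
      rw [Complex.norm_real, Real.norm_eq_abs, sq_abs, div_one, sq, ← Real.exp_add]; ring_nf
    have := schur hp (e := fun x => ((Real.exp (s * f x) : ℝ) : ℂ)) (v := fun _ => 1)
      (ae_of_all _ fun _ => one_pos) (hi s) (hP.smul (1 : ℝ)) (by simpa only [hn] using hi (2 * s))
      (by rw [hc, one_smul]; exact PosDef.one)
    rw [hc, one_smul, inv_one, Matrix.mul_one] at this
    simp only [hn] at this
    have h2 : (Z s)ᴴ = Z s := (hpd s).1.eq
    have h3 : (Z s)ᴴ * Z s ≤ Z (2 * s) := this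
    rwa [h2] at h3
  -- inverse Jensen
  have hI : ∀ s, (Z s)⁻¹ ≤ Z (-s) := fun s => by
    have hn : ∀ x, ‖(1 : ℂ)‖ ^ 2 / Real.exp (s * f x) = Real.exp (-s * f x) := fun x => by
      rw [norm_one, one_pow, one_div, ← Real.exp_neg, neg_mul]
    have := schur hp (e := fun _ => 1) (v := fun x => Real.exp (s * f x))
      (ae_of_all _ fun _ => Real.exp_pos _) (hP.smul (1 : ℂ)) (hi s)
      (by simpa only [hn] using hi (-s)) (hpd s)
    simp only [hn, one_smul, h1, conjTranspose_one, Matrix.one_mul, Matrix.mul_one] at this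
    exact this
  have hL : ∀ j : ℕ, ((2 : ℝ) ^ j) • lg (Z (1 / 2 ^ j)) ≤ lg (Z 1) := fun j => by
    induction j with
    | zero => simp
    | succ j ih =>
      refine le_trans ?_ ih
      have h2 := lg_mono (posDef_mul (hpd _) (hpd _) (Commute.refl _)) (hK (1 / 2 ^ (j + 1)))
      rw [lg_mul (hpd _) (hpd _) (Commute.refl _), ← two_smul ℝ,
        show (2 : ℝ) * (1 / 2 ^ (j + 1)) = 1 / 2 ^ j by rw [pow_succ]; field_simp] at h2
      rw [pow_succ, mul_smul]
      exact rsmul_mono h2 (by positivity)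
  have hfi : Integrable (fun x => f x • P x) μ := integrable_bdd_smul hP hf hC
  have hS : ∀ s : ℝ, 0 < s → s ≤ 1 → s • ∫ x, f x • P x ∂μ ≤
      lg (Z s) + (s ^ 2 * (C ^ 2 * Real.exp |C|)) • (1 : Matrix m m ℂ) := fun s h0 hs => by
    have h2 : Z (-s) + s • ∫ x, f x • P x ∂μ ≤
        (1 + s ^ 2 * (C ^ 2 * Real.exp |C|)) • (1 : Matrix m m ℂ) := by
      have i1 : Integrable (fun x => s • f x • P x) μ := hfi.smul s
      rw [← hc, ← integral_smul, hZ, ← integral_add (hi (-s)) i1]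
      refine integral_mono_mat ((hi _).add i1)
        (hP.smul (1 + s ^ 2 * (C ^ 2 * Real.exp |C|))) ?_
      filter_upwards [hp, hC] with x hx h
      rw [smul_smul, ← add_smul]
      refine rsmul_le_rsmul hx ?_
      have h3 := Mom.exp_le_quad (-s * f x)
      have h4 : |-s * f x| ≤ |C| := by
        rw [abs_mul, abs_neg, abs_of_pos h0]
        nlinarith [abs_nonneg (f x), le_abs_self C]
      have h5 : (-s * f x) ^ 2 ≤ s ^ 2 * C ^ 2 := by
        rw [mul_pow, neg_sq, ← sq_abs (f x)]; gcongr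
      have h6 : (-s * f x) ^ 2 * Real.exp |-s * f x| ≤ s ^ 2 * C ^ 2 * Real.exp |C| := by gcongr
      linarith
    have h3 := one_sub_inv_le_lg (hpd s)
    have h4 := hI s
    rw [add_smul, one_smul] at h2
    calc s • ∫ x, f x • P x ∂μ = (Z (-s) + s • ∫ x, f x • P x ∂μ) - Z (-s) := by abel
      _ ≤ (1 + (s ^ 2 * (C ^ 2 * Real.exp |C|)) • (1 : Matrix m m ℂ)) - (Z s)⁻¹ :=
        sub_le_sub h2 h4
      _ = (1 - (Z s)⁻¹) + (s ^ 2 * (C ^ 2 * Real.exp |C|)) • (1 : Matrix m m ℂ) := by abel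
      _ ≤ _ := by gcongr
  have hZ1 : Z 1 = ∫ x, Real.exp (f x) • P x ∂μ := by simp only [hZ, one_mul]
  rw [← hZ1]
  refine ⟨hpd 1, le_of_forall_add_smul (isHermitian_integral (hp.mono fun x hx =>
    hx.1.smul (IsSelfAdjoint.all _))) (fr_isHermitian _ _) fun ε hε => ?_⟩
  set K := C ^ 2 * Real.exp |C| with hK
  obtain ⟨j, hj⟩ := pow_unbounded_of_one_lt (K / ε) (one_lt_two (α := ℝ))
  have hj0 : (0 : ℝ) < 2 ^ j := by positivity
  have h2 := rsmul_mono (hS (1 / 2 ^ j) (by positivity)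
    ((div_le_one hj0).2 (one_le_pow₀ one_le_two))) hj0.le
  rw [smul_smul, mul_one_div_cancel hj0.ne', one_smul, smul_add, smul_smul] at h2
  refine h2.trans (add_le_add (hL j) (rsmul_le_rsmul PosSemidef.one ?_))
  rw [div_lt_iff₀ hε] at hj
  rw [show (2 : ℝ) ^ j * ((1 / 2 ^ j) ^ 2 * K) = K / 2 ^ j by field_simp, div_le_iff₀ hj0]
  linarith

end povm

end Crest.Agent.N336.R
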