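import Crest.Agent.N336.C.Defs

/-!
# Row 336, CORE, replica package: definitions (helper50)

Tensor powers `tp`, one-body operators `dG`, product vectors `tv`, the isometry `J` onto the
symmetric space, compression `cmp`, coherent vectors `cv`, the Toeplitz map `Tc`, symbols
`HasSym`, the metrics `Wm`, the operator valued measure `Ef`.
-/

set_option autoImplicit false
set_option linter.unusedSectionVars false

open Matrix Finset MeasureTheory Filter
open scoped ComplexOrder MatrixOrder Matrix.Norms.L2Operator InnerProductSpace Topology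

namespace Crest.Agent.N336.R

open Crest.Agent.N336.Q Crest.Agent.N336.Eng Crest.Agent.N336.C

section tens

variable {n : Type} [Fintype n] [DecidableEq n]

/-- matrices on `k` replicas -/
abbrev Mk (k : ℕ) (n : Type) : Type := Matrix (Fin k → n) (Fin k → n) ℂ

/-- matrices on the symmetric space -/
abbrev Ms (k : ℕ) (n : Type) : Type := Matrix (Sym n k) (Sym n k) ℂ

/-- tensor product of `k` matrices -/
def tpf {k : ℕ} (B : Fin k → Matrix n n ℂ) : Mk k n :=
  Matrix.of fun σ τ => ∏ i, B i (σ i) (τ i)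

/-- tensor power -/
def tp (k : ℕ) (B : Matrix n n ℂ) : Mk k n := tpf fun _ => B

/-- second quantisation `∑ i, h⁽ⁱ⁾` -/
def dG (k : ℕ) (h : Matrix n n ℂ) : Mk k n := ∑ i : Fin k, tpf (Function.update (fun _ => 1) i h)

/-- product vector -/
def tv (k : ℕ) (χ : Q.Vec n) : Q.Vec (Fin k → n) := WithLp.toLp 2 fun σ => ∏ i, χ (σ i)

/-- invariance under permutations of the replicas -/
def Sy {k : ℕ} (G : Mk k n) : Prop :=
  ∀ (π : Equiv.Perm (Fin k)) (σ τ : Fin k → n), G (σ ∘ π) (τ ∘ π) = G σ τ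

/-- type of a configuration -/
def ty {k : ℕ} (σ : Fin k → n) : Sym n k := ⟨univ.val.map σ, by simp⟩

/-- isometry from the symmetric space -/
noncomputable def J (k : ℕ) (n : Type) [Fintype n] [DecidableEq n] :
    Matrix (Fin k → n) (Sym n k) ℂ :=
  Matrix.of fun σ t =>
    if ty σ = t then (((Real.sqrt (univ.filter fun τ : Fin k → n => ty τ = t).card)⁻¹ : ℝ) : ℂ)
    else 0

/-- compression to the symmetric space -/
noncomputable def cmp {k : ℕ} (G : Mk k n) : Ms k n := (J k n)ᴴ * G * J k n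

/-- coherent vector -/
noncomputable def cv (k : ℕ) (χ : Q.Vec n) : Q.Vec (Sym n k) :=
  WithLp.toLp 2 ((J k n)ᴴ *ᵥ (tv k χ).ofLp)

/-- dimension of the symmetric space -/
abbrev dk (k : ℕ) (n : Type) [Fintype n] [DecidableEq n] : ℕ := Fintype.card (Sym n k)

/-- invariant probability measure on the sphere -/
noncomputable def sm (n : Type) [Fintype n] : Measure (Sph n) :=
  ((Measure.addHaar : Measure (Q.Vec n)).toSphere Set.univ)⁻¹ •
    (Measure.addHaar : Measure (Q.Vec n)).toSphere

/-- Toeplitz quantisation -/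
noncomputable def Tc (k : ℕ) (g : Sph n → ℂ) : Ms k n :=
  (dk k n : ℂ) • ∫ χ, g χ • pj (cv k χ.1) ∂(sm n)

/-- Toeplitz quantisation of a real function -/
noncomputable abbrev Tr (k : ℕ) (g : Sph n → ℝ) : Ms k n := Tc k fun χ => (g χ : ℂ)

/-- phase invariance -/
def Inv (g : Sph n → ℂ) : Prop := ∀ χ χ' : Sph n, pj χ.1 = pj χ'.1 → g χ = g χ'

/-- the family `G` has the symbol `g` -/
structure HasSym (G : ∀ k : ℕ, Ms k n) (g : Sph n → ℂ) : Prop where
  cont : Continuous g
  inv : Inv g
  lim : Tendsto (fun k => ‖G k - Tc k g‖) atTop (𝓝 0)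

/-- Hilbert-Schmidt norm -/
noncomputable def hs (L : Matrix n n ℂ) : ℝ := Real.sqrt (trace (Lᴴ * L)).re

/-- Hermitian part of a vector of matrix entries -/
noncomputable def hm (G : Q.Vec (n × n)) : Matrix n n ℂ :=
  (1 / 2 : ℂ) • (Matrix.of (fun i j => G (i, j)) + (Matrix.of fun i j => G (i, j))ᴴ)

/-- Haar measure on a ball of matrices -/
noncomputable def nu (n : Type) [Fintype n] (M : ℝ) : Measure (Q.Vec (n × n)) :=
  (Measure.addHaar : Measure (Q.Vec (n × n))).restrict (Metric.closedBall 0 M)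

end tens

section met

variable {ι : Type} [Fintype ι] [DecidableEq ι] {d : ι → Type} [∀ x, Fintype (d x)]
  [∀ x, DecidableEq (d x)] [∀ x, Nonempty (d x)]

/-- admissible logarithms -/
def Adm (A : Finset ι) (M : ℝ) (L : Q.Op d) : Prop := L.IsHermitian ∧ Supp A L ∧ hs L ≤ M

/-- the logarithm attached to a point of the ball -/
noncomputable def LQ (A : Finset ι) (G : Q.Vec (Cfg d × Cfg d)) : Q.Op d := E A (hm G)

/-- the potential `s tr exp (L / s) - ε tr L` (traces over `A`) -/
noncomputable def psi (A : Finset ι) (s ε : ℝ) (L : Q.Op d) : ℝ :=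
  (s * (trace (ee (s⁻¹ • L))).re - ε * (trace L).re) / dim d Aᶜ

/-- the weight -/
noncomputable def wt (k : ℕ) (A : Finset ι) (s ε : ℝ) (L : Q.Op d) : ℝ :=
  Real.exp (k * (s - psi A s ε L))

/-- weighted integral of tensor powers -/
noncomputable def Wf (k : ℕ) (A : Finset ι) (s ε M : ℝ) (f : Q.Op d → ℂ) : Mk k (Cfg d) :=
  ∫ G, (f (LQ A G) * wt k A s ε (LQ A G)) • tp k (ee (LQ A G)) ∂(nu (Cfg d) M)

/-- the metric -/
noncomputable def Wm (d : ι → Type) [∀ x, Fintype (d x)] [∀ x, DecidableEq (d x)] (k : ℕ)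
    (A : Finset ι) (s ε M : ℝ) : Mk k (Cfg d) := Wf k A s ε M fun _ => 1

/-- the operator valued probability measure -/
noncomputable def Ef (k : ℕ) (A : Finset ι) (s ε M : ℝ) (f : Q.Op d → ℂ) : Mk k (Cfg d) :=
  (Wm d k A s ε M)⁻¹ * Wf k A s ε M f

/-- the concentration point -/
noncomputable def Ls (A : Finset ι) (s ε : ℝ) (χ : Q.Vec (Cfg d)) : Q.Op d := s • lg (rq χ A ε)

/-- radius of the ball -/
noncomputable def MM (D ε : ℝ) : ℝ := D * (Real.log (D / ε) + 1)

/-- regularisation of numerators and denominators -/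
noncomputable def eb (D ε : ℝ) (b : Bool) : ℝ := if b then ε else ε / D

/-- the metrics of the package -/
noncomputable def W (d : ι → Type) [∀ x, Fintype (d x)] [∀ x, DecidableEq (d x)] (s ε : ℝ)
    (k : ℕ) (b : Bool) (A : Finset ι) : Mk k (Cfg d) :=
  Wm d k A s (eb (dim d univ) ε b) (MM (dim d univ) ε)

/-- their logarithms on the symmetric space -/
noncomputable def lw (d : ι → Type) [∀ x, Fintype (d x)] [∀ x, DecidableEq (d x)] (s ε : ℝ)
    (k : ℕ) (b : Bool) (A : Finset ι) : Ms k (Cfg d) := cmp (lg (W d s ε k b A))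

/-- first `ε → 0⁺`, then `k → ∞` -/
def Ev (p : ℝ → ℕ → Prop) : Prop := ∀ᶠ ε in 𝓝[>] (0 : ℝ), ∀ᶠ k in atTop, p ε k

end met

end Crest.Agent.N336.R
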