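import Crest.Agent.N336.R.Met

/-! # Row 336, replica package: monotonicity and gain inequalities (helper1) -/

set_option autoImplicit false
set_option linter.unusedSectionVars false

open Matrix Finset MeasureTheory Filter
open scoped ComplexOrder MatrixOrder Matrix.Norms.L2Operator InnerProductSpace Topology

namespace Crest.Agent.N336.R

open Crest.Agent.N336.Q Crest.Agent.N336.Eng Crest.Agent.N336.C

namespace Iq

section gen

variable {n : Type} [Fintype n] [DecidableEq n]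

lemma posSemidef_rsmul {c : ℝ} (hc : 0 ≤ c) {A : Matrix n n ℂ} (h : A.PosSemidef) :
    (c • A).PosSemidef := h.smul hc

lemma rsmul_mono {c : ℝ} (hc : 0 ≤ c) {A B : Matrix n n ℂ} (h : A ≤ B) : c • A ≤ c • B := by
  rw [Matrix.le_iff] at h ⊢
  rw [← smul_sub]
  exact posSemidef_rsmul hc h

/-- a lower bound for `W` bounds `W⁻¹ T` -/
lemma norm_inv_mul_le {V T : Matrix n n ℂ} (hV : V.PosDef) (hT : T.PosSemidef)
    (hc : Commute V T) {a : ℝ} (h : Real.exp (-a) • T ≤ V) : ‖V⁻¹ * T‖ ≤ Real.exp a := by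
  have h1 : T ≤ Real.exp a • V := by
    have := rsmul_mono (Real.exp_pos a).le h
    rwa [smul_smul, ← Real.exp_add, add_neg_cancel, Real.exp_zero, one_smul] at this
  have h2 := sq_le_sq_comm hT h1 (hc.symm.smul_right _)
  rw [smul_mul_smul_comm, ← sq (Real.exp a)] at h2
  have h3 := norm_le_of_sq_le hT.1 hV (Real.exp_pos a).le h2
  rwa [(commute_inv hV hc.symm).eq] at h3

/-- two sided multiplication -/
noncomputable def mulLR (X Y : Matrix n n ℂ) : Matrix n n ℂ →L[ℂ] Matrix n n ℂ :=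
  LinearMap.toContinuousLinearMap
    { toFun := fun G => X * G * Y
      map_add' := fun G G' => by rw [mul_add, add_mul]
      map_smul' := fun c G => by simp }

lemma mulLR_apply (X Y G : Matrix n n ℂ) : mulLR X Y G = X * G * Y := rfl

/-- two sided multiplication applied to a vector -/
noncomputable def apLR (X Y : Matrix n n ℂ) (v : Q.Vec n) : Matrix n n ℂ →L[ℂ] Q.Vec n :=
  LinearMap.toContinuousLinearMap
    { toFun := fun G => ap (X * G * Y) v
      map_add' := fun G G' => by rw [mul_add, add_mul, ap_add]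
      map_smul' := fun c G => by
        rw [Matrix.mul_smul, Matrix.smul_mul, ap_smul]; rfl }

lemma apLR_apply (X Y : Matrix n n ℂ) (v : Q.Vec n) (G : Matrix n n ℂ) :
    apLR X Y v G = ap (X * G * Y) v := rfl

lemma ee_two {A : Matrix n n ℂ} (hA : A.IsHermitian) : ee ((2 : ℝ) • A) = ee A * ee A := by
  rw [two_smul, ee_add hA hA (Commute.refl _)]

lemma commute_lg {A B : Matrix n n ℂ} (hA : A.IsHermitian) (hB : B.IsHermitian)
    (h : Commute A B) : Commute (lg A) (lg B) := commute_fc_fc hA hB h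

lemma commute_pw {A B : Matrix n n ℂ} (hA : A.IsHermitian) (hB : B.IsHermitian)
    (h : Commute A B) (s t : ℝ) : Commute (pw A s) (pw B t) := commute_fc_fc hA hB h

variable {k : ℕ} {V V' V'' : Mk k n}

lemma cmp_lg (h : Sy V) (hV : V.PosDef) : cmp (lg V) = lg (cmp V) := cmp_fc h hV.1 _

lemma ee_cmp_lg (h : Sy V) (hV : V.PosDef) : ee (cmp (lg V)) = cmp V := by
  rw [cmp_lg h hV, ee_lg (cmp_posDef hV)]

lemma cmp_lg_sub (hV : V.PosDef) (hV' : V'.PosDef) (hc : Commute V V') :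
    cmp (lg V) - cmp (lg V') = cmp (lg (V * V'⁻¹)) := by
  rw [lg_mul_inv hV hV' hc, cmp_sub]

end gen

variable {ι : Type} [Fintype ι] [DecidableEq ι] {d : ι → Type} [∀ x, Fintype (d x)]
  [∀ x, DecidableEq (d x)] [∀ x, Nonempty (d x)]

variable {s ε : ℝ} {k : ℕ}

lemma one_le_dim (X : Finset ι) : (1 : ℝ) ≤ dim d X := by exact_mod_cast dim_pos (d := d) X

lemma eb_pos (hε : 0 < ε) (b : Bool) : 0 < eb (dim d univ) ε b := by
  have := one_le_dim (d := d) univ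
  cases b
  · simp only [eb, Bool.false_eq_true, if_false]; positivity
  · simpa [eb] using hε

lemma W_posDef (hε : 0 < ε) (hε1 : ε ≤ 1) (s : ℝ) (k : ℕ) (b : Bool) (A : Finset ι) :
    (W d s ε k b A).PosDef := Wm_posDef _ _ _ _ (MM_pos (one_le_dim _) hε hε1)

lemma sy_W (s ε : ℝ) (k : ℕ) (b : Bool) (A : Finset ι) : Sy (W d s ε k b A) := sy_Wm _ _ _ _ _

lemma W_commute {A A' : Finset ι} (h : A' ⊆ A ∨ Disjoint A' A) (b b' : Bool) :
    Commute (W d s ε k b A) (W d s ε k b' A') := Wm_commute_Wf h _ _ _ _ _ _ _ _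

lemma W_commute_tp {A Z : Finset ι} {O : Q.Op d} (hs : Supp Z O) (hO : O.PosSemidef)
    (h : Z ⊆ A ∨ Disjoint Z A) (b : Bool) : Commute (W d s ε k b A) (tp k O) :=
  Wm_commute_tp hs hO h _ _ _ _

/-- regularised marginal of a state -/
lemma reg_posDef (X : Finset ι) {ω : Q.Op d} (hω : ω.PosSemidef) {e : ℝ} (he : 0 < e) :
    (mg X ω + e • (1 : Q.Op d)).PosDef :=
  Matrix.PosDef.posSemidef_add (mg_posSemidef X hω) (Matrix.PosDef.one.smul he)

lemma supp_reg (X : Finset ι) (ω : Q.Op d) (e : ℝ) : Supp X (mg X ω + e • (1 : Q.Op d)) :=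
  (supp_mg X ω).add ((Supp.one X).smul (e : ℂ))

lemma le_reg (X : Finset ι) (ω : Q.Op d) {e : ℝ} (he : 0 ≤ e) :
    mg X ω ≤ mg X ω + e • (1 : Q.Op d) :=
  le_add_of_nonneg_right (posSemidef_rsmul he Matrix.PosSemidef.one).nonneg

/-- the one-particle form of monotonicity -/
lemma one_mono {P y Y : Finset ι} (h1 : Disjoint P y) (h2 : Disjoint P Y) (h3 : Disjoint y Y)
    {ω ω' : Q.Op d} (hω : ω.PosDef) (hω' : ω'.PosDef) {e : ℝ} (he : 0 < e) (hs : 0 < s)
    (hs1 : s ≤ 1 / 2) :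
    ‖pw (mg (P ∪ y) ω) s * pw (mg Y ω' + e • (1 : Q.Op d)) (-s) *
      pw (mg P ω + e • (1 : Q.Op d)) (-s) * pw (mg (Y ∪ y) ω') s‖ ≤ 1 := by
  set σ := mg (P ∪ y) ω
  set σ' := mg (Y ∪ y) ω'
  set r := mg P ω + e • (1 : Q.Op d)
  set r' := mg Y ω' + e • (1 : Q.Op d)
  have pσ : σ.PosDef := mg_posDef _ hω
  have pσ' : σ'.PosDef := mg_posDef _ hω'
  have pr : r.PosDef := reg_posDef _ hω.posSemidef he
  have pr' : r'.PosDef := reg_posDef _ hω'.posSemidef he
  have d1 : Disjoint (P ∪ y) Y := disjoint_union_left.2 ⟨h2, h3⟩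
  have d2 : Disjoint P (Y ∪ y) := disjoint_union_right.2 ⟨h2, h1⟩
  have c1 : Commute σ r' := (supp_mg _ _).commute (supp_reg _ _ _) d1
  have c2 : Commute r σ' := (supp_reg _ _ _).commute (supp_mg _ _) d2
  have c3 : Commute σ (mg Y ω') := (supp_mg _ _).commute (supp_mg _ _) d1
  have c4 : Commute (mg P ω) σ' := (supp_mg _ _).commute (supp_mg _ _) d2
  have l1 : σ * r'⁻¹ ≤ σ * (mg Y ω')⁻¹ := by
    have a := commute_inv pr' c1
    have b := commute_inv (mg_posDef Y hω') c3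
    rw [a.eq, b.eq]
    exact mul_le_mul_comm (inv_anti (mg_posDef Y hω') (le_reg _ _ he.le)) pσ.posSemidef a.symm
      b.symm
  have l2 : σ * (mg Y ω')⁻¹ ≤ mg P ω * σ'⁻¹ := by
    have := lkh h1 h2 h3 hω hω'
    rwa [union_comm y Y] at this
  have l3 : mg P ω * σ'⁻¹ ≤ r * σ'⁻¹ :=
    mul_le_mul_comm (le_reg _ _ he.le) pσ'.inv.posSemidef (commute_inv pσ' c4)
      (commute_inv pσ' c2)
  have pA := posDef_mul_inv pσ pr' c1
  have pB := posDef_mul_inv pr pσ' c2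
  have l4 := pw_mono pA.posSemidef (l1.trans (l2.trans l3)) (s := s + s) (by linarith)
    (by linarith)
  rw [pw_add pA, pw_add pB] at l4
  have l5 := norm_le_of_sq_le (pw_isHermitian (σ * r'⁻¹) s) (pw_posDef pB s) zero_le_one
    (by rwa [one_pow, one_smul])
  have e1 : pw (σ * r'⁻¹) s = pw σ s * pw r' (-s) := by
    rw [pw_mul pσ pr'.inv (commute_inv pr' c1), pw_inv pr']
  have e2 : (pw (r * σ'⁻¹) s)⁻¹ = pw r (-s) * pw σ' s := by
    rw [← pw_neg_one (pw_posDef pB s), pw_pw pB, pw_mul pr pσ'.inv (commute_inv pσ' c2),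
      pw_inv pσ']
    simp
  rwa [e1, e2, ← mul_assoc] at l5

/-- `W⁻¹ = D ⬝ tp (r ^ (-s))` -/
lemma inv_eq {n : Type} [Fintype n] [DecidableEq n] (V : Mk k n) {r : Matrix n n ℂ}
    (hr : r.PosDef) (s : ℝ) : V⁻¹ = V⁻¹ * tp k (pw r s) * tp k (pw r (-s)) := by
  rw [mul_assoc, ← tp_mul, pw_mul_neg hr, tp_one, mul_one]

end Iq

open Iq

variable {ι : Type} [Fintype ι] [DecidableEq ι] {d : ι → Type} [∀ x, Fintype (d x)]
  [∀ x, DecidableEq (d x)] [∀ x, Nonempty (d x)]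

variable {s δ : ℝ}

theorem ev_mono (hs : 0 < s) (hs1 : s ≤ 1 / 2) (hδ : 0 < δ) :
    Ev fun ε k => ∀ P y Y : Finset ι, Disjoint P y → Disjoint P Y → Disjoint y Y →
      ee ((2 : ℝ) • (lw d s ε k true (P ∪ y) - lw d s ε k false Y)) ≤
        Real.exp (δ * k) • ee ((2 : ℝ) • (lw d s ε k true P - lw d s ε k false (Y ∪ y))) := by
  have hδ' : 0 < δ / 8 := by positivity
  refine ((ev_small one_pos 0).and ((ev_le_W (d := d) hs (by linarith) hδ').and
    (ev_norm_map_W (d := d) hs hδ'))).mono ?_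
  rintro ε k ⟨⟨hε, hε1, -⟩, hlo, hup⟩ P y Y h1 h2 h3
  set c := Real.exp (δ / 8 * k) with hc
  have hc0 : 0 < c := Real.exp_pos _
  have d1 : Disjoint (P ∪ y) Y := disjoint_union_left.2 ⟨h2, h3⟩
  have d2 : Disjoint P (Y ∪ y) := disjoint_union_right.2 ⟨h2, h1⟩
  set W1 := W d s ε k true (P ∪ y) with hW1
  set W2 := W d s ε k false Y with hW2
  set W3 := W d s ε k true P with hW3
  set W4 := W d s ε k false (Y ∪ y) with hW4
  have p1 : W1.PosDef := W_posDef hε hε1 _ _ _ _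
  have p2 : W2.PosDef := W_posDef hε hε1 _ _ _ _
  have p3 : W3.PosDef := W_posDef hε hε1 _ _ _ _
  have p4 : W4.PosDef := W_posDef hε hε1 _ _ _ _
  have c12 : Commute W1 W2 := W_commute (Or.inr d1.symm) _ _
  have c34 : Commute W3 W4 := W_commute (Or.inr d2.symm) _ _
  have pA := posDef_mul_inv p1 p2 c12
  have pB := posDef_mul_inv p3 p4 c34
  have sA : Sy (W1 * W2⁻¹) := (sy_W _ _ _ _ _).mul ((sy_W _ _ _ _ _).inv p2)
  have sB : Sy (W3 * W4⁻¹) := (sy_W _ _ _ _ _).mul ((sy_W _ _ _ _ _).inv p4)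
  have key : ‖W1 * (W2⁻¹ * W3⁻¹ * W4)‖ ≤ c * (c * (c * c)) := by
    have a := hup true (P ∪ y) _ (mulLR 1 (W2⁻¹ * W3⁻¹ * W4)) (c * (c * c)) ?_
    · rwa [mulLR_apply, one_mul] at a
    intro ω hω hω1
    have a := hup false (Y ∪ y) _ (mulLR (tp k (pw (mg (P ∪ y) ω) s) * (W2⁻¹ * W3⁻¹)) 1)
      (c * c) ?_
    · rw [mulLR_apply, mul_one] at a
      rw [mulLR_apply, one_mul, ← mul_assoc]
      exact a
    intro ω' hω' hω1'
    rw [mulLR_apply, mul_one]
    have he := eb_pos (d := d) hε true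
    set e := eb (dim d univ) ε true
    set σ := mg (P ∪ y) ω
    set σ' := mg (Y ∪ y) ω'
    set r := mg P ω + e • (1 : Q.Op d)
    set r' := mg Y ω' + e • (1 : Q.Op d)
    have pσ : σ.PosDef := mg_posDef _ hω
    have pσ' : σ'.PosDef := mg_posDef _ hω'
    have pr : r.PosDef := reg_posDef _ hω.posSemidef he
    have pr' : r'.PosDef := reg_posDef _ hω'.posSemidef he
    have sσ : Supp (P ∪ y) (pw σ s) := supp_pw (supp_mg _ _) pσ.1 _
    have sσ' : Supp (Y ∪ y) (pw σ' s) := supp_pw (supp_mg _ _) pσ'.1 _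
    have sr : ∀ t, Supp P (pw r t) := fun t => supp_pw (supp_reg _ _ _) pr.1 _
    have sr' : ∀ t, Supp Y (pw r' t) := fun t => supp_pw (supp_reg _ _ _) pr'.1 _
    have q2 : Commute W2 (tp k (pw r' s)) :=
      W_commute_tp (sr' s) (pw_posDef pr' s).posSemidef (Or.inl subset_rfl) _
    have q3 : ∀ t, Commute W3 (tp k (pw r t)) := fun t =>
      W_commute_tp (sr t) (pw_posDef pr t).posSemidef (Or.inl subset_rfl) _
    have n2 : ‖W2⁻¹ * tp k (pw r' s)‖ ≤ c :=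
      norm_inv_mul_le p2 (tp_posDef k (pw_posDef pr' s)).posSemidef q2
        (hlo false true Y ω' ⟨hω'.posSemidef, hω1'⟩)
    have n3 : ‖W3⁻¹ * tp k (pw r s)‖ ≤ c :=
      norm_inv_mul_le p3 (tp_posDef k (pw_posDef pr s)).posSemidef (q3 s)
        (hlo true true P ω ⟨hω.posSemidef, hω1⟩)
    set D2 := W2⁻¹ * tp k (pw r' s) with hD2
    set D3 := W3⁻¹ * tp k (pw r s) with hD3
    have m2 : Commute (tp k (pw σ s)) D2 :=
      (commute_inv p2 (W_commute_tp sσ (pw_posDef pσ s).posSemidef (Or.inr d1) _).symm).mul_right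
        (tp_commute k (sσ.commute (sr' s) d1))
    have m3 : Commute (tp k (pw σ' s)) D3 :=
      (commute_inv p3 (W_commute_tp sσ' (pw_posDef pσ' s).posSemidef (Or.inr d2.symm)
        _).symm).mul_right (tp_commute k (sσ'.commute (sr s) d2.symm))
    have m4 : Commute (tp k (pw r (-s))) D3 :=
      (commute_inv p3 (q3 _).symm).mul_right (tp_commute k (fc_commute _ _ _))
    have e2 : W2⁻¹ = D2 * tp k (pw r' (-s)) := inv_eq W2 pr' s
    have e3 : W3⁻¹ = D3 * tp k (pw r (-s)) := inv_eq W3 pr s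
    have e4 : tp k (pw σ s) * (W2⁻¹ * W3⁻¹) * tp k (pw σ' s) =
        D2 * tp k (pw σ s * pw r' (-s) * pw r (-s) * pw σ' s) * D3 := by
      rw [e2, e3, ← m4.eq, tp_mul, tp_mul, tp_mul]
      simp only [← mul_assoc]
      rw [m2.eq, mul_assoc _ D3, ← m3.eq, ← mul_assoc]
    rw [e4]
    have n4 : ‖tp k (pw σ s * pw r' (-s) * pw r (-s) * pw σ' s)‖ ≤ 1 :=
      (norm_tp_le k _).trans (pow_le_one₀ (norm_nonneg _) (one_mono h1 h2 h3 hω hω' he hs hs1))
    calc _ ≤ ‖D2‖ * ‖tp k (pw σ s * pw r' (-s) * pw r (-s) * pw σ' s)‖ * ‖D3‖ :=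
          (norm_mul_le _ _).trans (mul_le_mul_of_nonneg_right (norm_mul_le _ _) (norm_nonneg _))
      _ ≤ c * 1 * c := by gcongr
      _ = c * c := by rw [mul_one]
  have key2 : ‖W1 * W2⁻¹ * (W3 * W4⁻¹)⁻¹‖ ≤ c * (c * (c * c)) := by
    rw [inv_mul_inv _ p4, (commute_inv p3 c34.symm).eq]
    simpa only [mul_assoc] using key
  have key3 := cmp_mono (sq_le_of_norm pA.1 pB key2)
  have hcc : (c * (c * (c * c))) ^ 2 = Real.exp (δ * k) := by
    rw [hc, ← Real.exp_add, ← Real.exp_add, ← Real.exp_add, sq, ← Real.exp_add]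
    congr 1; ring
  rw [hcc, cmp_rsmul, cmp_mul _ sA, cmp_mul _ sB] at key3
  unfold lw
  rw [← hW1, ← hW2, ← hW3, ← hW4, cmp_lg_sub p1 p2 c12, cmp_lg_sub p3 p4 c34,
    ee_two (cmp_isHermitian (fr_isHermitian _ _)), ee_two (cmp_isHermitian (fr_isHermitian _ _)),
    ee_cmp_lg sA pA, ee_cmp_lg sB pB]
  exact key3

theorem ev_gain (hs : 0 < s) (hs1 : s ≤ 1 / 2) (hδ : 0 < δ) :
    Ev fun ε k => ∀ (P y Y : Finset ι) (χ : Q.Vec (Cfg d)) (m : ℝ), Disjoint P y → Disjoint P Y →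
      Disjoint y Y → ‖χ‖ = 1 →
      (∀ ω ω' : Q.Op d, ω.PosDef → ω'.PosDef → ω.trace = 1 → ω'.trace = 1 →
        ‖ap (pw (mg (P ∪ y) ω) s * pw (rq χ P ε) (-s) * pw (mg (Y ∪ y) ω') s * pw (rq χ Y ε) (-s))
          χ‖ ^ 2 ≤ Real.exp m) →
      ‖ap (ee (lw d s ε k true (P ∪ y) - lw d s ε k true P - lw d s ε k false Y) *
        ee (lw d s ε k false (Y ∪ y))) (cv k χ)‖ ^ 2 ≤ Real.exp (k * (m + δ)) := by
  have hδ' : 0 < δ / 8 := by positivity
  refine ((ev_small one_pos 0).and ((ev_le_W (d := d) hs (by linarith) hδ').and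
    (ev_norm_map_W (d := d) hs hδ'))).mono ?_
  rintro ε k ⟨⟨hε, hε1, -⟩, hlo, hup⟩ P y Y χ m h1 h2 h3 hχ hm
  set c := Real.exp (δ / 8 * k) with hc
  have hc0 : 0 < c := Real.exp_pos _
  have d1 : Disjoint (P ∪ y) Y := disjoint_union_left.2 ⟨h2, h3⟩
  have d2 : Disjoint P (Y ∪ y) := disjoint_union_right.2 ⟨h2, h1⟩
  set W1 := W d s ε k true (P ∪ y) with hW1
  set W2 := W d s ε k false Y with hW2
  set W3 := W d s ε k true P with hW3
  set W4 := W d s ε k false (Y ∪ y) with hW4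
  have p1 : W1.PosDef := W_posDef hε hε1 _ _ _ _
  have p2 : W2.PosDef := W_posDef hε hε1 _ _ _ _
  have p3 : W3.PosDef := W_posDef hε hε1 _ _ _ _
  have p4 : W4.PosDef := W_posDef hε hε1 _ _ _ _
  have c12 : Commute W1 W2 := W_commute (Or.inr d1.symm) _ _
  have c13 : Commute W1 W3 := W_commute (Or.inl subset_union_left) _ _
  have c23 : Commute W2 W3 := W_commute (Or.inr h2) _ _
  have pA := posDef_mul_inv p1 p3 c13
  have cA : Commute (W1 * W3⁻¹) W2 := c12.mul_left (commute_inv p3 c23).symm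
  have pB := posDef_mul_inv pA p2 cA
  have sB : Sy (W1 * W3⁻¹ * W2⁻¹) :=
    ((sy_W _ _ _ _ _).mul ((sy_W _ _ _ _ _).inv p3)).mul ((sy_W _ _ _ _ _).inv p2)
  have s4 : Sy W4 := sy_W _ _ _ _ _
  unfold lw
  rw [← hW1, ← hW2, ← hW3, ← hW4, cmp_lg_sub p1 p3 c13, cmp_lg_sub pA p2 cA, ee_cmp_lg sB pB,
    ee_cmp_lg s4 p4, ← cmp_mul _ s4, norm_ap_cmp_cv (sB.mul s4)]
  set r := rq χ P ε with hr
  set r' := rq χ Y ε with hr'
  have pr : r.PosDef := rq_posDef χ P hε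
  have pr' : r'.PosDef := rq_posDef χ Y hε
  have sr : ∀ t, Supp P (pw r t) := fun t => supp_pw (supp_rq _ _ _) pr.1 _
  have sr' : ∀ t, Supp Y (pw r' t) := fun t => supp_pw (supp_rq _ _ _) pr'.1 _
  have q2 : Commute W2 (tp k (pw r' s)) :=
    W_commute_tp (sr' s) (pw_posDef pr' s).posSemidef (Or.inl subset_rfl) _
  have q3 : Commute W3 (tp k (pw r s)) :=
    W_commute_tp (sr s) (pw_posDef pr s).posSemidef (Or.inl subset_rfl) _
  have n2 : ‖W2⁻¹ * tp k (pw r' s)‖ ≤ c :=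
    norm_inv_mul_le p2 (tp_posDef k (pw_posDef pr' s)).posSemidef q2
      (hlo false true Y (pj χ) (dens_pj hχ))
  have n3 : ‖W3⁻¹ * tp k (pw r s)‖ ≤ c :=
    norm_inv_mul_le p3 (tp_posDef k (pw_posDef pr s)).posSemidef q3
      (hlo true true P (pj χ) (dens_pj hχ))
  set D2 := W2⁻¹ * tp k (pw r' s) with hD2
  set D3 := W3⁻¹ * tp k (pw r s) with hD3
  have m1 : Commute W1 D3 := (commute_inv p3 c13).mul_right
    (W_commute_tp (sr s) (pw_posDef pr s).posSemidef (Or.inl subset_union_left) _)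
  have m2 : Commute W1 D2 := (commute_inv p2 c12).mul_right
    (W_commute_tp (sr' s) (pw_posDef pr' s).posSemidef (Or.inr d1.symm) _)
  have m3 : Commute (tp k (pw r (-s))) D2 :=
    (commute_inv p2 (W_commute_tp (sr _) (pw_posDef pr _).posSemidef (Or.inr h2)
      _).symm).mul_right (tp_commute k ((sr _).commute (sr' s) h2))
  have m4 : Commute W4 (tp k (pw r' (-s))) :=
    W_commute_tp (sr' _) (pw_posDef pr' _).posSemidef (Or.inl subset_union_left) _
  have e2 : W2⁻¹ = D2 * tp k (pw r' (-s)) := inv_eq W2 pr' s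
  have e3 : W3⁻¹ = D3 * tp k (pw r (-s)) := inv_eq W3 pr s
  have e4 : W1 * W3⁻¹ * W2⁻¹ * W4 =
      D3 * (D2 * (1 * W1 * (tp k (pw r (-s)) * W4 * tp k (pw r' (-s))))) := by
    rw [e2, e3, one_mul]
    simp only [← mul_assoc]
    rw [m1.eq, mul_assoc _ _ D2, m3.eq, ← mul_assoc, mul_assoc _ W1 D2, m2.eq, mul_assoc _ _ W4,
      ← m4.eq]
    simp only [← mul_assoc]
  set m' := Real.exp (m / 2) ^ k with hm'
  have key : ‖ap (1 * W1 * (tp k (pw r (-s)) * W4 * tp k (pw r' (-s)))) (tv k χ)‖ ≤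
      c * (c * m') := by
    refine hup true (P ∪ y) _ (apLR 1 (tp k (pw r (-s)) * W4 * tp k (pw r' (-s))) (tv k χ))
      (c * m') fun ω hω hω1 => ?_
    have a := hup false (Y ∪ y) _ (apLR (tp k (pw (mg (P ∪ y) ω) s) * tp k (pw r (-s)))
      (tp k (pw r' (-s))) (tv k χ)) m' fun ω' hω' hω1' => ?_
    · rw [apLR_apply] at a
      rw [apLR_apply, one_mul]
      simpa only [mul_assoc] using a
    rw [apLR_apply, ← tp_mul, ← tp_mul, ← tp_mul, ap_tp_tv, norm_tv]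
    refine pow_le_pow_left₀ (norm_nonneg _) (abs_le_of_sq_le_sq' ?_ (Real.exp_pos _).le).2 k
    rw [sq (Real.exp _), ← Real.exp_add, add_halves]
    exact hm ω ω' hω hω' hω1 hω1'
  have key2 : ‖ap (W1 * W3⁻¹ * W2⁻¹ * W4) (tv k χ)‖ ≤ c * (c * (c * (c * m'))) := by
    rw [e4, ap_mul D3, ap_mul D2]
    refine (norm_ap_le _ _).trans (mul_le_mul n3 ?_ (norm_nonneg _) hc0.le)
    exact (norm_ap_le _ _).trans (mul_le_mul n2 key (norm_nonneg _) hc0.le)
  refine (pow_le_pow_left₀ (norm_nonneg _) key2 2).trans (le_of_eq ?_)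
  rw [hc, hm', ← Real.exp_nat_mul, ← Real.exp_add, ← Real.exp_add, ← Real.exp_add,
    ← Real.exp_add, sq, ← Real.exp_add]
  congr 1; ring

end Crest.Agent.N336.R
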