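import Crest.Agent.N336.R.LD1

/-! # Row 336, replica package: concentration and the symbol of a conjugated term (helper87) -/

set_option autoImplicit false
set_option linter.unusedSectionVars false

open Matrix Finset MeasureTheory Filter
open scoped ComplexOrder MatrixOrder Matrix.Norms.L2Operator InnerProductSpace Topology

namespace Crest.Agent.N336.R

open Crest.Agent.N336.Q Crest.Agent.N336.Eng Crest.Agent.N336.C

attribute [local irreducible] ev eU

variable {ι : Type} [Fintype ι] [DecidableEq ι] {d : ι → Type} [∀ x, Fintype (d x)]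
  [∀ x, DecidableEq (d x)] [∀ x, Nonempty (d x)]

variable {A A' : Finset ι} {s ε M : ℝ}

namespace LD

lemma cont_LQ (A : Finset ι) {Y : Type*} [TopologicalSpace Y] {f : Q.Op d → Y}
    (hf : ContinuousOn f {L | L.IsHermitian}) :
    Continuous fun G : Q.Vec (Cfg d × Cfg d) => f (LQ A G) :=
  hf.comp_continuous (continuous_LQ A) (LQ_isHermitian A)

/-- the density of the operator valued measure -/
noncomputable def Pm (k : ℕ) (A : Finset ι) (s ε M : ℝ) (G : Q.Vec (Cfg d × Cfg d)) :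
    Mk k (Cfg d) := wt k A s ε (LQ A G) • ((Wm d k A s ε M)⁻¹ * tp k (ee (LQ A G)))

lemma smul_Pm (k : ℕ) (c : ℂ) (G : Q.Vec (Cfg d × Cfg d)) : c • Pm k A s ε M G =
    (Wm d k A s ε M)⁻¹ * (c * wt k A s ε (LQ A G)) • tp k (ee (LQ A G)) := by
  rw [Pm, Matrix.mul_smul, ← Complex.coe_smul, smul_smul]

lemma integrable_Pm (k : ℕ) (A : Finset ι) (s ε M : ℝ) {f : Q.Op d → ℂ}
    (hf : ContinuousOn f {L | L.IsHermitian}) :
    Integrable (fun G => f (LQ A G) • Pm k A s ε M G) (nu (Cfg d) M) := by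
  simp only [smul_Pm]
  exact (integrable_Wf k A s ε M (cont_LQ A hf)).const_mul _

lemma Ef_eq (k : ℕ) (A : Finset ι) (s ε M : ℝ) {f : Q.Op d → ℂ}
    (hf : ContinuousOn f {L | L.IsHermitian}) :
    Ef k A s ε M f = ∫ G, f (LQ A G) • Pm k A s ε M G ∂(nu (Cfg d) M) := by
  simp only [smul_Pm]
  rw [integral_const_mul_of_integrable (integrable_Wf k A s ε M (cont_LQ A hf))]
  rfl

lemma Pm_psd (hM : 0 < M) (k : ℕ) (G : Q.Vec (Cfg d × Cfg d)) :
    (Pm k A s ε M G).PosSemidef := by
  have hW := Wm_posDef (d := d) k A s ε hM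
  exact (posSemidef_mul hW.inv.posSemidef (tp_posDef k (ee_posDef _)).posSemidef
    (commute_inv hW (commute_W_tp k s ε M (supp_LQ A G) (LQ_isHermitian A G)).symm).symm).smul
    (wt_pos _ _ _ _ _).le

lemma W_inv_mul (hM : 0 < M) (k : ℕ) : (Wm d k A s ε M)⁻¹ * Wm d k A s ε M = 1 :=
  Matrix.nonsing_inv_mul _ ((isUnit_iff_isUnit_det _).1 (Wm_posDef k A s ε hM).isUnit)

lemma integrable_Pm' (k : ℕ) : Integrable (Pm (d := d) k A s ε M) (nu (Cfg d) M) := by
  simpa using integrable_Pm (d := d) k A s ε M (f := fun _ => 1) continuousOn_const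

lemma integral_Pm (hM : 0 < M) (k : ℕ) : ∫ G, Pm k A s ε M G ∂(nu (Cfg d) M) = 1 := by
  have := Ef_eq (d := d) k A s ε M (f := fun _ => 1) continuousOn_const
  simp only [one_smul] at this
  rw [← this]; exact W_inv_mul hM k

lemma sy_Ef (hM : 0 < M) (k : ℕ) (f : Q.Op d → ℂ) : Sy (Ef k A s ε M f) :=
  ((sy_Wm k A s ε M).inv (Wm_posDef k A s ε hM)).mul (sy_Wf k A s ε M f)

lemma isCompact_herm (M : ℝ) : IsCompact {L : Q.Op d | L.IsHermitian ∧ ‖L‖ ≤ M} := by
  have := FiniteDimensional.proper ℂ (Q.Op d)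
  refine Metric.isCompact_of_isClosed_isBounded (IsClosed.inter
    (isClosed_eq continuous_id.matrix_conjTranspose continuous_id)
    (isClosed_le continuous_norm continuous_const)) ?_
  exact isBounded_iff_forall_norm_le.2 ⟨M, fun L hL => hL.2⟩

lemma cont_Ls (A : Finset ι) (s : ℝ) (hε : 0 < ε) {Y : Type*} [TopologicalSpace Y]
    {f : Q.Op d → Y} (hf : ContinuousOn f {L | L.IsHermitian}) :
    Continuous fun χ : Sph (Cfg d) => f (Ls A s ε χ.1) :=
  hf.comp_continuous ((continuous_Ls A hε s).comp continuous_subtype_val)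
    fun χ => Ls_isHermitian A s ε χ.1

lemma inv_Ls (A : Finset ι) (s ε : ℝ) (f : Q.Op d → ℂ) :
    Inv fun χ : Sph (Cfg d) => f (Ls A s ε χ.1) := fun χ χ' h => by
  simp only [Ls, rq, h]

theorem Ef_le (A : Finset ι) (hs : 0 < s) (hε : 0 < ε) (hM : 0 < M)
    (hL : ∀ χ : Q.Vec (Cfg d), ‖χ‖ = 1 → Adm A M (Ls A s ε χ)) {g : Q.Op d → ℝ}
    (hg : ContinuousOn g {L | L.IsHermitian}) {δ : ℝ} (hδ : 0 < δ) :
    ∀ᶠ k : ℕ in atTop, cmp (Ef k A s ε M fun L => (g L : ℂ)) ≤
      Tr k (fun χ : Sph (Cfg d) => g (Ls A s ε χ.1)) + δ • (1 : Ms k (Cfg d)) := by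
  have hK := isCompact_herm (d := d) M
  have hgK : ContinuousOn g {L : Q.Op d | L.IsHermitian ∧ ‖L‖ ≤ M} := hg.mono fun L hL => hL.1
  have hm : ∀ L : Q.Op d, Adm A M L → L ∈ {L : Q.Op d | L.IsHermitian ∧ ‖L‖ ≤ M} := fun L hL =>
    ⟨hL.1, (norm_le_hs _).trans hL.2.2⟩
  obtain ⟨C₀, hC₀⟩ := hK.exists_bound_of_continuousOn hgK
  set C := |C₀| + 1 with hC
  have hC1 : 0 < C := by positivity
  have hCb : ∀ L : Q.Op d, Adm A M L → |g L| ≤ C := fun L hL =>
    (hC₀ L (hm L hL)).trans ((le_abs_self _).trans (by linarith))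
  obtain ⟨η, hη, hu⟩ := Metric.uniformContinuousOn_iff.1
    (hK.uniformContinuousOn_of_continuous hgK) (δ / 2) (by positivity)
  obtain ⟨θ, hθ, hfar⟩ := far_bound A hs hε hM hL hη
  set t := θ / (4 * C) with ht
  have ht0 : 0 < t := by positivity
  have htC : t * C = θ / 4 := by rw [ht]; field_simp
  have ev1 : ∀ (a c : ℝ), 0 < c → ∀ᶠ k : ℕ in atTop, a ≤ c * k := fun a c hc =>
    (tendsto_natCast_atTop_atTop.const_mul_atTop hc).eventually_ge_atTop a
  filter_upwards [hfar, dk_le_exp (n := Cfg d) (δ := t * δ / 4) (by positivity),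
    ev1 (Real.log 2) (t * δ / 4) (by positivity), ev1 ((nu (Cfg d) M).real Set.univ) (θ / 2)
      (by positivity), eventually_ge_atTop 1] with k h1 h2 h3 h4 h5
  have hk : (0 : ℝ) < k := by exact_mod_cast h5
  have hkt : 0 < k * t := by positivity
  have c1 : ContinuousOn (fun L => k * t * g L) {L : Q.Op d | L.IsHermitian} :=
    continuousOn_const.mul hg
  have c2 : ContinuousOn (fun L => (Real.exp (k * t * g L) : ℂ)) {L : Q.Op d | L.IsHermitian} :=
    Complex.continuous_ofReal.comp_continuousOn (Real.continuous_exp.comp_continuousOn c1)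
  have c3 : ContinuousOn (fun L => (g L : ℂ)) {L : Q.Op d | L.IsHermitian} :=
    Complex.continuous_ofReal.comp_continuousOn hg
  obtain ⟨hX, hle⟩ := povm_log (integrable_Pm' (A := A) (s := s) (ε := ε) k)
    (ae_of_all _ (Pm_psd hM k)) (integral_Pm hM k) (cont_LQ A c1).aestronglyMeasurable
    (C := k * t * C) ((ae_adm A M).mono fun G hG => by
      rw [abs_mul, abs_of_pos hkt]; exact mul_le_mul_of_nonneg_left (hCb _ hG) hkt.le)
  have i2 : Integrable (fun G => Real.exp (k * t * g (LQ A G)) • Pm k A s ε M G)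
      (nu (Cfg d) M) := by
    simpa only [Function.comp, Complex.coe_smul] using integrable_Pm k A s ε M c2
  have hS : Sy (∫ G, Real.exp (k * t * g (LQ A G)) • Pm k A s ε M G ∂(nu (Cfg d) M)) := by
    have := sy_Ef (A := A) (s := s) (ε := ε) hM k fun L => (Real.exp (k * t * g L) : ℂ)
    rw [Ef_eq _ _ _ _ _ c2] at this
    simpa only [Function.comp, Complex.coe_smul] using this
  have e1 : ∫ G, (k * t * g (LQ A G)) • Pm k A s ε M G ∂(nu (Cfg d) M) =
      (k * t) • Ef k A s ε M fun L => (g L : ℂ) := by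
    rw [Ef_eq _ _ _ _ _ c3, ← integral_smul]
    simp only [Function.comp, Complex.coe_smul, smul_smul]
  have cg := cont_Ls A s hε hg
  have hb := bl (cmp_posDef hX) (g := fun χ => k * t * (g (Ls A s ε χ.1) + δ / 2) + Real.log 2)
    ((continuous_const.mul (cg.add continuous_const)).add continuous_const) fun χ => by
      have hχ : ‖χ.1‖ = 1 := by simpa using χ.2
      have hp : 0 < qf (cv k χ.1) (cmp (∫ G, Real.exp (k * t * g (LQ A G)) • Pm k A s ε M G
          ∂(nu (Cfg d) M))) := by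
        have h0 : (cv k χ.1).ofLp ≠ 0 := fun h0 => by
          have := norm_cv k χ.1
          rw [hχ, one_pow, show cv k χ.1 = 0 from WithLp.ofLp_injective 2 h0] at this
          simp at this
        rw [qf, inner_eq, ofLp_ap]
        exact (Complex.lt_def.1 ((cmp_posDef hX).dotProduct_mulVec_pos h0)).1
      rw [Real.log_le_iff_le_exp hp, qf_cv_cmp, qf_integral i2, Real.exp_add,
        Real.exp_log two_pos]
      set B := Real.exp (k * t * (g (Ls A s ε χ.1) + δ / 2)) with hB
      have iq : ∀ {F : Q.Vec (Cfg d × Cfg d) → Mk k (Cfg d)}, Integrable F (nu (Cfg d) M) →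
          Integrable (fun G => qf (tv k χ.1) (F G)) (nu (Cfg d) M) := fun hF =>
        (((innerSL ℂ (tv k χ.1)).comp ((ContinuousLinearMap.apply ℂ _ (tv k χ.1)).comp
          (SB.apL _))).integrable_comp hF).re
      have q1 : ∫ G, qf (tv k χ.1) (Pm k A s ε M G) ∂(nu (Cfg d) M) = 1 := by
        rw [← qf_integral (integrable_Pm' k), integral_Pm hM, qf_one, norm_tv, hχ]; simp
      calc _ ≤ ∫ G, (B * qf (tv k χ.1) (Pm k A s ε M G) + Real.exp (k * t * C - θ * k))
            ∂(nu (Cfg d) M) := by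
            refine integral_mono_ae (iq i2) (((iq (integrable_Pm' k)).const_mul _).add
              (integrable_const _)) ((ae_adm A M).mono fun G hG => ?_)
            have p0 : 0 ≤ qf (tv k χ.1) (Pm k A s ε M G) := re_inner_ap_nonneg (Pm_psd hM k G) _
            beta_reduce
            rw [qf_rsmul]
            by_cases hn : η ≤ R.hs (LQ A G - Ls A s ε χ.1)
            · have := h1 _ _ hχ hG hn
              rw [← qf_rsmul] at this
              rw [sub_eq_add_neg, Real.exp_add]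
              refine le_add_of_nonneg_of_le (by positivity) (mul_le_mul (Real.exp_le_exp.2
                (mul_le_mul_of_nonneg_left ((le_abs_self _).trans (hCb _ hG)) hkt.le)) this p0
                (Real.exp_pos _).le)
            · have := hu _ (hm _ hG) _ (hm _ (hL _ hχ)) (by
                rw [dist_eq_norm]; exact (norm_le_hs _).trans_lt (not_le.1 hn))
              rw [Real.dist_eq, abs_lt] at this
              exact le_add_of_le_of_nonneg (mul_le_mul_of_nonneg_right (Real.exp_le_exp.2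
                (mul_le_mul_of_nonneg_left (by linarith) hkt.le)) p0) (Real.exp_pos _).le
        _ = B + (nu (Cfg d) M).real Set.univ * Real.exp (k * t * C - θ * k) := by
            rw [integral_add ((iq (integrable_Pm' k)).const_mul _) (integrable_const _),
              integral_const_mul, q1, integral_const, mul_one, smul_eq_mul]
        _ ≤ B * 2 := by
            have a1 := h4.trans ((le_add_of_nonneg_right zero_le_one).trans
              (Real.add_one_le_exp _))
            have a2 := mul_le_mul_of_nonneg_right a1 (Real.exp_pos (k * t * C - θ * k)).le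
            rw [← Real.exp_add] at a2
            have a3 := mul_le_mul_of_nonneg_left (neg_le_of_abs_le (hCb _ (hL _ hχ))) hkt.le
            have a4 : Real.exp (θ / 2 * k + (k * t * C - θ * k)) ≤ B := Real.exp_le_exp.2 (by
              have : k * t * C = k * (θ / 4) := by rw [mul_assoc, htC]
              nlinarith [mul_pos hkt hδ])
            linarith
  have e2 : Tr k (fun χ : Sph (Cfg d) => k * t * (g (Ls A s ε χ.1) + δ / 2) + Real.log 2) =
      (k * t) • Tr k (fun χ : Sph (Cfg d) => g (Ls A s ε χ.1)) +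
        (k * t * (δ / 2) + Real.log 2) • (1 : Ms k (Cfg d)) := by
    rw [← Complex.coe_smul, ← Complex.coe_smul, ← Tc_const, Tr, Tr, ← Tc_smul,
      ← Tc_add k (by exact continuous_const.mul (Complex.continuous_ofReal.comp cg))
        continuous_const]
    congr 1; funext χ; push_cast; ring
  have h6 := cmp_mono hle
  rw [e1, cmp_rsmul, lg, fr, cmp_fc hS hX.1] at h6
  have h7 := h6.trans hb
  rw [e2, add_assoc, ← add_smul] at h7
  have h8 : Real.log (dk k (Cfg d)) ≤ t * δ / 4 * k :=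
    (Real.log_le_iff_le_exp (by exact_mod_cast dk_pos k)).2 h2
  have h9 : (k * t * (δ / 2) + Real.log 2 + Real.log (dk k (Cfg d))) • (1 : Ms k (Cfg d)) ≤
      (k * t * δ) • (1 : Ms k (Cfg d)) := by
    rw [Matrix.le_iff, ← sub_smul]
    exact PosSemidef.one.smul (by nlinarith)
  have h10 := h7.trans (add_le_add_right h9 _)
  rw [← smul_smul (k * t), ← smul_add, Matrix.le_iff, ← smul_sub] at h10
  have := h10.smul (inv_pos.2 hkt).le
  rwa [smul_smul, inv_mul_cancel₀ hkt.ne', one_smul] at this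

lemma Ef_add (k : ℕ) {f g : Q.Op d → ℂ} (hf : ContinuousOn f {L | L.IsHermitian})
    (hg : ContinuousOn g {L | L.IsHermitian}) :
    Ef k A s ε M (fun L => f L + g L) = Ef k A s ε M f + Ef k A s ε M g := by
  rw [Ef_eq _ _ _ _ _ hf, Ef_eq _ _ _ _ _ hg,
    Ef_eq _ _ _ _ _ (f := fun L => f L + g L) (hf.add hg),
    ← integral_add (integrable_Pm _ _ _ _ _ hf) (integrable_Pm _ _ _ _ _ hg)]
  simp only [add_smul]

lemma Ef_smul (k : ℕ) (c : ℂ) (f : Q.Op d → ℂ) :
    Ef k A s ε M (fun L => c * f L) = c • Ef k A s ε M f := by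
  rw [Ef, Ef, Wf, Wf, ← Matrix.mul_smul, ← integral_smul]
  simp only [smul_smul, mul_assoc]

lemma hasSym_Ef_re (A : Finset ι) (hs : 0 < s) (hε : 0 < ε) (hM : 0 < M)
    (hL : ∀ χ : Q.Vec (Cfg d), ‖χ‖ = 1 → Adm A M (Ls A s ε χ)) {g : Q.Op d → ℝ}
    (hg : ContinuousOn g {L | L.IsHermitian}) :
    HasSym (fun k => cmp (Ef k A s ε M fun L => (g L : ℂ))) fun χ => (g (Ls A s ε χ.1) : ℂ) := by
  refine hasSym_of_le (cont_Ls A s hε hg) (inv_Ls A s ε fun L => (g L : ℂ))
    (fun δ hδ => Ef_le A hs hε hM hL hg hδ) fun δ hδ => ?_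
  filter_upwards [Ef_le A hs hε hM hL hg.neg hδ] with k hk
  rw [← cmp_neg, ← neg_one_smul ℂ, ← Ef_smul]
  simpa using hk

end LD

open LD

theorem hasSym_Ef (A : Finset ι) (hs : 0 < s) (hε : 0 < ε) (hM : 0 < M)
    (hL : ∀ χ : Q.Vec (Cfg d), ‖χ‖ = 1 → Adm A M (Ls A s ε χ)) {f : Q.Op d → ℂ}
    (hf : ContinuousOn f {L | L.IsHermitian}) :
    HasSym (fun k => cmp (Ef k A s ε M f)) fun χ => f (Ls A s ε χ.1) := by
  have h1 := Complex.continuous_re.comp_continuousOn hf
  have h2 := Complex.continuous_im.comp_continuousOn hf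
  refine ((hasSym_Ef_re A hs hε hM hL h1).add ((hasSym_Ef_re A hs hε hM hL h2).smul
    Complex.I)).congr (Eventually.of_forall fun k => ?_) fun χ => ?_
  · rw [← cmp_smul, ← cmp_add, ← Ef_smul, ← Ef_add k
      (by exact Complex.continuous_ofReal.comp_continuousOn h1)
      (by exact continuousOn_const.mul (Complex.continuous_ofReal.comp_continuousOn h2))]
    congr 2; funext L
    simp only [Function.comp]
    rw [mul_comm, Complex.re_add_im]
  · simp only [Function.comp]
    rw [mul_comm, Complex.re_add_im]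

namespace LD

lemma cont_conj (h : Q.Op d) (a b : Cfg d) :
    ContinuousOn (fun L : Q.Op d => (ee L * h * ee (-L)) a b) {L | L.IsHermitian} ∧
    ContinuousOn (fun L : Q.Op d => (ee (-L) * h * ee L) a b) {L | L.IsHermitian} := by
  have h1 : Continuous fun L : {L : Q.Op d | L.IsHermitian} => ee L.1 :=
    continuous_ee continuous_subtype_val fun L => L.2
  have h2 : Continuous fun L : {L : Q.Op d | L.IsHermitian} => ee (-L.1) :=
    continuous_ee continuous_subtype_val.neg fun L => IsHermitian.neg L.2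
  simp only [continuousOn_iff_continuous_restrict]
  exact ⟨((h1.mul continuous_const).mul h2).matrix_elem a b,
    ((h2.mul continuous_const).mul h1).matrix_elem a b⟩

lemma dG_expand (k : ℕ) (X : Q.Op d) :
    dG k X = ∑ p : Cfg d × Cfg d, X p.1 p.2 • dG k (single p.1 p.2 1) := by
  conv_lhs => rw [matrix_eq_sum_single X, ← Fintype.sum_prod_type' (fun a b => single a b (X a b)),
    dG_sum]
  exact Finset.sum_congr rfl fun p _ => by rw [← dG_smul, smul_single, smul_eq_mul, mul_one]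

lemma inner_expand (χ : Q.Vec (Cfg d)) (P X T : Q.Op d) : ⟪χ, ap (P * X * T) χ⟫_ℂ =
    ∑ p : Cfg d × Cfg d, X p.1 p.2 * ⟪χ, ap (P * single p.1 p.2 1 * T) χ⟫_ℂ := by
  conv_lhs => rw [matrix_eq_sum_single X, ← Fintype.sum_prod_type' (fun a b => single a b (X a b)),
    Matrix.mul_sum, Matrix.sum_mul, ap_sum, inner_sum]
  exact Finset.sum_congr rfl fun p _ => by
    rw [← inner_smul_right, ← ap_smul, ← Matrix.smul_mul, ← Matrix.mul_smul, smul_single,
      smul_eq_mul, mul_one]

lemma W_mul_dG (k : ℕ) (h : Q.Op d) : Wm d k A s ε M * dG k h = ∑ p : Cfg d × Cfg d,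
    dG k (single p.1 p.2 1) * Wf k A s ε M fun L => (ee L * h * ee (-L)) p.1 p.2 := by
  have i := fun p : Cfg d × Cfg d => integrable_Wf k A s ε M
    (f := fun L : Q.Op d => (ee L * h * ee (-L)) p.1 p.2) (cont_LQ A (cont_conj h p.1 p.2).1)
  have i0 := integrable_Wf (d := d) k A s ε M (f := fun _ => 1) continuous_const
  have e1 := fun p : Cfg d × Cfg d =>
    integral_const_mul_of_integrable (i p) (c := dG k (single p.1 p.2 1))
  refine (integral_mul_const_of_integrable i0).symm.trans (Eq.trans ?_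
    ((integral_finsetSum univ fun p _ => (i p).const_mul (dG k (single p.1 p.2 1))).trans
      (Finset.sum_congr rfl fun p _ => e1 p)))
  refine integral_congr_ae (Eventually.of_forall fun G => ?_)
  beta_reduce
  rw [Matrix.smul_mul, tp_mul_dG k (ee_neg_mul_ee (LQ_isHermitian A G)), dG_expand,
    Matrix.sum_mul, Finset.smul_sum]
  exact Finset.sum_congr rfl fun p _ => by
    rw [Matrix.smul_mul, Matrix.mul_smul, smul_smul, one_mul, mul_comm]

lemma dG_mul_W (k : ℕ) (h : Q.Op d) : dG k h * Wm d k A s ε M = ∑ p : Cfg d × Cfg d,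
    (Wf k A s ε M fun L => (ee (-L) * h * ee L) p.1 p.2) * dG k (single p.1 p.2 1) := by
  have i := fun p : Cfg d × Cfg d => integrable_Wf k A s ε M
    (f := fun L : Q.Op d => (ee (-L) * h * ee L) p.1 p.2) (cont_LQ A (cont_conj h p.1 p.2).2)
  have i0 := integrable_Wf (d := d) k A s ε M (f := fun _ => 1) continuous_const
  have e1 := fun p : Cfg d × Cfg d =>
    integral_mul_const_of_integrable (i p) (c := dG k (single p.1 p.2 1))
  refine (integral_const_mul_of_integrable i0).symm.trans (Eq.trans ?_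
    ((integral_finsetSum univ fun p _ => (i p).mul_const (dG k (single p.1 p.2 1))).trans
      (Finset.sum_congr rfl fun p _ => e1 p)))
  refine integral_congr_ae (Eventually.of_forall fun G => ?_)
  beta_reduce
  rw [Matrix.mul_smul, dG_mul_tp k (ee_mul_ee_neg (LQ_isHermitian A G)), dG_expand,
    Matrix.mul_sum, Finset.smul_sum]
  exact Finset.sum_congr rfl fun p _ => by
    rw [Matrix.smul_mul, Matrix.mul_smul, smul_smul, one_mul, mul_comm]

lemma ee_neg_Ls (X : Finset ι) (hε : 0 < ε) (s : ℝ) (χ : Q.Vec (Cfg d)) :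
    ee (-Ls X s ε χ) = pw (rq χ X ε) (-s) := by
  rw [← ee_Ls X hε, Ls, Ls, neg_smul]

lemma hasSym_conj (hs : 0 < s) (hε : 0 < ε) (hM : 0 < M)
    (hL : ∀ χ : Q.Vec (Cfg d), ‖χ‖ = 1 → Adm A M (Ls A s ε χ)) (h : Q.Op d) :
    HasSym (fun k => cmp ((Wm d k A s ε M)⁻¹ * ((k : ℂ)⁻¹ • dG k h) * Wm d k A s ε M))
      fun χ => ⟪χ.1, ap (pw (rq χ.1 A ε) (-s) * h * pw (rq χ.1 A ε) s) χ.1⟫_ℂ := by
  refine (HasSym.sum univ fun (p : Cfg d × Cfg d) _ =>
    (hasSym_Ef A hs hε hM hL (cont_conj h p.1 p.2).2).mul (hasSym_dG (single p.1 p.2 1))).congr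
    (Eventually.of_forall fun k => ?_) fun χ => ?_
  · rw [Matrix.mul_assoc, Matrix.smul_mul, dG_mul_W, Finset.smul_sum, Matrix.mul_sum, cmp_sum]
    exact Finset.sum_congr rfl fun p _ => by
      rw [← cmp_smul, ← cmp_mul _ ((sy_dG _ _).smul _), Ef, Matrix.mul_assoc, Matrix.mul_smul]
  · have := inner_expand χ.1 1 (pw (rq χ.1 A ε) (-s) * h * pw (rq χ.1 A ε) s) 1
    simp only [Matrix.one_mul, Matrix.mul_one] at this
    rw [this, ee_neg_Ls A hε, ee_Ls A hε]

end LD

theorem hasSym_X (hA : A' ⊆ A ∨ Disjoint A' A) (hs : 0 < s) {ε' : ℝ} (hε : 0 < ε) (hε' : 0 < ε')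
    (hM : 0 < M) (hL : ∀ χ : Q.Vec (Cfg d), ‖χ‖ = 1 → Adm A M (Ls A s ε χ))
    (hL' : ∀ χ : Q.Vec (Cfg d), ‖χ‖ = 1 → Adm A' M (Ls A' s ε' χ)) (h : Q.Op d) :
    HasSym (fun k => cmp ((Wm d k A s ε M)⁻¹ * Wm d k A' s ε' M * ((k : ℂ)⁻¹ • dG k h) *
        (Wm d k A' s ε' M)⁻¹ * Wm d k A s ε M))
      fun χ => ⟪χ.1, ap (pw (rq χ.1 A ε) (-s) * pw (rq χ.1 A' ε') s * h *
        pw (rq χ.1 A' ε') (-s) * pw (rq χ.1 A ε) s) χ.1⟫_ℂ := by
  refine (HasSym.sum univ fun (p : Cfg d × Cfg d) _ =>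
    (hasSym_conj hs hε hM hL (single p.1 p.2 1)).mul
      (hasSym_Ef A' hs hε' hM hL' (cont_conj h p.1 p.2).1)).congr
    (Eventually.of_forall fun k => ?_) fun χ => ?_
  · have hW' := Wm_posDef (d := d) k A' s ε' hM
    rw [Matrix.mul_assoc _ (Wm d k A' s ε' M), Matrix.mul_smul (Wm d k A' s ε' M), W_mul_dG,
      Finset.smul_sum, Matrix.mul_sum, Matrix.sum_mul, Matrix.sum_mul, cmp_sum]
    refine Finset.sum_congr rfl fun p _ => ?_
    have c1 := Wm_commute_Wf (d := d) hA k s ε M s ε' M fun L => (ee L * h * ee (-L)) p.1 p.2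
    have c2 := commute_inv hW' (Wm_commute_Wf (d := d) hA k s ε M s ε' M fun _ => 1)
    have c3 := commute_inv hW' (Wm_commute_Wf (d := d) (Or.inl Subset.rfl) k s ε' M s ε' M
      fun L => (ee L * h * ee (-L)) p.1 p.2).symm
    rw [← cmp_mul _ (sy_Ef hM k _), Ef, ← c3.eq, Matrix.mul_assoc _ (Wm d k A s ε M),
      (c1.mul_right c2).eq, ← Matrix.smul_mul]
    simp only [Matrix.mul_assoc]
  · have := inner_expand χ.1 (pw (rq χ.1 A ε) (-s))
      (pw (rq χ.1 A' ε') s * h * pw (rq χ.1 A' ε') (-s)) (pw (rq χ.1 A ε) s)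
    simp only [← Matrix.mul_assoc] at this
    rw [this, ee_neg_Ls A' hε', ee_Ls A' hε']
    exact Finset.sum_congr rfl fun p _ => mul_comm _ _

end Crest.Agent.N336.R
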