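import Crest.Agent.N336.R.Met

/-! # Row 336, replica package: the large deviation bound (helper87) -/

set_option autoImplicit false
set_option linter.unusedSectionVars false

open Matrix Finset MeasureTheory Filter
open scoped ComplexOrder MatrixOrder Matrix.Norms.L2Operator InnerProductSpace Topology

namespace Crest.Agent.N336.R

open Crest.Agent.N336.Q Crest.Agent.N336.Eng Crest.Agent.N336.C

attribute [local irreducible] ev eU

namespace LD

section mat

variable {n : Type} [Fintype n] [DecidableEq n]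

lemma qf_conj {P : Matrix n n ℂ} (hP : P.IsHermitian) (T : Matrix n n ℂ) (v : Q.Vec n) :
    qf v (P * T * P) = qf (ap P v) T := by
  rw [qf, qf, inner_ap_left, hP.eq, ← ap_mul, ← ap_mul]

lemma qf_rsmul (c : ℝ) (M : Matrix n n ℂ) (v : Q.Vec n) : qf v (c • M) = c * qf v M := by
  rw [← qf_smul, Complex.coe_smul]

lemma qf_inv_mul_le {W B B' : Matrix n n ℂ} (hB : B.PosDef) (hB' : B'.PosDef) (h : B ≤ W)
    (h' : B' ≤ W) (hc : Commute B W) {α : ℝ} (h0 : 0 ≤ α) (h1 : α ≤ 1) (v : Q.Vec n) :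
    qf v (W⁻¹ * B) ≤ qf v (pw B (α / 2) * pw B' (-α) * pw B (α / 2)) := by
  have hW := posDef_of_le hB h
  have hc' : Commute B W⁻¹ := commute_inv hW hc
  have hT := posDef_mul_inv hB hW hc
  have hT1 : B * W⁻¹ ≤ 1 := by
    have := mul_le_mul_comm h hW.inv.posSemidef hc' (commute_inv hW (Commute.refl W))
    rwa [Matrix.mul_nonsing_inv _ ((isUnit_iff_isUnit_det _).1 hW.isUnit)] at this
  have hev : ∀ i, ev (B * W⁻¹) i ≤ 1 := fun i => by
    have := re_inner_ap_mono hT1 (evec (B * W⁻¹) i)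
    rw [← ev_eq_re_inner hT.1, ap_one, inner_evec] at this
    simpa using this
  have h2 : B * W⁻¹ ≤ pw (B * W⁻¹) α := by
    conv_lhs => rw [← fr_id hT.1]
    exact fr_le_fr fun i => by
      simpa using Real.rpow_le_rpow_of_exponent_ge (ev_pos hT i) (hev i) h1
  have h3 : pw (B * W⁻¹) α = pw B (α / 2) * pw W⁻¹ α * pw B (α / 2) := by
    rw [pw_mul hB hW.inv hc', Matrix.mul_assoc, ← (commute_fc_fc hB.1 hW.inv.1 hc').eq,
      ← Matrix.mul_assoc, pw_mul_pw hB, add_halves]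
  rw [← hc'.eq]
  refine (re_inner_ap_mono h2 v).trans ?_
  rw [h3, ← pw_inv hB']
  change qf v _ ≤ _
  rw [qf_conj (pw_isHermitian _ _), qf_conj (pw_isHermitian _ _)]
  exact re_inner_ap_mono (pw_mono hW.inv.posSemidef (inv_anti hB' h') h0 h1) _

lemma norm_ee_sub {X : Matrix n n ℂ} (hX : X.IsHermitian) {r R : ℝ} (h : ‖X‖ ≤ r) (hr : r ≤ R) :
    ‖ee X - 1 - X‖ ≤ r ^ 2 * Real.exp R := by
  have e : ee X - 1 - X = fr (fun x => Real.exp x - 1 - x) X := by
    conv_lhs => arg 2; rw [← fc_id hX]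
    rw [← fc_one X, fc_sub, fc_sub]
    exact fc_congr fun i => by push_cast; ring
  rw [e]
  refine norm_fc_le (by positivity) fun i => ?_
  have h1 := (abs_ev_le hX i).trans h
  have h2 := Mom.exp_le_quad (ev X i)
  have h3 := Real.add_one_le_exp (ev X i)
  rw [Complex.norm_real, Real.norm_eq_abs, abs_of_nonneg (by linarith)]
  have h4 : ev X i ^ 2 * Real.exp |ev X i| ≤ r ^ 2 * Real.exp R :=
    mul_le_mul (by rw [← sq_abs]; exact pow_le_pow_left₀ (abs_nonneg _) h1 2)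
      (Real.exp_le_exp.2 (h1.trans hr)) (Real.exp_pos _).le (sq_nonneg _)
  linarith

/-- one-particle expansion -/
lemma one_particle {M : ℝ} (hM : 0 ≤ M) : ∃ C : ℝ, 0 ≤ C ∧ ∀ (L L' : Matrix n n ℂ) (χ : Q.Vec n)
    (α : ℝ), L.IsHermitian → L'.IsHermitian → ‖L‖ ≤ M → ‖L'‖ ≤ M → ‖χ‖ = 1 → 0 ≤ α → α ≤ 1 →
    qf χ (ee ((α / 2) • L) * ee ((-α) • L') * ee ((α / 2) • L)) ≤
      Real.exp (α * qf χ (L - L') + C * α ^ 2) := by
  set K := M + M ^ 2 * Real.exp M with hK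
  have hK0 : 0 ≤ K := by positivity
  refine ⟨3 * K + 3 * K ^ 2 + K ^ 3, by positivity, fun L L' χ α hL hL' h h' hχ h0 h1 => ?_⟩
  have key : ∀ (c : ℝ) (X : Matrix n n ℂ), X.IsHermitian → ‖X‖ ≤ M → |c| ≤ α →
      ‖ee (c • X) - 1 - c • X‖ ≤ α ^ 2 * K ∧ ‖ee (c • X) - 1‖ ≤ α * K := fun c X hX hn hc => by
    have h2 : ‖c • X‖ ≤ α * M := by
      rw [norm_smul]; exact mul_le_mul hc hn (norm_nonneg _) h0
    have h3 := norm_ee_sub (hX.smul (IsSelfAdjoint.all c)) h2 (mul_le_of_le_one_left hM h1)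
    have h4 := norm_add_le (ee (c • X) - 1 - c • X) (c • X)
    rw [sub_add_cancel] at h4
    have h5 : 0 ≤ M ^ 2 * Real.exp M := by positivity
    have h6 : α ^ 2 ≤ α := by nlinarith
    constructor
    · nlinarith [mul_nonneg (sq_nonneg α) hM]
    · nlinarith [mul_le_mul_of_nonneg_right h6 h5]
  obtain ⟨a1, a2⟩ := key (α / 2) L hL h (by rw [abs_of_nonneg (by linarith)]; linarith)
  obtain ⟨b1, b2⟩ := key (-α) L' hL' h' (by rw [abs_neg, abs_of_nonneg h0])
  set a := ee ((α / 2) • L) - 1 with ha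
  set b := ee ((-α) • L') - 1 with hb
  have e : ee ((α / 2) • L) * ee ((-α) • L') * ee ((α / 2) • L) = 1 + α • (L - L') +
      ((a - (α / 2) • L) + (a - (α / 2) • L) + (b - (-α) • L') +
        (a * b + b * a + a * a + a * b * a)) := by
    rw [← sub_add_cancel (ee ((α / 2) • L)) 1, ← sub_add_cancel (ee ((-α) • L')) 1, ← ha, ← hb]
    have : α • (L - L') = (α / 2) • L + (α / 2) • L + (-α) • L' := by module
    rw [this]; noncomm_ring
  have hα := mul_nonneg h0 hK0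
  have n1 := norm_mul_le_of_le a2 b2
  have n2 : ‖(a - (α / 2) • L) + (a - (α / 2) • L) + (b - (-α) • L') +
      (a * b + b * a + a * a + a * b * a)‖ ≤ (3 * K + 3 * K ^ 2 + K ^ 3) * α ^ 2 := by
    refine (norm_add_le_of_le (norm_add_le_of_le (norm_add_le_of_le a1 a1) b1)
      (norm_add_le_of_le (norm_add_le_of_le (norm_add_le_of_le n1 (norm_mul_le_of_le b2 a2))
        (norm_mul_le_of_le a2 a2)) (norm_mul_le_of_le n1 a2))).trans ?_
    nlinarith [mul_nonneg (mul_nonneg (sq_nonneg α) (pow_nonneg hK0 3)) (sub_nonneg.2 h1)]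
  rw [e, qf_add, qf_add, qf_one, qf_rsmul, hχ]
  refine le_trans ?_ (Real.add_one_le_exp _)
  have n3 := (Complex.re_le_norm _).trans (norm_inner_ap_le ((a - (α / 2) • L) +
    (a - (α / 2) • L) + (b - (-α) • L') + (a * b + b * a + a * a + a * b * a)) χ χ)
  rw [hχ] at n3
  simp only [qf] at n3 ⊢
  linarith

end mat

lemma exp_sub_ge {u U : ℝ} (h : |u| ≤ U) : Real.exp (-U) * u ^ 2 / 4 ≤ Real.exp u - 1 - u := by
  have h1 := Real.add_one_le_exp (u / 2)
  have h2 : Real.exp u = Real.exp (u / 2) ^ 2 := by rw [← Real.exp_nat_mul]; congr 1; push_cast; ring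
  have h3 : Real.exp (-U) = Real.exp (-(U / 2)) ^ 2 := by
    rw [← Real.exp_nat_mul]; congr 1; push_cast; ring
  have h4 : Real.exp (-(U / 2)) * (|u| / 2) ≤ |Real.exp (u / 2) - 1| := by
    have hU : Real.exp (-(U / 2)) ≤ 1 := Real.exp_le_one_iff.2 (by linarith [abs_nonneg u])
    rcases le_total 0 u with h0 | h0
    · rw [abs_of_nonneg h0]
      refine le_trans ?_ (le_abs_self _)
      nlinarith
    · rw [abs_of_nonpos h0] at h ⊢
      refine le_trans ?_ (neg_le_abs _)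
      have h5 := Real.add_one_le_exp (-(u / 2))
      have h6 : Real.exp (u / 2) * Real.exp (-(u / 2)) = 1 := by rw [← Real.exp_add]; simp
      have h7 : Real.exp (-(U / 2)) ≤ Real.exp (u / 2) := Real.exp_le_exp.2 (by linarith)
      nlinarith [Real.exp_pos (u / 2)]
  have h5 := pow_le_pow_left₀ (by positivity) h4 2
  rw [sq_abs, mul_pow, div_pow, sq_abs, ← h3] at h5
  nlinarith

variable {ι : Type} [Fintype ι] [DecidableEq ι] {d : ι → Type} [∀ x, Fintype (d x)]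
  [∀ x, DecidableEq (d x)] [∀ x, Nonempty (d x)] {A : Finset ι} {s ε M : ℝ}

lemma psi_eq (A : Finset ι) (s ε : ℝ) {L : Q.Op d} (hL : L.IsHermitian) : psi A s ε L =
    (trace (fr (fun t => s * Real.exp (s⁻¹ * t) - ε * t) L)).re / dim d Aᶜ := by
  have e : s⁻¹ • L = fr (fun t => s⁻¹ * t) L := by
    conv_lhs => rw [← fc_id hL, ← Complex.coe_smul, fc_smul]
    simp only [fr, Complex.ofReal_mul]
  rw [psi, e, ee, fr, fc_fr, re_trace_fr (fun t => Real.exp (s⁻¹ * t)), re_trace_fr,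
    trace_eq_sum_ev hL, Complex.ofReal_re]
  simp only [Finset.mul_sum, Finset.sum_sub_distrib]

lemma Ls_isHermitian (A : Finset ι) (s ε : ℝ) (χ : Q.Vec (Cfg d)) : (Ls A s ε χ).IsHermitian :=
  (fr_isHermitian _ _).smul (IsSelfAdjoint.all s)

lemma psi_gap (hs : 0 < s) (hε : 0 < ε) {χ : Q.Vec (Cfg d)} {L : Q.Op d} (hL : Adm A M L)
    (hL' : Adm A M (Ls A s ε χ)) : psi A s ε (Ls A s ε χ) + qf χ (L - Ls A s ε χ) +
      Real.exp (-(3 * M / s)) / (4 * s) / dim d Aᶜ * R.hs (L - Ls A s ε χ) ^ 2 ≤ psi A s ε L := by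
  have hev : ∀ {X : Q.Op d}, Adm A M X → ∀ i, |ev X i| ≤ M := fun h i =>
    (abs_ev_le h.1 i).trans ((norm_le_hs _).trans h.2.2)
  have h := klein_strong hL.1 hL'.1 (φ := fun t => s * Real.exp (s⁻¹ * t) - ε * t)
    (φ' := fun t => Real.exp (s⁻¹ * t) - ε) (m := Real.exp (-(3 * M / s)) / (4 * s)) fun i j => by
      have h1 := abs_le.1 (hev hL i)
      have h2 := abs_le.1 (hev hL' j)
      generalize ev L i = x at h1 ⊢
      generalize ev (Ls A s ε χ) j = y at h2 ⊢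
      have hs' := inv_pos.2 hs
      have h3 := exp_sub_ge (u := s⁻¹ * (x - y)) (U := 2 * M / s) (by
        rw [abs_mul, abs_of_pos hs', div_eq_inv_mul]
        exact mul_le_mul_of_nonneg_left (abs_le.2 ⟨by linarith, by linarith⟩) hs'.le)
      have h4 : Real.exp (-(M / s)) ≤ Real.exp (s⁻¹ * y) := Real.exp_le_exp.2 (by
        rw [div_eq_inv_mul, ← mul_neg]; exact mul_le_mul_of_nonneg_left h2.1 hs'.le)
      have h5 := mul_le_mul h4 h3 (by positivity) (Real.exp_pos _).le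
      have e1 : Real.exp (s⁻¹ * x) = Real.exp (s⁻¹ * y) * Real.exp (s⁻¹ * (x - y)) := by
        rw [← Real.exp_add]; congr 1; ring
      have e2 : Real.exp (-(3 * M / s)) = Real.exp (-(M / s)) * Real.exp (-(2 * M / s)) := by
        rw [← Real.exp_add]; congr 1; ring
      have h6 := mul_le_mul_of_nonneg_left h5 hs.le
      have e3 : s * (s⁻¹ * (x - y)) = x - y := mul_inv_cancel_left₀ hs.ne' _
      have e4 : Real.exp (-(M / s)) * Real.exp (-(2 * M / s)) / (4 * s) * (x - y) ^ 2 = s *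
          (Real.exp (-(M / s)) * (Real.exp (-(2 * M / s)) * (s⁻¹ * (x - y)) ^ 2 / 4)) := by
        field_simp
      rw [e1, e2, e4]
      linear_combination h6 - Real.exp (s⁻¹ * y) * e3
  have e : fr (fun t => Real.exp (s⁻¹ * t) - ε) (Ls A s ε χ) = mg A (pj χ) := by
    have e1 : Ls A s ε χ = fr (fun x => s * Real.log x) (rq χ A ε) := by
      rw [Ls, ← Complex.coe_smul, lg, fr, fc_smul]; simp only [fr, Complex.ofReal_mul]
    rw [e1, fr, fc_fr, fc_rq]
    conv_rhs => rw [← fc_id (mg_isHermitian A (pj_isHermitian χ))]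
    refine fc_congr fun i => ?_
    have := ev_nonneg (mg_posSemidef A (pj_posSemidef χ)) i
    rw [inv_mul_cancel_left₀ hs.ne', Real.exp_log (by linarith), add_sub_cancel_right]
  rw [e, trace_mul_comm] at h
  have hD := dim_pos_real (d := d) Aᶜ
  rw [psi_eq _ _ _ hL.1, psi_eq _ _ _ hL'.1, qf_eq_trace_mg (hL.2.1.sub hL'.2.1), div_mul_eq_mul_div,
    ← add_div, ← add_div]
  exact div_le_div_of_nonneg_right h hD.le

lemma supp_ee {L : Q.Op d} (h : Supp A L) (hL : L.IsHermitian) : Supp A (ee L) := h.fc _ hL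

lemma commute_W_tp (k : ℕ) (s ε M : ℝ) {L : Q.Op d} (h : Supp A L) (hL : L.IsHermitian) :
    Commute (Wm d k A s ε M) (tp k (ee L)) :=
  Wm_commute_tp (supp_ee h hL) (ee_posDef L).posSemidef (Or.inl Subset.rfl) k s ε M

lemma pw_exp_smul_tp (k : ℕ) (a α : ℝ) {L : Q.Op d} (hL : L.IsHermitian) :
    pw (Real.exp a • tp k (ee L)) α = Real.exp (a * α) • tp k (ee (α • L)) := by
  rw [pw_smul (tp_posDef k (ee_posDef L)) (Real.exp_pos a), pw_tp k (ee_posDef L), pw_ee hL,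
    Real.exp_mul]

end LD

open LD

variable {ι : Type} [Fintype ι] [DecidableEq ι] {d : ι → Type} [∀ x, Fintype (d x)]
  [∀ x, DecidableEq (d x)] [∀ x, Nonempty (d x)] {s ε M : ℝ}

/-- far from the concentration point the operator valued measure is exponentially small -/
theorem far_bound (A : Finset ι) (hs : 0 < s) (hε : 0 < ε) (hM : 0 < M)
    (hL : ∀ χ : Q.Vec (Cfg d), ‖χ‖ = 1 → Adm A M (Ls A s ε χ)) {η : ℝ} (hη : 0 < η) :
    ∃ θ : ℝ, 0 < θ ∧ ∀ᶠ k : ℕ in atTop, ∀ (χ : Q.Vec (Cfg d)) (L : Q.Op d), ‖χ‖ = 1 → Adm A M L →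
      η ≤ R.hs (L - Ls A s ε χ) →
      wt k A s ε L * qf (tv k χ) ((Wm d k A s ε M)⁻¹ * tp k (ee L)) ≤ Real.exp (-(θ * k)) := by
  obtain ⟨C, hC, H⟩ := one_particle (n := Cfg d) hM.le
  have hD := dim_pos_real (d := d) Aᶜ
  set m := Real.exp (-(3 * M / s)) / (4 * s) / dim d Aᶜ with hm
  have hm0 : 0 < m * η ^ 2 := by positivity
  set α := min 1 (m * η ^ 2 / (2 * (C + 1))) with hα
  have h0 : 0 < α := by positivity
  have h1 : α ≤ 1 := min_le_left _ _
  have h2 : α * (2 * (C + 1)) ≤ m * η ^ 2 := (le_div_iff₀ (by positivity)).1 (min_le_right _ _)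
  refine ⟨α * (m * η ^ 2) / 4, by positivity, ?_⟩
  filter_upwards [le_Wm (d := d) A hs ε hM (δ := α * (m * η ^ 2) / 4) (by positivity)]
    with k hk χ L hχ hA hη'
  set δ := α * (m * η ^ 2) / 4 with hδ
  have hA' := hL χ hχ
  have b1 := hk L hA
  have b2 := hk _ hA'
  rw [wt, ← Real.exp_add] at b1 b2
  have h3 := qf_inv_mul_le ((tp_posDef k (ee_posDef _)).smul (Real.exp_pos _))
    ((tp_posDef k (ee_posDef _)).smul (Real.exp_pos _)) b1 b2
    ((commute_W_tp k s ε M hA.2.1 hA.1).symm.smul_left _) h0.le h1 (tv k χ)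
  have hh : (ee ((α / 2) • L) * ee ((-α) • Ls A s ε χ) * ee ((α / 2) • L)).PosSemidef := by
    have := (ee_posDef ((-α) • Ls A s ε χ)).posSemidef.conjTranspose_mul_mul_same
      (ee ((α / 2) • L))
    rwa [(fr_isHermitian _ _).eq] at this
  rw [pw_exp_smul_tp _ _ _ hA.1, pw_exp_smul_tp _ _ _ hA'.1, Matrix.mul_smul, Matrix.mul_smul,
    Matrix.smul_mul, Matrix.mul_smul, Matrix.smul_mul, Matrix.smul_mul, ← tp_mul, ← tp_mul,
    qf_rsmul, qf_rsmul, qf_rsmul, qf_rsmul, qf_tv_tp k hh.1, Real.exp_add, mul_assoc] at h3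
  have h4 := pow_le_pow_left₀ (re_inner_ap_nonneg hh χ) (H L _ χ α hA.1 hA'.1
    ((norm_le_hs _).trans hA.2.2) ((norm_le_hs _).trans hA'.2.2) hχ h0.le h1) k
  have h5 := psi_gap hs hε hA hA'
  have h6 : m * η ^ 2 ≤ m * R.hs (L - Ls A s ε χ) ^ 2 :=
    mul_le_mul_of_nonneg_left (pow_le_pow_left₀ hη.le hη' 2) (by positivity)
  rw [← Real.exp_nat_mul] at h4
  have h7 := h3.trans (mul_le_mul_of_nonneg_left (mul_le_mul_of_nonneg_left
    (mul_le_mul_of_nonneg_left h4 (Real.exp_pos _).le) (Real.exp_pos _).le) (Real.exp_pos _).le)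
  rw [← Real.exp_add, ← Real.exp_add, ← Real.exp_add, Real.exp_neg, inv_mul_le_iff₀
    (Real.exp_pos _), ← Real.exp_add] at h7
  refine h7.trans (Real.exp_le_exp.2 ?_)
  have hk0 : (0 : ℝ) ≤ k := Nat.cast_nonneg k
  have h8 : α * (psi A s ε (Ls A s ε χ) + qf χ (L - Ls A s ε χ) - psi A s ε L) + C * α ^ 2 +
      2 * δ ≤ 0 := by
    rw [← hm] at h5
    nlinarith [mul_le_mul_of_nonneg_left (h6.trans (by linarith : _ ≤ psi A s ε L -
      psi A s ε (Ls A s ε χ) - qf χ (L - Ls A s ε χ))) h0.le, mul_le_mul_of_nonneg_left h2 h0.le,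
      sq_nonneg α]
  nlinarith [mul_le_mul_of_nonneg_left h8 hk0]

end Crest.Agent.N336.R
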