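import Crest.Agent.N336.R.MatA

/-! # Row 336, replica package: matrix lemmas (helper37; part A is in `R/MatA`) -/

set_option autoImplicit false
set_option linter.unusedSectionVars false

open Matrix Finset MeasureTheory Filter
open scoped ComplexOrder MatrixOrder Matrix.Norms.L2Operator InnerProductSpace Topology

namespace Crest.Agent.N336.R

open Crest.Agent.N336.Q Crest.Agent.N336.Eng Crest.Agent.N336.C
open H37

variable {n : Type} [Fintype n] [DecidableEq n] {A B : Matrix n n ℂ}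

lemma hs_nonneg (A : Matrix n n ℂ) : 0 ≤ hs A := Real.sqrt_nonneg _

lemma H37.re_trace_star_mul_nonneg (A : Matrix n n ℂ) : 0 ≤ (trace (Aᴴ * A)).re :=
  (Complex.le_def.1 (posSemidef_conjTranspose_mul_self A).trace_nonneg).1

lemma H37.hs_sq (A : Matrix n n ℂ) : hs A ^ 2 = (trace (Aᴴ * A)).re :=
  Real.sq_sqrt (re_trace_star_mul_nonneg A)

/-- the vector of entries -/
def H37.vecM (A : Matrix n n ℂ) : Q.Vec (n × n) := WithLp.toLp 2 fun p => A p.1 p.2

lemma H37.hs_eq_norm (A : Matrix n n ℂ) : hs A = ‖vecM A‖ := by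
  rw [EuclideanSpace.norm_eq, hs]
  congr 1
  simp only [trace, Matrix.diag, mul_apply, conjTranspose_apply, Complex.re_sum, vecM,
    Fintype.sum_prod_type]
  rw [Finset.sum_comm]
  refine Finset.sum_congr rfl fun i _ => Finset.sum_congr rfl fun j _ => ?_
  rw [Complex.star_def, Complex.conj_mul', ← Complex.ofReal_pow, Complex.ofReal_re]

lemma norm_le_hs (A : Matrix n n ℂ) : ‖A‖ ≤ hs A := by
  have hP := posSemidef_conjTranspose_mul_self A
  rw [norm_le_iff_star_mul (hs_nonneg A), hs_sq, re_trace_eq hP.1]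
  exact le_of_ev_le hP.1 fun i =>
    Finset.single_le_sum (f := ev (Aᴴ * A)) (fun j _ => ev_nonneg hP j) (mem_univ i)

lemma hs_le_norm (A : Matrix n n ℂ) : hs A ≤ Real.sqrt (Fintype.card n) * ‖A‖ := by
  have hP := posSemidef_conjTranspose_mul_self A
  rw [← sq_le_sq₀ (hs_nonneg A) (by positivity), hs_sq, re_trace_eq hP.1, mul_pow,
    Real.sq_sqrt (by positivity), sq, ← l2_opNorm_conjTranspose_mul_self, ← nsmul_eq_mul,
    ← Finset.card_univ, ← Finset.sum_const]
  exact Finset.sum_le_sum fun i _ => (le_abs_self _).trans (abs_ev_le hP.1 i)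

lemma hs_add_le (A B : Matrix n n ℂ) : hs (A + B) ≤ hs A + hs B := by
  simp only [hs_eq_norm]
  exact norm_add_le (vecM A) (vecM B)

lemma hs_smul (c : ℝ) (A : Matrix n n ℂ) : hs (c • A) = |c| * hs A := by
  simp only [hs_eq_norm]
  exact norm_smul c (vecM A)

lemma H37.hs_csmul (c : ℂ) (A : Matrix n n ℂ) : hs (c • A) = ‖c‖ * hs A := by
  simp only [hs_eq_norm]
  exact norm_smul c (vecM A)

lemma H37.hs_neg (A : Matrix n n ℂ) : hs (-A) = hs A := by simp [hs]

lemma H37.hs_sub_comm (A B : Matrix n n ℂ) : hs (A - B) = hs (B - A) := by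
  rw [← hs_neg, neg_sub]

lemma H37.continuous_hs : Continuous fun A : Matrix n n ℂ => hs A := by
  unfold hs
  fun_prop

/-- two-spectra formula for the Hilbert-Schmidt distance -/
lemma hs_fr_sub_sq (f g : ℝ → ℝ) (A B : Matrix n n ℂ) :
    hs (fr f A - fr g B) ^ 2 = ∑ i, ∑ j, ov A B i j * (f (ev A i) - g (ev B j)) ^ 2 := by
  have h1 : (trace (fr f A * fr f A)).re = ∑ i, ∑ j, ov A B i j * f (ev A i) ^ 2 := by
    rw [← sum_ev_left (fun x => f x ^ 2) A B, ← re_trace_fr (fun x => f x ^ 2), fc_mul]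
    congr 2
    exact fc_congr fun i => by push_cast; ring
  have h2 : (trace (fr g B * fr g B)).re = ∑ i, ∑ j, ov A B i j * g (ev B j) ^ 2 := by
    rw [← sum_ev_right (fun x => g x ^ 2) A B, ← re_trace_fr (fun x => g x ^ 2), fc_mul]
    congr 2
    exact fc_congr fun i => by push_cast; ring
  rw [hs_sq, ((fr_isHermitian f A).sub (fr_isHermitian g B)).eq, Matrix.sub_mul, Matrix.mul_sub,
    Matrix.mul_sub, trace_sub, trace_sub, trace_sub, trace_mul_comm (fr g B) (fr f A)]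
  simp only [Complex.sub_re]
  rw [h1, h2, re_trace_fr_mul_fr]
  simp only [← Finset.sum_sub_distrib]
  exact Finset.sum_congr rfl fun i _ => Finset.sum_congr rfl fun j _ => by ring

lemma H37.hs_sub_sq (hA : A.IsHermitian) (hB : B.IsHermitian) :
    hs (A - B) ^ 2 = ∑ i, ∑ j, ov A B i j * (ev A i - ev B j) ^ 2 := by
  have := hs_fr_sub_sq (fun x => x) (fun x => x) A B
  rwa [fr_id hA, fr_id hB] at this

lemma hs_fr_sub_le (hA : A.IsHermitian) (hB : B.IsHermitian) {f : ℝ → ℝ} {K : ℝ} (hK : 0 ≤ K)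
    (h : ∀ i j, |f (ev A i) - f (ev B j)| ≤ K * |ev A i - ev B j|) :
    hs (fr f A - fr f B) ≤ K * hs (A - B) := by
  rw [← sq_le_sq₀ (hs_nonneg _) (mul_nonneg hK (hs_nonneg _)), hs_fr_sub_sq, mul_pow,
    hs_sub_sq hA hB]
  simp only [Finset.mul_sum]
  refine Finset.sum_le_sum fun i _ => Finset.sum_le_sum fun j _ => ?_
  rw [mul_left_comm]
  refine mul_le_mul_of_nonneg_left ?_ (ov_nonneg A B i j)
  have := pow_le_pow_left₀ (abs_nonneg _) (h i j) 2
  rwa [mul_pow, sq_abs, sq_abs] at this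

/-- continuity of the functional calculus -/
theorem continuous_fr {X : Type*} [TopologicalSpace X] {F : X → Matrix n n ℂ} (hF : Continuous F)
    (hh : ∀ x, (F x).IsHermitian) {f : ℝ → ℝ} {U : Set ℝ} (hU : IsClosed U)
    (hf : ContinuousOn f U) (hs : ∀ x i, ev (F x) i ∈ U) : Continuous fun x => fr f (F x) := by
  have e : (fun x => fr f (F x)) = fun x => cfc f (F x) := funext fun x => fr_eq_cfc f (hh x)
  rw [e]
  refine hF.cfc (s := fun x => U ∩ Set.Icc (-(‖F x‖ + 1)) (‖F x‖ + 1)) f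
    (fun x => isCompact_Icc.inter_left hU) (fun x₀ => ?_) (fun x => hf.mono Set.inter_subset_left)
    fun x => hh x
  have h1 : ∀ᶠ x in 𝓝 x₀, ‖F x‖ < ‖F x₀‖ + 1 :=
    hF.norm.continuousAt.eventually_lt continuousAt_const (lt_add_one _)
  filter_upwards [h1] with x hx
  rw [(hh x).spectrum_real_eq_range_eigenvalues, ← ev_eq (hh x)]
  rintro _ ⟨i, rfl⟩
  exact ⟨hs x i, abs_le.1 ((abs_ev_le (hh x) i).trans hx.le)⟩

lemma continuous_ee {X : Type*} [TopologicalSpace X] {F : X → Matrix n n ℂ} (hF : Continuous F)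
    (hh : ∀ x, (F x).IsHermitian) : Continuous fun x => ee (F x) :=
  continuous_fr hF hh isClosed_univ Real.continuous_exp.continuousOn fun _ _ => Set.mem_univ _

lemma continuous_pj : Continuous fun v : Q.Vec n => pj v := by
  refine continuous_matrix fun i j => ?_
  simp only [kb_apply]
  fun_prop

/-- `tr σ^s ρ^(1-s) ≤ 1` for states, in two-spectra form -/
lemma trace_pw_mul_pw_le (hA : A.PosSemidef) (hB : B.PosSemidef) {s : ℝ} (h0 : 0 ≤ s) (h1 : s ≤ 1) :
    (trace (pw A s * pw B (1 - s))).re ≤ s * (trace A).re + (1 - s) * (trace B).re := by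
  rw [re_trace_fr_mul_fr, re_trace_eq hA.1, re_trace_eq hB.1, sum_ev_left (fun x => x) A B,
    sum_ev_right (fun x => x) A B]
  simp only [Finset.mul_sum, ← Finset.sum_add_distrib]
  refine Finset.sum_le_sum fun i _ => Finset.sum_le_sum fun j _ => ?_
  have h2 := Real.geom_mean_le_arith_mean2_weighted h0 (sub_nonneg.2 h1) (ev_nonneg hA i)
    (ev_nonneg hB j) (by ring)
  nlinarith [mul_le_mul_of_nonneg_left h2 (ov_nonneg A B i j)]

/-- strong convexity of `tr φ` -/
lemma klein_strong (hA : A.IsHermitian) (hB : B.IsHermitian) {φ φ' : ℝ → ℝ} {m : ℝ}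
    (h : ∀ i j, φ (ev B j) + φ' (ev B j) * (ev A i - ev B j) + m * (ev A i - ev B j) ^ 2 ≤
      φ (ev A i)) :
    (trace (fr φ B)).re + (trace (fr φ' B * (A - B))).re + m * hs (A - B) ^ 2 ≤
      (trace (fr φ A)).re := by
  have h1 : (trace (fr φ' B * A)).re = ∑ i, ∑ j, ov A B i j * (ev A i * φ' (ev B j)) := by
    rw [trace_mul_comm, ← re_trace_fr_mul_fr (fun x => x), fr_id hA]
  have h2 : (trace (fr φ' B * B)).re = ∑ i, ∑ j, ov A B i j * (φ' (ev B j) * ev B j) := by
    rw [← sum_ev_right (fun x => φ' x * x) A B, ← re_trace_fr (fun x => φ' x * x)]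
    conv_lhs => arg 1; arg 1; arg 2; rw [← fc_id hB]
    rw [fc_mul]
    congr 2
    exact fc_congr fun i => by push_cast; ring
  rw [Matrix.mul_sub, trace_sub, Complex.sub_re, h1, h2, hs_sub_sq hA hB, re_trace_fr, re_trace_fr,
    sum_ev_left φ A B, sum_ev_right φ A B]
  simp only [Finset.mul_sum, ← Finset.sum_add_distrib, ← Finset.sum_sub_distrib]
  refine Finset.sum_le_sum fun i _ => Finset.sum_le_sum fun j _ => ?_
  nlinarith [mul_le_mul_of_nonneg_left (h i j) (ov_nonneg A B i j)]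

section sys
variable {ι : Type} [Fintype ι] [DecidableEq ι] {d : ι → Type} [∀ x, Fintype (d x)]
  [∀ x, DecidableEq (d x)] [∀ x, Nonempty (d x)]

lemma H37.continuous_E (X : Finset ι) : Continuous fun M : Q.Op d => E X M := by
  refine continuous_matrix fun σ τ => ?_
  simp only [E_apply]
  split_ifs
  · fun_prop
  · exact continuous_const

lemma H37.continuous_mg (X : Finset ι) : Continuous fun M : Q.Op d => mg X M := by
  simp only [mg_eq_E]
  exact (continuous_E (d := d) X).const_smul (dim d Xᶜ : ℂ)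

lemma continuous_rq (X : Finset ι) (ε : ℝ) : Continuous fun χ : Q.Vec (Cfg d) => rq χ X ε :=
  ((continuous_mg X).comp continuous_pj).add continuous_const

lemma H37.le_ev_rq (X : Finset ι) (ε : ℝ) (χ : Q.Vec (Cfg d)) (i : Cfg d) : ε ≤ ev (rq χ X ε) i := by
  have h1 : ε • (1 : Q.Op d) ≤ rq χ X ε := by
    rw [Matrix.le_iff, rq, add_sub_cancel_right]; exact mg_posSemidef X (pj_posSemidef χ)
  have h2 : qf (evec (rq χ X ε) i) (ε • 1) ≤ qf (evec (rq χ X ε) i) (rq χ X ε) :=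
    re_inner_ap_mono h1 _
  rw [qf_rsmul, qf_one, norm_evec, one_pow, mul_one] at h2
  rwa [ev_eq_re_inner (rq_isHermitian χ X ε)]

lemma continuous_pw_rq (X : Finset ι) {ε : ℝ} (hε : 0 < ε) (s : ℝ) :
    Continuous fun χ : Q.Vec (Cfg d) => pw (rq χ X ε) s :=
  continuous_fr (continuous_rq X ε) (fun χ => rq_isHermitian χ X ε) (U := Set.Ici ε) isClosed_Ici
    (continuousOn_id.rpow_const fun _ hx => Or.inl (hε.trans_le hx).ne') (le_ev_rq X ε)

lemma H37.continuous_lg_rq (X : Finset ι) {ε : ℝ} (hε : 0 < ε) :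
    Continuous fun χ : Q.Vec (Cfg d) => lg (rq χ X ε) :=
  continuous_fr (continuous_rq X ε) (fun χ => rq_isHermitian χ X ε) (U := Set.Ici ε) isClosed_Ici
    (Real.continuousOn_log.mono fun _ hx => (hε.trans_le hx).ne') (le_ev_rq X ε)

lemma continuous_Ls (X : Finset ι) {ε : ℝ} (hε : 0 < ε) (s : ℝ) :
    Continuous fun χ : Q.Vec (Cfg d) => Ls X s ε χ := (continuous_lg_rq X hε).const_smul s

lemma ee_Ls (X : Finset ι) {ε : ℝ} (hε : 0 < ε) (s : ℝ) (χ : Q.Vec (Cfg d)) :
    ee (Ls X s ε χ) = pw (rq χ X ε) s := ee_smul_lg (rq_posDef χ X hε) s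

lemma hs_E_le (X : Finset ι) (M : Q.Op d) : hs (E X M) ≤ hs M := by
  have h1 : trace ((E X M)ᴴ * M) = trace ((E X M)ᴴ * E X M) :=
    ((supp_E X M).conjTranspose.trace_mul_E M).symm
  have h2 : trace (Mᴴ * E X M) = trace ((E X M)ᴴ * E X M) := by
    rw [← h1, ← E_conjTranspose, trace_E_mul]
  have h3 := re_trace_star_mul_nonneg (M - E X M)
  rw [conjTranspose_sub, Matrix.sub_mul, Matrix.mul_sub, Matrix.mul_sub, trace_sub, trace_sub,
    trace_sub, h1, h2, sub_self, sub_zero, Complex.sub_re, sub_nonneg] at h3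
  exact Real.sqrt_le_sqrt h3

/-- the key one-particle bound `|⟨χ, σ^s r^{-s} χ⟩| ≤ 1` -/
lemma key_le (X : Finset ι) {ω : Q.Op d} (hω : ω.PosDef) (htr : ω.trace = 1) {χ : Q.Vec (Cfg d)}
    (hχ : ‖χ‖ = 1) {s ε : ℝ} (h0 : 0 ≤ s) (h1 : s ≤ 1) (hε : 0 < ε) :
    ‖⟪χ, ap (pw (mg X ω) s * pw (rq χ X ε) (-s)) χ⟫_ℂ‖ ≤ 1 := by
  have hσ := mg_posSemidef X hω.posSemidef
  have hρ := mg_posSemidef X (pj_posSemidef χ)
  have hP : (pw (mg X ω) s).PosSemidef :=
    fr_posSemidef fun i => Real.rpow_nonneg (ev_nonneg hσ i) s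
  have e : pw (rq χ X ε) (-s) * mg X (pj χ) = fr (fun x => (x + ε) ^ (-s) * x) (mg X (pj χ)) := by
    rw [pw, fr, fc_rq]
    conv_lhs => arg 2; rw [← fc_id hρ.1]
    rw [fc_mul]
    exact fc_congr fun i => by push_cast; rfl
  have hN : (fr (fun x => (x + ε) ^ (-s) * x) (mg X (pj χ))).PosSemidef :=
    fr_posSemidef fun i => mul_nonneg
      (Real.rpow_nonneg (add_nonneg (ev_nonneg hρ i) hε.le) _) (ev_nonneg hρ i)
  have hle : fr (fun x => (x + ε) ^ (-s) * x) (mg X (pj χ)) ≤ pw (mg X (pj χ)) (1 - s) :=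
    fr_le_fr fun i => by
      rcases (ev_nonneg hρ i).eq_or_lt with h | h
      · rw [← h, mul_zero]; exact Real.rpow_nonneg le_rfl _
      · rw [sub_eq_neg_add, Real.rpow_add_one h.ne']
        exact mul_le_mul_of_nonneg_right
          (Real.rpow_le_rpow_of_nonpos h (by linarith) (by linarith)) h.le
  have h2 := re_trace_mul_mono hle hP
  have h3 := trace_pw_mul_pw_le hσ hρ h0 h1
  rw [trace_mg, trace_mg, htr, trace_pj, hχ] at h3
  have h4 := trace_mul_nonneg hP hN
  rw [inner_eq_trace_mg ((supp_pw (supp_mg X ω) hσ.1 s).mul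
    (supp_pw (supp_rq χ X ε) (rq_isHermitian χ X ε) _)), Matrix.mul_assoc, e, norm_div,
    Complex.norm_natCast, div_le_one (dim_pos_real _), ← Complex.re_eq_norm.2 h4,
    trace_mul_comm]
  refine h2.trans ?_
  rw [trace_mul_comm]
  refine h3.trans (le_of_eq ?_)
  simp
  ring

lemma H37.ev_rq_le (X : Finset ι) (ε : ℝ) {χ : Q.Vec (Cfg d)} (hχ : ‖χ‖ = 1) (i : Cfg d) :
    ev (rq χ X ε) i ≤ dim d univ + ε := by
  have hρ := mg_posSemidef X (pj_posSemidef χ)
  refine ev_le_of_le (rq_isHermitian χ X ε) ?_ i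
  rw [add_smul, rq]
  refine add_le_add (le_of_ev_le hρ.1 fun j => ?_) le_rfl
  have h1 := Finset.single_le_sum (f := ev (mg X (pj χ))) (fun j _ => ev_nonneg hρ j) (mem_univ j)
  rw [← re_trace_eq hρ.1, trace_mg, trace_pj, hχ] at h1
  refine h1.trans ?_
  have h2 : dim d Xᶜ ≤ dim d univ := by
    rw [← dim_mul_compl X]; exact Nat.le_mul_of_pos_left _ (dim_pos X)
  simpa using h2

/-- uniform second order expansion of the moments of `r = ρ + ε` -/
lemma qf_pw_rq_le {ε : ℝ} (hε : 0 < ε) (hε1 : ε ≤ 1) : ∃ C : ℝ, 0 ≤ C ∧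
    ∀ (X : Finset ι) (χ : Q.Vec (Cfg d)) (γ : ℝ), ‖χ‖ = 1 → |γ| ≤ 1 →
      qf χ (pw (rq χ X ε) γ) ≤ Real.exp (γ * qf χ (lg (rq χ X ε)) + C * γ ^ 2) := by
  set L : ℝ := dim d univ + ε⁻¹ with hL
  have hD : (0 : ℝ) ≤ dim d univ := Nat.cast_nonneg _
  have hi : 0 < ε⁻¹ := inv_pos.2 hε
  refine ⟨L ^ 2 * Real.exp L, by positivity, fun X χ γ hχ hγ => ?_⟩
  have key := qf_fr_le_lin (A := rq χ X ε) (g := fun x => x ^ γ) (k₁ := Real.log)
    (k₂ := Real.log) (k₃ := Real.log) (a := 1 + L ^ 2 * Real.exp L * γ ^ 2) (b₁ := γ) (b₂ := 0)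
    (b₃ := 0) hχ fun i => by
      have h1 := le_ev_rq X ε χ i
      have h2 := ev_rq_le X ε hχ i
      generalize ev (rq χ X ε) i = x at h1 h2 ⊢
      have hx : 0 < x := hε.trans_le h1
      have h3 : |Real.log x| ≤ L := by
        have h4 := Real.log_le_sub_one_of_pos hx
        have h5 := Real.log_le_sub_one_of_pos (inv_pos.2 hx)
        have h6 : x⁻¹ ≤ ε⁻¹ := inv_anti₀ hε h1
        rw [Real.log_inv] at h5
        rw [abs_le]; constructor <;> linarith
      have h7 := Mom.exp_le_quad (γ * Real.log x)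
      have h8 : |γ * Real.log x| ≤ L := by
        rw [abs_mul]
        exact (mul_le_of_le_one_left (abs_nonneg _) hγ).trans h3
      have h9 : (γ * Real.log x) ^ 2 * Real.exp |γ * Real.log x| ≤
          (γ ^ 2 * L ^ 2) * Real.exp L := by
        rw [mul_pow, ← sq_abs (Real.log x)]
        gcongr
      rw [Real.rpow_def_of_pos hx, mul_comm (Real.log x)]
      linarith
  have h1 := Real.add_one_le_exp (γ * qf χ (lg (rq χ X ε)) + L ^ 2 * Real.exp L * γ ^ 2)
  simp only [pw, lg] at h1 ⊢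
  linarith
end sys

end Crest.Agent.N336.R
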