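import Crest.Agent.N336.R.Defs
import Crest.Agent.N336.Eng.Pure

/-! # Row 336, replica package: matrix lemmas, part A (exponentials, Jensen, order) (helper37) -/

set_option autoImplicit false
set_option linter.unusedSectionVars false

open Matrix Finset MeasureTheory Filter
open scoped ComplexOrder MatrixOrder Matrix.Norms.L2Operator InnerProductSpace Topology

namespace Crest.Agent.N336.R

open Crest.Agent.N336.Q Crest.Agent.N336.Eng Crest.Agent.N336.C

-- auxiliary lemmas live in the namespace `H37`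
namespace H37
end H37

open H37

variable {n : Type} [Fintype n] [DecidableEq n] {A B : Matrix n n ℂ}

lemma H37.fc_rsmul_arg (f : ℝ → ℂ) (c : ℝ) (hA : A.IsHermitian) :
    fc f (c • A) = fc (fun x => f (c * x)) A := by
  rw [← Complex.coe_smul, fc_smul_arg f c hA]

lemma H37.rsmul_fc (c : ℝ) (f : ℝ → ℂ) (A : Matrix n n ℂ) :
    c • fc f A = fc (fun x => c * f x) A := by
  rw [← Complex.coe_smul, fc_smul]

lemma H37.fr_const (c : ℝ) (A : Matrix n n ℂ) : fr (fun _ => c) A = c • (1 : Matrix n n ℂ) := by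
  rw [fr, fc_const, Complex.coe_smul]

lemma H37.qf_rsmul (c : ℝ) (M : Matrix n n ℂ) (v : Q.Vec n) : qf v (c • M) = c * qf v M := by
  rw [← Complex.coe_smul, qf_smul]

lemma H37.isHermitian_rsmul (c : ℝ) (hA : A.IsHermitian) : (c • A).IsHermitian := by
  unfold Matrix.IsHermitian; rw [conjTranspose_smul, hA.eq, star_trivial]

lemma H37.ev_le_of_le (hA : A.IsHermitian) {c : ℝ} (h : A ≤ c • (1 : Matrix n n ℂ)) (i : n) :
    ev A i ≤ c := by
  have h1 : qf (evec A i) A ≤ qf (evec A i) (c • 1) := re_inner_ap_mono h _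
  rw [qf_rsmul, qf_one, norm_evec, one_pow, mul_one] at h1
  rwa [ev_eq_re_inner hA]

lemma H37.le_of_ev_le (hA : A.IsHermitian) {c : ℝ} (h : ∀ i, ev A i ≤ c) :
    A ≤ c • (1 : Matrix n n ℂ) := by
  have := fr_le_fr (g := fun x => x) (k := fun _ => c) (A := A) h
  rwa [fr_id hA, fr_const] at this

export H37 (qf_rsmul le_of_ev_le)

lemma ee_posDef (A : Matrix n n ℂ) : (ee A).PosDef := fr_posDef fun _ => Real.exp_pos _

lemma ee_zero : ee (0 : Matrix n n ℂ) = 1 := by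
  have := fc_diagonal (fun x => (Real.exp x : ℂ)) (fun _ : n => 0)
  simpa [ee, fr] using this

lemma ee_add (hA : A.IsHermitian) (hB : B.IsHermitian) (h : Commute A B) :
    ee (A + B) = ee A * ee B :=
  ext_two hA hB h fun i j V h1 h2 => by
    rw [fc_mul_of_eig _ (hA.add hB) (c := ev A i + ev B j)
      (by rw [Matrix.add_mul, h1, h2, ← add_smul]; norm_cast),
      Matrix.mul_assoc, fc_mul_of_eig _ hB h2, Matrix.mul_smul, fc_mul_of_eig _ hA h1, smul_smul,
      Real.exp_add, Complex.ofReal_mul, mul_comm]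

lemma ee_mul_ee_neg (hA : A.IsHermitian) : ee A * ee (-A) = 1 := by
  rw [← ee_add hA hA.neg (Commute.refl A).neg_right, add_neg_cancel, ee_zero]

lemma ee_neg_mul_ee (hA : A.IsHermitian) : ee (-A) * ee A = 1 := by
  rw [← ee_add hA.neg hA (Commute.refl A).neg_left, neg_add_cancel, ee_zero]

lemma ee_neg (hA : A.IsHermitian) : ee (-A) = (ee A)⁻¹ :=
  (Matrix.inv_eq_left_inv (ee_neg_mul_ee hA)).symm

lemma ee_lg (hA : A.PosDef) : ee (lg A) = A := by
  rw [ee, fr, fc_fr]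
  conv_rhs => rw [← fc_id hA.1]
  exact fc_congr fun i => by rw [Real.exp_log (ev_pos hA i)]

lemma lg_ee (hA : A.IsHermitian) : lg (ee A) = A := by
  rw [lg, fr, fc_fr]
  conv_rhs => rw [← fc_id hA]
  exact fc_congr fun i => by rw [Real.log_exp]

lemma pw_ee (hA : A.IsHermitian) (s : ℝ) : pw (ee A) s = ee (s • A) := by
  rw [pw, fr, fc_fr, ee, fr, fc_rsmul_arg _ _ hA]
  exact fc_congr fun i => by rw [← Real.exp_mul, mul_comm]

lemma ee_smul_lg (hA : A.PosDef) (s : ℝ) : ee (s • lg A) = pw A s := by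
  rw [← pw_ee (fr_isHermitian _ _), ee_lg hA]

lemma ee_add_smul_one (hA : A.IsHermitian) (c : ℝ) :
    ee (A + c • (1 : Matrix n n ℂ)) = Real.exp c • ee A := by
  rw [ee, fr, fc_add_smul_one hA, rsmul_fc]
  exact fc_congr fun i => by rw [Real.exp_add, mul_comm, Complex.ofReal_mul]

lemma lg_smul (hA : A.PosDef) {c : ℝ} (hc : 0 < c) :
    lg (c • A) = lg A + Real.log c • (1 : Matrix n n ℂ) := by
  rw [lg, fr, fc_rsmul_arg _ _ hA.1, ← fr_const _ A, fc_add]
  exact fc_congr fun i => by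
    rw [Real.log_mul hc.ne' (ev_pos hA i).ne', add_comm, Complex.ofReal_add]

lemma pw_smul (hA : A.PosDef) {c : ℝ} (hc : 0 < c) (s : ℝ) : pw (c • A) s = c ^ s • pw A s := by
  rw [pw, fr, fc_rsmul_arg _ _ hA.1, rsmul_fc]
  exact fc_congr fun i => by rw [Real.mul_rpow hc.le (ev_pos hA i).le, Complex.ofReal_mul]

lemma ee_le_of_le (hA : A.IsHermitian) {c : ℝ} (h : A ≤ c • (1 : Matrix n n ℂ)) :
    ee A ≤ Real.exp c • (1 : Matrix n n ℂ) := by
  rw [← fr_const _ A]
  exact fr_le_fr fun i => Real.exp_le_exp.2 (ev_le_of_le hA h i)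

lemma H37.qf_fr_affine (hA : A.IsHermitian) {v : Q.Vec n} (hv : ‖v‖ = 1) (a b : ℝ) :
    qf v (fr (fun x => a + b * x) A) = a + b * qf v A := by
  have h1 := sum_sq_inner_evec A v
  rw [hv, one_pow] at h1
  rw [qf_fr, qf_self hA, Finset.mul_sum]
  conv_rhs => rw [← mul_one a, ← h1, Finset.mul_sum]
  rw [← Finset.sum_add_distrib]
  exact Finset.sum_congr rfl fun i _ => by ring

/-- Jensen for the exponential -/
lemma exp_qf_le (hA : A.IsHermitian) {v : Q.Vec n} (hv : ‖v‖ = 1) :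
    Real.exp (qf v A) ≤ qf v (ee A) := by
  set m := qf v A with hm
  have h1 := qf_fr_le (A := A) (g := fun x => Real.exp m * (1 - m) + Real.exp m * x)
    (k := Real.exp) (fun i => by
      have h2 := Real.add_one_le_exp (ev A i - m)
      have h3 : Real.exp (ev A i) = Real.exp m * Real.exp (ev A i - m) := by
        rw [← Real.exp_add]; congr 1; ring
      rw [h3]
      nlinarith [Real.exp_pos m]) v
  rw [qf_fr_affine hA hv, ← hm] at h1
  linarith

/-- Jensen for the logarithm -/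
lemma qf_lg_le (hA : A.PosDef) {v : Q.Vec n} (hv : ‖v‖ = 1) :
    qf v (lg A) ≤ Real.log (qf v A) := by
  have h1 := exp_qf_le (fr_isHermitian Real.log A) hv
  rw [ee_lg hA] at h1
  exact (Real.le_log_iff_exp_le ((Real.exp_pos _).trans_le h1)).2 h1

/-- Jensen for powers -/
lemma qf_pw_le (hA : A.PosSemidef) {v : Q.Vec n} (hv : ‖v‖ = 1) {s : ℝ} (h0 : 0 ≤ s) (h1 : s ≤ 1) :
    qf v (pw A s) ≤ qf v A ^ s := by
  have h2 := sum_sq_inner_evec A v
  rw [hv, one_pow] at h2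
  have h3 := (Real.concaveOn_rpow h0 h1).le_map_sum (t := univ)
    (w := fun i => ‖⟪evec A i, v⟫_ℂ‖ ^ 2) (p := fun i => ev A i) (fun i _ => sq_nonneg _) h2
    fun i _ => ev_nonneg hA i
  rw [qf_fr, qf_self hA.1]
  simpa only [smul_eq_mul, mul_comm] using h3

lemma sq_le_sq_comm (hA : A.PosSemidef) (h : A ≤ B) (hc : Commute A B) : A * A ≤ B * B := by
  have hB : B.PosSemidef := (hA.nonneg.trans h).posSemidef
  calc A * A ≤ B * A := mul_le_mul_comm h hA (Commute.refl A) hc.symm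
    _ = A * B := hc.eq.symm
    _ ≤ B * B := mul_le_mul_comm h hB hc (Commute.refl B)

lemma le_norm_smul_one (hA : A.IsHermitian) : A ≤ ‖A‖ • (1 : Matrix n n ℂ) :=
  le_of_ev_le hA fun i => (le_abs_self _).trans (abs_ev_le hA i)

lemma H37.smul_one_mono {a b : ℝ} (h : a ≤ b) : a • (1 : Matrix n n ℂ) ≤ b • (1 : Matrix n n ℂ) := by
  rw [Matrix.le_iff, ← sub_smul]; exact PosSemidef.one.smul (sub_nonneg.2 h)

lemma H37.norm_le_of_ev (hA : A.IsHermitian) {c : ℝ} (hc : 0 ≤ c) (h : ∀ i, |ev A i| ≤ c) :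
    ‖A‖ ≤ c := by
  have := norm_fc_le (f := fun x => (x : ℂ)) (A := A) hc fun i => by
    rw [Complex.norm_real]; exact h i
  rwa [fc_id hA] at this

lemma le_smul_one_iff (hA : A.PosSemidef) {c : ℝ} (hc : 0 ≤ c) :
    A ≤ c • (1 : Matrix n n ℂ) ↔ ‖A‖ ≤ c :=
  ⟨fun h => norm_le_of_ev hA.1 hc fun i => by
      rw [abs_of_nonneg (ev_nonneg hA i)]; exact ev_le_of_le hA.1 h i,
    fun h => (le_norm_smul_one hA.1).trans (smul_one_mono h)⟩

lemma H37.norm_le_iff_star_mul {C : Matrix n n ℂ} {c : ℝ} (hc : 0 ≤ c) :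
    ‖C‖ ≤ c ↔ Cᴴ * C ≤ c ^ 2 • (1 : Matrix n n ℂ) := by
  rw [le_smul_one_iff (posSemidef_conjTranspose_mul_self C) (sq_nonneg c),
    l2_opNorm_conjTranspose_mul_self, ← sq, sq_le_sq₀ (norm_nonneg _) hc]

/-- `‖A B⁻¹‖ ≤ c` gives `A² ≤ c² B²` -/
lemma sq_le_of_norm (hA : A.IsHermitian) (hB : B.PosDef) {c : ℝ} (h : ‖A * B⁻¹‖ ≤ c) :
    A * A ≤ c ^ 2 • (B * B) := by
  have hu := (isUnit_iff_isUnit_det _).1 hB.isUnit
  have h1 := conj_mono ((norm_le_iff_star_mul ((norm_nonneg _).trans h)).1 h) B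
  rw [Matrix.mul_assoc, Matrix.mul_assoc, Matrix.mul_assoc A, Matrix.nonsing_inv_mul _ hu,
    Matrix.mul_one, ← Matrix.mul_assoc, ← conjTranspose_mul, Matrix.mul_assoc,
    Matrix.nonsing_inv_mul _ hu, Matrix.mul_one, hA.eq, hB.1.eq, Matrix.mul_smul, Matrix.mul_one,
    Matrix.smul_mul] at h1
  exact h1

lemma norm_le_of_sq_le (hA : A.IsHermitian) (hB : B.PosDef) {c : ℝ} (hc : 0 ≤ c)
    (h : A * A ≤ c ^ 2 • (B * B)) : ‖A * B⁻¹‖ ≤ c := by
  have hu := (isUnit_iff_isUnit_det _).1 hB.isUnit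
  have h1 := conj_mono h B⁻¹
  rw [norm_le_iff_star_mul hc, conjTranspose_mul, hA.eq]
  rw [Matrix.mul_smul, Matrix.smul_mul, hB.inv.1.eq, ← Matrix.mul_assoc B⁻¹ B,
    Matrix.nonsing_inv_mul _ hu, Matrix.one_mul, Matrix.mul_nonsing_inv _ hu] at h1
  rw [hB.inv.1.eq]
  simpa only [Matrix.mul_assoc] using h1

end Crest.Agent.N336.R
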