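import Crest.Agent.N336.R.Met1

/-! # Row 336, replica package: the metrics -/

set_option autoImplicit false
set_option linter.unusedSectionVars false

open Matrix Finset MeasureTheory Filter
open scoped ComplexOrder MatrixOrder Matrix.Norms.L2Operator InnerProductSpace Topology

namespace Crest.Agent.N336.R

open Crest.Agent.N336.Q Crest.Agent.N336.Eng Crest.Agent.N336.C

variable {ι : Type} [Fintype ι] [DecidableEq ι] {d : ι → Type} [∀ x, Fintype (d x)]
  [∀ x, DecidableEq (d x)] [∀ x, Nonempty (d x)]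

variable {k : ℕ} {A A' Z : Finset ι} {s ε M : ℝ}

lemma Mt.one_le_dim (X : Finset ι) : (1 : ℝ) ≤ dim d X := by exact_mod_cast dim_pos X

lemma Mt.le_ee {L : Q.Op d} (hL : Adm A M L) : Real.exp (-M) • (1 : Q.Op d) ≤ ee L := by
  rw [← Complex.coe_smul, ← fc_const _ L]
  exact fr_le_fr (g := fun _ => Real.exp (-M)) fun i => Real.exp_le_exp.2
    (neg_le_of_abs_le ((abs_ev_le hL.1 i).trans ((norm_le_hs L).trans hL.2.2)))

lemma Mt.abs_trace_le {L : Q.Op d} (hL : Adm A M L) : |(trace L).re| ≤ M * dim d univ := by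
  refine (Mt.abs_re_trace_le hL.1).trans ?_
  rw [card_cfg, mul_comm]
  exact mul_le_mul_of_nonneg_right hL.2.2 (Nat.cast_nonneg _)

lemma Mt.adm_zero (A : Finset ι) (hM : 0 ≤ M) : Adm A M (0 : Q.Op d) :=
  ⟨isHermitian_zero, Supp.zero' A, by simpa [hs] using hM⟩

/-- lower bound with a constant independent of `k` -/
theorem Mt.exists_le_Wm (A : Finset ι) (s ε : ℝ) (hM : 0 < M) {δ : ℝ} (hδ : 0 < δ) :
    ∃ c : ℝ, 0 < c ∧ ∀ (k : ℕ) (L : Q.Op d), Adm A M L →
      (c * Real.exp (-(2 * δ * k)) * wt k A s ε L) • tp k (ee L) ≤ Wm d k A s ε M := by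
  have hK := isCompact_closedBall (0 : Q.Vec (Cfg d × Cfg d)) M
  have h0 : 0 < 1 - Real.exp (-δ) := sub_pos.2 (Real.exp_lt_one_iff.2 (neg_neg_of_pos hδ))
  obtain ⟨η₁, hη₁, H₁⟩ := Metric.uniformContinuousOn_iff.1 (hK.uniformContinuousOn_of_continuous
    (Mt.continuous_ee_LQ A).continuousOn) _ (mul_pos h0 (Real.exp_pos (-M)))
  obtain ⟨η₂, hη₂, H₂⟩ := Metric.uniformContinuousOn_iff.1 (hK.uniformContinuousOn_of_continuous
    (Mt.continuous_psi A s ε).continuousOn) _ hδ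
  obtain ⟨η, hη, h1, h2, h3⟩ : ∃ η : ℝ, 0 < η ∧ η ≤ M ∧ 2 * η < η₁ ∧ 2 * η < η₂ :=
    ⟨min M (min η₁ η₂ / 3), by positivity, min_le_left _ _,
      by linarith [min_le_right M (min η₁ η₂ / 3), min_le_left η₁ η₂],
      by linarith [min_le_right M (min η₁ η₂ / 3), min_le_right η₁ η₂]⟩
  refine ⟨(Measure.addHaar : Measure (Q.Vec (Cfg d × Cfg d))).real (Metric.closedBall 0 η),
    ENNReal.toReal_pos (Metric.measure_closedBall_pos _ _ hη).ne' measure_closedBall_lt_top.ne,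
    fun k L hL => ?_⟩
  have hn : ‖Mt.vc L‖ ≤ M := (Mt.norm_vc L).trans_le hL.2.2
  have hq : 0 ≤ η / M := by positivity
  have hq1 : η / M ≤ 1 := (div_le_one hM).2 h1
  have hqM : η / M * M = η := div_mul_cancel₀ _ hM.ne'
  obtain ⟨N, hN⟩ : ∃ N, N = Metric.closedBall ((1 - η / M) • Mt.vc L) η := ⟨_, rfl⟩
  have hNm : MeasurableSet N := hN ▸ Metric.isClosed_closedBall.measurableSet
  have hsub : N ⊆ Metric.closedBall 0 M := hN ▸ Metric.closedBall_subset_closedBall' (by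
    rw [dist_zero_right, norm_smul, Real.norm_of_nonneg (by linarith)]
    nlinarith [mul_le_mul_of_nonneg_left hn (sub_nonneg.2 hq1)])
  have hd : ∀ G ∈ N, dist (Mt.vc L) G ≤ 2 * η := fun G hG => by
    have h4 := dist_triangle_right (Mt.vc L) G ((1 - η / M) • Mt.vc L)
    rw [dist_eq_norm (Mt.vc L) (_ • _), show Mt.vc L - (1 - η / M) • Mt.vc L = (η / M) • Mt.vc L by module,
      norm_smul, Real.norm_of_nonneg hq] at h4
    have h5 : dist G ((1 - η / M) • Mt.vc L) ≤ η := by rw [hN] at hG; exact hG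
    nlinarith [mul_le_mul_of_nonneg_left hn hq]
  have hv : (Measure.addHaar : Measure (Q.Vec (Cfg d × Cfg d))).real (Metric.closedBall 0 η) =
      (nu (Cfg d) M).real N := by
    rw [nu, measureReal_restrict_apply hNm, Set.inter_eq_left.2 hsub, hN, Measure.real,
      Measure.real, Measure.addHaar_closedBall_center _ (_ • _)]
  rw [hv, mul_assoc, mul_smul, ← integral_indicator_const _ hNm, Mt.Wm_eq]
  refine integral_mono_mat ((integrable_const _).indicator hNm) (Mt.integrable_Wm k A s ε M)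
    (Eventually.of_forall fun G => ?_)
  have hp := (tp_posSemidef k (ee_posDef (LQ A G)).posSemidef).smul (wt_pos k A s ε (LQ A G)).le
  by_cases hG : G ∈ N
  swap
  · rw [Set.indicator_of_notMem hG]; exact nonneg_iff_posSemidef.2 hp
  rw [Set.indicator_of_mem hG]
  have h4 := H₁ _ (mem_closedBall_zero_iff.2 hn) _ (hsub hG) ((hd G hG).trans_lt h2)
  have h5 := H₂ _ (mem_closedBall_zero_iff.2 hn) _ (hsub hG) ((hd G hG).trans_lt h3)
  rw [Mt.LQ_vc hL.1 hL.2.1] at h4 h5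
  have h6 : Real.exp (-δ) • ee L ≤ ee (LQ A G) := by
    have h7 := (le_norm_smul_one ((fr_isHermitian _ L).sub (fr_isHermitian _ (LQ A G)))).trans
      (Mt.rsmul_le_rsmul PosSemidef.one ((dist_eq_norm _ _).symm.trans_le h4.le))
    rw [mul_smul] at h7
    have h8 := h7.trans (Mt.rsmul_mono h0.le (Mt.le_ee hL))
    rw [sub_smul, one_smul] at h8
    exact (sub_le_sub_iff_left _).1 h8
  have h7 := tp_mono k ((ee_posDef L).posSemidef.smul (Real.exp_pos _).le) h6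
  rw [tp_rsmul] at h7
  refine le_trans ?_ (Mt.rsmul_mono (wt_pos k A s ε _).le h7)
  rw [smul_smul]
  refine Mt.rsmul_le_rsmul (tp_posSemidef k (ee_posDef L).posSemidef) ?_
  rw [wt, wt, ← Real.exp_nat_mul, ← Real.exp_add, ← Real.exp_add]
  have h8 := neg_lt_of_abs_lt ((Real.dist_eq _ _).symm.trans_lt h5)
  exact Real.exp_le_exp.2 (by nlinarith [mul_le_mul_of_nonneg_left h8.le (Nat.cast_nonneg k)])

theorem Wm_posDef (k : ℕ) (A : Finset ι) (s ε : ℝ) (hM : 0 < M) : (Wm d k A s ε M).PosDef := by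
  obtain ⟨c, hc, H⟩ := Mt.exists_le_Wm (d := d) A s ε hM one_pos
  exact posDef_of_le ((tp_posDef k (ee_posDef 0)).smul
    (mul_pos (mul_pos hc (Real.exp_pos _)) (wt_pos _ _ _ _ _))) (H k 0 (Mt.adm_zero A hM.le))

lemma Mt.ev_le_exp {δ : ℝ} (hδ : 0 < δ) (c : ℝ) : ∀ᶠ k : ℕ in atTop, c ≤ Real.exp (δ * k) :=
  (Real.tendsto_exp_atTop.comp (tendsto_natCast_atTop_atTop.const_mul_atTop hδ)).eventually_ge_atTop c

/-- lower bound by every admissible tensor power -/
theorem le_Wm (A : Finset ι) (_hs : 0 < s) (ε : ℝ) (hM : 0 < M) {δ : ℝ} (hδ : 0 < δ) :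
    ∀ᶠ k : ℕ in atTop, ∀ L : Q.Op d, Adm A M L →
      (Real.exp (-(δ * k)) * wt k A s ε L) • tp k (ee L) ≤ Wm d k A s ε M := by
  obtain ⟨c, hc, H⟩ := Mt.exists_le_Wm (d := d) A s ε hM (δ := δ / 3) (by positivity)
  filter_upwards [Mt.ev_le_exp (δ := δ / 3) (by positivity) c⁻¹] with k hk L hL
  refine le_trans (Mt.rsmul_le_rsmul (tp_posSemidef k (ee_posDef L).posSemidef)
    (mul_le_mul_of_nonneg_right ?_ (wt_pos _ _ _ _ _).le)) (H k L hL)
  rw [← inv_mul_le_iff₀ hc]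
  refine (mul_le_mul_of_nonneg_right hk (Real.exp_pos _).le).trans_eq ?_
  rw [← Real.exp_add]; congr 1; ring

/-- every admissible exponential is a multiple of a power of a state -/
theorem exists_state (hs : 0 < s) (hε : 0 ≤ ε) {L : Q.Op d} (hL : Adm A M L) :
    ∃ (ω : Q.Op d) (t : ℝ), ω.PosDef ∧ ω.trace = 1 ∧ 0 < t ∧ ee L = t • pw (mg A ω) s ∧
      ∀ k : ℕ, wt k A s ε L * t ^ k ≤ Real.exp (k * (ε * M * dim d univ)) := by
  have hH := Mt.isHermitian_rsmul hL.1 s⁻¹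
  have hτ := ee_posDef (s⁻¹ • L)
  have hS : Supp A (ee (s⁻¹ • L)) := (hL.2.1.smul (s⁻¹ : ℝ)).fc _ hH
  obtain ⟨T, hT⟩ : ∃ T, T = (trace (ee (s⁻¹ • L))).re := ⟨_, rfl⟩
  have hT0 : 0 < T := by
    rw [hT, re_trace_fr]
    exact Finset.sum_pos (fun _ _ => Real.exp_pos _) Finset.univ_nonempty
  have hTe : trace (ee (s⁻¹ • L)) = (T : ℂ) := by
    rw [hT, trace_eq_sum_ev hτ.1, Complex.ofReal_re]
  have hD := Mt.one_le_dim (d := d) Aᶜ
  have ht : 0 < T / dim d Aᶜ := by positivity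
  refine ⟨T⁻¹ • ee (s⁻¹ • L), (T / dim d Aᶜ) ^ s, hτ.smul (inv_pos.2 hT0), ?_,
    Real.rpow_pos_of_pos ht s, ?_, fun k => ?_⟩
  · rw [trace_smul, hTe, Complex.real_smul, ← Complex.ofReal_mul, inv_mul_cancel₀ hT0.ne']
    rfl
  · have e : mg A (T⁻¹ • ee (s⁻¹ • L)) = (T / dim d Aᶜ)⁻¹ • ee (s⁻¹ • L) := by
      rw [← Complex.coe_smul, mg_smul, hS.mg_eq, smul_smul, ← Complex.coe_smul (_ / _)⁻¹]
      congr 1; push_cast; rw [inv_div, div_eq_inv_mul]
    rw [e, pw_smul hτ (inv_pos.2 ht), pw_ee hH, smul_smul, smul_smul, ← Real.mul_rpow ht.le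
      (inv_pos.2 ht).le, mul_inv_cancel₀ ht.ne', mul_inv_cancel₀ hs.ne', Real.one_rpow, one_smul,
      one_smul]
  · rw [wt, Real.rpow_def_of_pos ht, ← Real.exp_nat_mul, ← Real.exp_add, ← mul_add]
    refine Real.exp_le_exp.2 (mul_le_mul_of_nonneg_left ?_ (Nat.cast_nonneg k))
    have h1 := mul_le_mul_of_nonneg_right (Real.log_le_sub_one_of_pos ht) hs.le
    have h2 : (trace L).re / dim d Aᶜ ≤ M * dim d univ :=
      (div_le_div_of_nonneg_right (le_abs_self _) (by linarith)).trans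
        ((div_le_self (abs_nonneg _) hD).trans (Mt.abs_trace_le hL))
    have h3 := mul_le_mul_of_nonneg_left h2 hε
    rw [psi, ← hT, sub_div, mul_div_assoc, mul_div_assoc]
    linarith

lemma Mt.nonneg_of_states {F : Type} [NormedAddCommGroup F] {Φ : Q.Op d → F} {m : ℝ}
    (h : ∀ ω : Q.Op d, ω.PosDef → ω.trace = 1 → ‖Φ ω‖ ≤ m) : 0 ≤ m := by
  obtain ⟨ω, -, h1, h2, -⟩ := exists_state (d := d) one_pos le_rfl (Mt.adm_zero ∅ le_rfl)
  exact (norm_nonneg _).trans (h ω h1 h2)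

/-- upper bound for linear images of the metric -/
theorem norm_map_Wm_le (A : Finset ι) (hs : 0 < s) (hε : 0 ≤ ε) (M : ℝ) {δ : ℝ} (hδ : 0 < δ) :
    ∀ᶠ k : ℕ in atTop, ∀ (F : Type) [NormedAddCommGroup F] [NormedSpace ℂ F] [CompleteSpace F]
      (Φ : Mk k (Cfg d) →L[ℂ] F) (m : ℝ),
      (∀ ω : Q.Op d, ω.PosDef → ω.trace = 1 → ‖Φ (tp k (pw (mg A ω) s))‖ ≤ m) →
      ‖Φ (Wm d k A s ε M)‖ ≤ Real.exp (k * (ε * M * dim d univ + δ)) * m := by
  filter_upwards [Mt.ev_le_exp hδ ((nu (Cfg d) M).real Set.univ)] with k hk F _ _ _ Φ m h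
  have hm := Mt.nonneg_of_states h
  rw [Wm, Wf, ← Φ.integral_comp_comm
    (integrable_Wf k A s ε M (f := fun _ => 1) continuous_const)]
  refine (norm_integral_le_of_norm_le_const
    (C := Real.exp (k * (ε * M * dim d univ)) * m) ?_).trans ?_
  · filter_upwards [ae_adm A M] with G hG
    obtain ⟨ω, t, h1, h2, h3, h4, h5⟩ := exists_state hs hε hG
    rw [h4, tp_rsmul, ← Complex.coe_smul, smul_smul, map_smul, norm_smul, one_mul,
      ← Complex.ofReal_mul, Complex.norm_real,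
      Real.norm_of_nonneg (mul_pos (wt_pos _ _ _ _ _) (pow_pos h3 k)).le]
    exact mul_le_mul (h5 k) (h ω h1 h2) (norm_nonneg _) (Real.exp_pos _).le
  · rw [mul_add, Real.exp_add, mul_right_comm, mul_comm (k : ℝ) δ]
    exact mul_le_mul_of_nonneg_right (mul_le_mul_of_nonneg_left hk (Real.exp_pos _).le) hm

lemma Mt.log_div_nonneg {D : ℝ} (hD : 1 ≤ D) (hε : 0 < ε) (hε1 : ε ≤ 1) : 0 ≤ Real.log (D / ε) :=
  Real.log_nonneg ((one_le_div hε).2 (hε1.trans hD))

lemma MM_pos {D : ℝ} (hD : 1 ≤ D) (hε : 0 < ε) (hε1 : ε ≤ 1) : 0 < MM D ε :=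
  mul_pos (by linarith) (by linarith [Mt.log_div_nonneg hD hε hε1])

lemma Mt.reg_posDef (A : Finset ι) {ω : Q.Op d} (hω : Dens ω) {e : ℝ} (he : 0 < e) :
    (mg A ω + e • (1 : Q.Op d)).PosDef :=
  PosDef.posSemidef_add (mg_posSemidef A hω.psd) (PosDef.one.smul he)

lemma Mt.norm_mg_le (A : Finset ι) {ω : Q.Op d} (hω : Dens ω) : ‖mg A ω‖ ≤ 1 := by
  have h := hω.red (sb A)
  refine (norm_emb_le _ _).trans ?_
  rw [← fc_id h.herm]
  exact norm_fc_le zero_le_one fun i => by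
    rw [Complex.norm_real, Real.norm_of_nonneg (ev_nonneg h.psd i)]; exact h.ev_le_one i

/-- regularised marginals are admissible and have almost maximal weight -/
theorem adm_reg (A : Finset ι) (hs : 0 < s) (hs1 : s ≤ 1) (hε : 0 < ε) (hε1 : ε ≤ 1)
    {ω : Q.Op d} (hω : Dens ω) {e e' : ℝ} (h1 : ε / dim d univ ≤ e) (h2 : e ≤ ε) (h3 : 0 ≤ e')
    (h4 : e' ≤ ε) :
    Adm A (MM (dim d univ) ε) (s • lg (mg A ω + e • (1 : Q.Op d))) ∧ ∀ k : ℕ,
      Real.exp (-(k * (ε * (MM (dim d univ) ε + 1) * dim d univ))) ≤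
        wt k A s e' (s • lg (mg A ω + e • (1 : Q.Op d))) := by
  have hD := Mt.one_le_dim (d := d) univ
  have hD' := Mt.one_le_dim (d := d) Aᶜ
  have h0 : 0 < ε / dim d univ := by positivity
  have he := h0.trans_le h1
  have hX := Mt.reg_posDef A hω he
  have hm := mg_posSemidef A hω.psd
  have hl := Mt.log_div_nonneg hD hε hε1
  have hA : Adm A (MM (dim d univ) ε) (s • lg (mg A ω + e • (1 : Q.Op d))) := by
    refine ⟨Mt.isHermitian_rsmul (fr_isHermitian _ _) s,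
      (supp_lg ((supp_mg A ω).add ((Supp.one A).smul (e : ℂ))) hX.1).smul (s : ℂ), ?_⟩
    have h5 : ‖lg (mg A ω + e • (1 : Q.Op d))‖ ≤ Real.log (dim d univ / ε) + 1 := by
      rw [lg, fr, fc_add_smul_one hm.1]
      refine norm_fc_le (by linarith) fun i => ?_
      have h6 := ev_nonneg hm i
      have h7 := (le_abs_self _).trans ((abs_ev_le hm.1 i).trans (Mt.norm_mg_le A hω))
      have h8 := Real.log_le_sub_one_of_pos (by linarith : 0 < ev (mg A ω) i + e)
      have h9 := Real.log_le_log h0 (by linarith : _ ≤ ev (mg A ω) i + e)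
      rw [← inv_div, Real.log_inv] at h9
      rw [Complex.norm_real, Real.norm_eq_abs, abs_le]
      constructor <;> linarith
    rw [hs_smul, abs_of_pos hs]
    refine (mul_le_of_le_one_left (hs_nonneg _) hs1).trans ((hs_le_norm _).trans ?_)
    rw [card_cfg]
    exact mul_le_mul (Real.sqrt_le_self_iff.2 (Or.inr hD)) h5 (norm_nonneg _) (by linarith)
  refine ⟨hA, fun k => Real.exp_le_exp.2 ?_⟩
  rw [← mul_neg]
  refine mul_le_mul_of_nonneg_left ?_ (Nat.cast_nonneg k)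
  have h5 : (trace (mg A ω + e • (1 : Q.Op d))).re = dim d Aᶜ + e * dim d univ := by
    rw [trace_add, trace_mg, hω.tr, trace_smul, trace_one, card_cfg]; simp
  have h6 := Mt.abs_trace_le hA
  have h7 := MM_pos hD hε hε1
  rw [psi, smul_smul, inv_mul_cancel₀ hs.ne', one_smul, ee_lg hX, h5, le_sub_comm,
    div_le_iff₀ (by linarith)]
  have h8 : -(e' * (trace (s • lg (mg A ω + e • (1 : Q.Op d)))).re) ≤
      ε * (MM (dim d univ) ε * dim d univ) := by
    rw [← mul_neg]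
    exact (mul_le_mul_of_nonneg_left ((neg_le_abs _).trans h6) h3).trans
      (mul_le_mul_of_nonneg_right h4 (by positivity))
  have h9 : s * (e * dim d univ) ≤ ε * dim d univ := (mul_le_of_le_one_left (by positivity)
    hs1).trans (mul_le_mul_of_nonneg_right h2 (by positivity))
  have h10 := le_mul_of_one_le_right
    (by positivity : 0 ≤ ε * (MM (dim d univ) ε + 1) * dim d univ) hD'
  linarith

lemma tendsto_eps_MM {D : ℝ} (hD : 1 ≤ D) :
    Tendsto (fun ε => ε * (MM D ε + 1) * D) (𝓝[>] 0) (𝓝 0) := by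
  have hc : Continuous fun ε : ℝ => (D * (ε * Real.log D - ε * Real.log ε + ε) + ε) * D :=
    ((continuous_const.mul (((continuous_id.mul continuous_const).sub
      Real.continuous_mul_log).add continuous_id)).add continuous_id).mul continuous_const
  refine ((hc.tendsto' 0 0 (by simp)).mono_left nhdsWithin_le_nhds).congr' ?_
  filter_upwards [self_mem_nhdsWithin] with ε hε
  rw [MM, Real.log_div (by linarith) (ne_of_gt hε)]
  ring
lemma Ev.and {p q : ℝ → ℕ → Prop} (h : Ev p) (h' : Ev q) : Ev fun ε k => p ε k ∧ q ε k :=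
  (Eventually.and h h').mono fun _ h => h.1.and h.2
lemma Ev.mono {p q : ℝ → ℕ → Prop} (h : Ev p) (h' : ∀ ε k, p ε k → q ε k) : Ev q :=
  Eventually.mono h fun ε h => h.mono (h' ε)
lemma Ev.all {α : Type*} [Finite α] {p : α → ℝ → ℕ → Prop} (h : ∀ a, Ev (p a)) :
    Ev fun ε k => ∀ a, p a ε k := (eventually_all.2 h).mono fun _ h => eventually_all.2 h
lemma Ev.exists {p : ℝ → ℕ → Prop} (h : Ev p) : ∃ ε k, p ε k :=
  (Eventually.exists h).imp fun _ h => h.exists
lemma ev_small {c : ℝ} (hc : 0 < c) (k₀ : ℕ) : Ev fun ε k => 0 < ε ∧ ε ≤ c ∧ k₀ ≤ k := by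
  filter_upwards [Ioc_mem_nhdsGT hc] with ε hε
  filter_upwards [eventually_ge_atTop k₀] with k hk using ⟨hε.1, hε.2, hk⟩
lemma Mt.eb_mem {D : ℝ} (hD : 1 ≤ D) (hε : 0 ≤ ε) (b : Bool) : ε / D ≤ eb D ε b ∧ eb D ε b ≤ ε := by
  have := div_le_self hε hD
  cases b <;> simp [eb, this]
lemma Mt.eb_nonneg {D : ℝ} (hD : 1 ≤ D) (hε : 0 ≤ ε) (b : Bool) : 0 ≤ eb D ε b :=
  (div_nonneg hε (by linarith)).trans (Mt.eb_mem hD hε b).1
/-- lower bound in the form used later -/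
theorem ev_le_W (hs : 0 < s) (hs1 : s ≤ 1) {δ : ℝ} (hδ : 0 < δ) :
    Ev fun ε k => ∀ (b b' : Bool) (A : Finset ι) (ω : Q.Op d), Dens ω →
      Real.exp (-(δ * k)) • tp k (pw (mg A ω + eb (dim d univ) ε b' • (1 : Q.Op d)) s) ≤
        W d s ε k b A := by
  have hD := Mt.one_le_dim (d := d) univ
  filter_upwards [Ioc_mem_nhdsGT one_pos, (tendsto_eps_MM hD).eventually_le_const (half_pos hδ)]
    with ε hε hε'
  filter_upwards [eventually_all.2 fun p : Bool × Finset ι => le_Wm (d := d) p.2 hs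
    (eb (dim d univ) ε p.1) (MM_pos hD hε.1 hε.2) (half_pos hδ)] with k hk b b' A ω hω
  have h1 := Mt.eb_mem hD hε.1.le b'
  obtain ⟨h2, h3⟩ := adm_reg A hs hs1 hε.1 hε.2 hω h1.1 h1.2 (Mt.eb_nonneg hD hε.1.le b)
    (Mt.eb_mem hD hε.1.le b).2
  have hX := Mt.reg_posDef A hω ((div_pos hε.1 (by linarith)).trans_le h1.1)
  refine le_trans ?_ (hk (b, A) _ h2)
  rw [ee_smul_lg hX]
  refine Mt.rsmul_le_rsmul (tp_posSemidef k (pw_posDef hX s).posSemidef)
    (le_trans ?_ (mul_le_mul_of_nonneg_left (h3 k) (Real.exp_pos _).le))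
  rw [← Real.exp_add]
  exact Real.exp_le_exp.2 (by linarith [mul_le_mul_of_nonneg_left hε' (Nat.cast_nonneg k)])
/-- upper bound in the form used later -/
theorem ev_norm_map_W (hs : 0 < s) {δ : ℝ} (hδ : 0 < δ) :
    Ev fun ε k => ∀ (b : Bool) (A : Finset ι) (F : Type) [NormedAddCommGroup F] [NormedSpace ℂ F]
      [CompleteSpace F] (Φ : Mk k (Cfg d) →L[ℂ] F) (m : ℝ),
      (∀ ω : Q.Op d, ω.PosDef → ω.trace = 1 → ‖Φ (tp k (pw (mg A ω) s))‖ ≤ m) →
      ‖Φ (W d s ε k b A)‖ ≤ Real.exp (δ * k) * m := by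
  have hD := Mt.one_le_dim (d := d) univ
  filter_upwards [Ioc_mem_nhdsGT one_pos, (tendsto_eps_MM hD).eventually_le_const (half_pos hδ)]
    with ε hε hε'
  filter_upwards [eventually_all.2 fun p : Bool × Finset ι => norm_map_Wm_le (d := d) p.2 hs
    (Mt.eb_nonneg hD hε.1.le p.1) (MM (dim d univ) ε) (half_pos hδ)] with k hk b A F _ _ _ Φ m h
  refine (hk (b, A) F Φ m h).trans (mul_le_mul_of_nonneg_right (Real.exp_le_exp.2 ?_)
    (Mt.nonneg_of_states h))
  have h1 := MM_pos hD hε.1 hε.2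
  have h2 := mul_le_mul_of_nonneg_right (Mt.eb_mem hD hε.1.le b).2
    (by positivity : 0 ≤ MM (dim d univ) ε * dim d univ)
  have h3 : 0 ≤ ε * dim d univ := by have := hε.1; positivity
  rw [mul_comm δ]
  exact mul_le_mul_of_nonneg_left (by linarith) (Nat.cast_nonneg k)

end Crest.Agent.N336.R
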