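import Crest.Agent.N336.R.Coh

/-! # Row 336, replica package: the metrics, first file (basic facts, invariance) -/

set_option autoImplicit false
set_option linter.unusedSectionVars false

open Matrix Finset MeasureTheory Filter
open scoped ComplexOrder MatrixOrder Matrix.Norms.L2Operator InnerProductSpace Topology

namespace Crest.Agent.N336.R

open Crest.Agent.N336.Q Crest.Agent.N336.Eng Crest.Agent.N336.C

namespace Mt
variable {n : Type} [Fintype n] [DecidableEq n]

/-- the vector of entries -/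
def vc (L : Matrix n n ℂ) : Q.Vec (n × n) := WithLp.toLp 2 fun p => L p.1 p.2

/-- the matrix of a vector of entries -/
def mt (G : Q.Vec (n × n)) : Matrix n n ℂ := Matrix.of fun i j => G (i, j)

lemma vc_mt (G : Q.Vec (n × n)) : vc (mt G) = G := rfl
lemma mt_vc (L : Matrix n n ℂ) : mt (vc L) = L := rfl
lemma hm_eq (G : Q.Vec (n × n)) : hm G = (1 / 2 : ℂ) • (mt G + (mt G)ᴴ) := rfl

lemma norm_vc (L : Matrix n n ℂ) : ‖vc L‖ = hs L := by
  rw [EuclideanSpace.norm_eq, hs, Fintype.sum_prod_type, Finset.sum_comm]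
  congr 1
  simp only [trace, Matrix.diag_apply, Matrix.mul_apply, conjTranspose_apply, Complex.re_sum, vc]
  refine Finset.sum_congr rfl fun j _ => Finset.sum_congr rfl fun i _ => ?_
  rw [Complex.star_def, Complex.conj_mul']
  norm_cast

lemma hs_conjTranspose (L : Matrix n n ℂ) : hs Lᴴ = hs L := by
  rw [hs, hs, conjTranspose_conjTranspose, trace_mul_comm]

lemma hs_conj {U : Matrix n n ℂ} (h : Uᴴ * U = 1) (L : Matrix n n ℂ) :
    hs (U * L * Uᴴ) = hs L := by
  have e : (U * L * Uᴴ)ᴴ * (U * L * Uᴴ) = U * (Lᴴ * (Uᴴ * U) * L) * Uᴴ := by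
    simp only [conjTranspose_mul, conjTranspose_conjTranspose, Matrix.mul_assoc]
  rw [hs, hs, e, h, Matrix.mul_one, trace_mul_cycle, h, Matrix.one_mul]

lemma hm_isHermitian (G : Q.Vec (n × n)) : (hm G).IsHermitian := by
  rw [hm_eq, IsHermitian, conjTranspose_smul, conjTranspose_add, conjTranspose_conjTranspose,
    add_comm]
  simp

lemma hm_vc {L : Matrix n n ℂ} (h : L.IsHermitian) : hm (vc L) = L := by
  rw [hm_eq, mt_vc, h.eq, ← two_smul ℂ L, smul_smul]
  simp

lemma hs_hm_le (G : Q.Vec (n × n)) : hs (hm G) ≤ ‖G‖ := by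
  have e : hm G = (1 / 2 : ℝ) • (mt G + (mt G)ᴴ) := by
    rw [hm_eq, ← Complex.coe_smul]; norm_num
  have h := hs_add_le (mt G) (mt G)ᴴ
  rw [hs_conjTranspose, ← norm_vc (mt G), vc_mt] at h
  rw [e, hs_smul, abs_of_pos one_half_pos]
  linarith

lemma continuous_hm : Continuous (hm : Q.Vec (n × n) → Matrix n n ℂ) := by
  have h : Continuous (mt : Q.Vec (n × n) → Matrix n n ℂ) :=
    continuous_matrix fun i j => by simp only [mt, of_apply]; fun_prop
  exact (h.add h.matrix_conjTranspose).const_smul (1 / 2 : ℂ)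

/-- conjugation of the entries -/
noncomputable def cj (U : Matrix n n ℂ) : Q.Vec (n × n) →ₗ[ℝ] Q.Vec (n × n) where
  toFun G := vc (U * mt G * Uᴴ)
  map_add' G G' := by
    rw [show mt (G + G') = mt G + mt G' from rfl, Matrix.mul_add, Matrix.add_mul]; rfl
  map_smul' c G := by
    rw [show mt (c • G) = c • mt G from rfl, Matrix.mul_smul, Matrix.smul_mul]; rfl

lemma norm_cj {U : Matrix n n ℂ} (h : Uᴴ * U = 1) (G : Q.Vec (n × n)) : ‖cj U G‖ = ‖G‖ := by
  rw [show cj U G = vc (U * mt G * Uᴴ) from rfl, norm_vc, hs_conj h, ← norm_vc, vc_mt]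

lemma hm_cj (U : Matrix n n ℂ) (G : Q.Vec (n × n)) : hm (cj U G) = U * hm G * Uᴴ := by
  rw [show cj U G = vc (U * mt G * Uᴴ) from rfl, hm_eq, hm_eq, mt_vc]
  simp only [conjTranspose_mul, conjTranspose_conjTranspose, Matrix.mul_smul, Matrix.smul_mul,
    Matrix.mul_add, Matrix.add_mul, Matrix.mul_assoc]

/-- invariance of `nu` under linear isometries -/
lemma integral_nu_comp {F : Type*} [NormedAddCommGroup F] [NormedSpace ℝ F]
    (T : Q.Vec (n × n) →ₗ[ℝ] Q.Vec (n × n)) (hT : ∀ G, ‖T G‖ = ‖G‖) (M : ℝ)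
    (f : Q.Vec (n × n) → F) : ∫ G, f (T G) ∂nu n M = ∫ G, f G ∂nu n M := by
  let e : Q.Vec (n × n) ≃ₗᵢ[ℝ] Q.Vec (n × n) :=
    LinearIsometry.toLinearIsometryEquiv ⟨T, hT⟩ rfl
  have he : ∀ G, e G = T G := fun _ => rfl
  have hb : ∀ r, e ⁻¹' Metric.closedBall 0 r = Metric.closedBall 0 r := fun r => by
    ext G; simp
  have h := Measure.addHaar_preimage_continuousLinearEquiv
    (Measure.addHaar : Measure (Q.Vec (n × n))) e.toContinuousLinearEquiv
  have h1 := h (Metric.closedBall 0 1)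
  rw [show (e.toContinuousLinearEquiv : _ → _) = e from rfl] at h h1
  rw [hb, eq_comm, ← mul_one (Measure.addHaar (Metric.closedBall 0 1)), mul_one, mul_comm] at h1
  rw [(ENNReal.mul_eq_left (Metric.measure_closedBall_pos _ _ one_pos).ne'
    measure_closedBall_lt_top.ne).1 h1] at h
  have hm : MeasurePreserving e Measure.addHaar Measure.addHaar :=
    ⟨e.continuous.measurable, Measure.ext fun s hs => by
      rw [Measure.map_apply e.continuous.measurable hs, h, one_mul]⟩
  have h2 := hm.restrict_preimage (Metric.isClosed_closedBall (x := 0) (ε := M)).measurableSet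
  rw [hb] at h2
  exact h2.integral_comp e.toHomeomorph.measurableEmbedding f

lemma rsmul_mono {A B : Matrix n n ℂ} {c : ℝ} (hc : 0 ≤ c) (h : A ≤ B) : c • A ≤ c • B := by
  rw [Matrix.le_iff, ← smul_sub]; exact (Matrix.le_iff.1 h).smul hc

lemma rsmul_le_rsmul {A : Matrix n n ℂ} {c c' : ℝ} (hA : A.PosSemidef) (h : c ≤ c') :
    c • A ≤ c' • A := by
  rw [Matrix.le_iff, ← sub_smul]; exact hA.smul (sub_nonneg.2 h)

lemma isHermitian_rsmul {A : Matrix n n ℂ} (h : A.IsHermitian) (c : ℝ) : (c • A).IsHermitian := by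
  rw [IsHermitian, conjTranspose_smul, h.eq, star_trivial]

lemma abs_re_trace_le {A : Matrix n n ℂ} (h : A.IsHermitian) :
    |(trace A).re| ≤ Fintype.card n * hs A := by
  rw [re_trace_eq h]
  refine (Finset.abs_sum_le_sum_abs _ _).trans ((Finset.sum_le_card_nsmul _ _ (hs A) fun i _ =>
    (abs_ev_le h i).trans (norm_le_hs A)).trans_eq ?_)
  rw [nsmul_eq_mul, Finset.card_univ]

lemma integral_conj {X : Type*} [MeasurableSpace X] {μ : Measure X} {F : X → Matrix n n ℂ}
    (hF : Integrable F μ) (U V : Matrix n n ℂ) :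
    ∫ x, U * F x * V ∂μ = U * (∫ x, F x ∂μ) * V :=
  (ContinuousLinearMap.mulLeftRight ℂ (Matrix n n ℂ) U V).integral_comp_comm hF

lemma commute_integral {X : Type*} [MeasurableSpace X] {μ : Measure X} {F : X → Matrix n n ℂ}
    {G : Matrix n n ℂ} (h : ∀ x, Commute G (F x)) : Commute G (∫ x, F x ∂μ) := by
  by_cases hF : Integrable F μ
  · have h1 := integral_conj hF G 1
    have h2 := integral_conj hF 1 G
    simp only [Matrix.mul_one, Matrix.one_mul] at h1 h2
    rw [Commute, SemiconjBy, ← h1, ← h2]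
    exact congrArg _ (funext fun x => h x)
  · rw [integral_undef hF]; exact Commute.zero_right G

end Mt

variable {ι : Type} [Fintype ι] [DecidableEq ι] {d : ι → Type} [∀ x, Fintype (d x)]
  [∀ x, DecidableEq (d x)] [∀ x, Nonempty (d x)]

variable {k : ℕ} {A A' Z : Finset ι} {s ε M : ℝ}

instance (n : Type) [Fintype n] (M : ℝ) : IsFiniteMeasure (nu n M) :=
  isFiniteMeasure_restrict.2 measure_closedBall_lt_top.ne
lemma Mt.continuous_E (A : Finset ι) : Continuous (E A : Q.Op d → Q.Op d) :=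
  continuous_matrix fun σ τ => by
    simp only [E_apply]
    split_ifs <;> fun_prop
lemma continuous_LQ (A : Finset ι) : Continuous (LQ A : Q.Vec (Cfg d × Cfg d) → Q.Op d) :=
  (Mt.continuous_E A).comp Mt.continuous_hm
lemma LQ_isHermitian (A : Finset ι) (G : Q.Vec (Cfg d × Cfg d)) : (LQ A G).IsHermitian :=
  E_isHermitian A (Mt.hm_isHermitian G)
lemma supp_LQ (A : Finset ι) (G : Q.Vec (Cfg d × Cfg d)) : Supp A (LQ A G) := supp_E A _
lemma adm_LQ (A : Finset ι) {G : Q.Vec (Cfg d × Cfg d)} (h : ‖G‖ ≤ M) : Adm A M (LQ A G) :=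
  ⟨LQ_isHermitian A G, supp_LQ A G, (hs_E_le A _).trans ((Mt.hs_hm_le G).trans h)⟩
lemma ae_adm (A : Finset ι) (M : ℝ) : ∀ᵐ G ∂(nu (Cfg d) M), Adm A M (LQ A G) := by
  filter_upwards [ae_restrict_mem (Metric.isClosed_closedBall (x := 0) (ε := M)).measurableSet]
    with G hG using adm_LQ A (mem_closedBall_zero_iff.1 hG)
lemma Mt.LQ_vc {L : Q.Op d} (hL : L.IsHermitian) (hs : Supp A L) : LQ A (Mt.vc L) = L := by
  rw [LQ, Mt.hm_vc hL, hs.E_eq]
lemma wt_pos (k : ℕ) (A : Finset ι) (s ε : ℝ) (L : Q.Op d) : 0 < wt k A s ε L := Real.exp_pos _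
lemma Mt.continuous_ee_LQ (A : Finset ι) :
    Continuous fun G : Q.Vec (Cfg d × Cfg d) => ee (LQ A G) :=
  continuous_ee (continuous_LQ A) (LQ_isHermitian A)
lemma Mt.continuous_psi (A : Finset ι) (s ε : ℝ) :
    Continuous fun G : Q.Vec (Cfg d × Cfg d) => psi A s ε (LQ A G) :=
  ((continuous_const.mul (Complex.continuous_re.comp (continuous_ee
    ((continuous_LQ A).const_smul s⁻¹) fun G =>
      Mt.isHermitian_rsmul (LQ_isHermitian A G) _).matrix_trace)).sub
    (continuous_const.mul (Complex.continuous_re.comp (continuous_LQ A).matrix_trace))).div_const _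
lemma continuous_wt (k : ℕ) (A : Finset ι) (s ε : ℝ) :
    Continuous fun G : Q.Vec (Cfg d × Cfg d) => wt k A s ε (LQ A G) :=
  Real.continuous_exp.comp (continuous_const.mul (continuous_const.sub (Mt.continuous_psi A s ε)))
lemma integrable_Wf (k : ℕ) (A : Finset ι) (s ε M : ℝ) {f : Q.Op d → ℂ}
    (hf : Continuous fun G : Q.Vec (Cfg d × Cfg d) => f (LQ A G)) :
    Integrable (fun G => (f (LQ A G) * wt k A s ε (LQ A G)) • tp k (ee (LQ A G)))
      (nu (Cfg d) M) :=
  ((hf.mul (Complex.continuous_ofReal.comp (continuous_wt k A s ε))).smul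
    ((continuous_tp k).comp (Mt.continuous_ee_LQ A))).continuousOn.integrableOn_compact
    (isCompact_closedBall 0 M)
lemma Mt.Wm_eq (k : ℕ) (A : Finset ι) (s ε M : ℝ) : Wm d k A s ε M =
    ∫ G, wt k A s ε (LQ A G) • tp k (ee (LQ A G)) ∂(nu (Cfg d) M) := by
  simp only [Wm, Wf, one_mul, Complex.coe_smul]
lemma Mt.integrable_Wm (k : ℕ) (A : Finset ι) (s ε M : ℝ) :
    Integrable (fun G => wt k A s ε (LQ A G) • tp k (ee (LQ A G))) (nu (Cfg d) M) := by
  simpa only [one_mul, Complex.coe_smul] using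
    integrable_Wf (d := d) k A s ε M (f := fun _ => 1) continuous_const
lemma sy_Wf (k : ℕ) (A : Finset ι) (s ε M : ℝ) (f : Q.Op d → ℂ) : Sy (Wf k A s ε M f) :=
  Sy.integral fun _ => (sy_tp k _).smul _
lemma sy_Wm (k : ℕ) (A : Finset ι) (s ε M : ℝ) : Sy (Wm d k A s ε M) := sy_Wf k A s ε M _
/-- anything commuting with the tensor powers commutes with the integrals -/
lemma commute_Wf {G : Mk k (Cfg d)} (h : ∀ L : Q.Op d, L.IsHermitian → Supp A L →
    Commute G (tp k (ee L))) (s ε M : ℝ) (f : Q.Op d → ℂ) : Commute G (Wf k A s ε M f) :=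
  Mt.commute_integral fun G => (h _ (LQ_isHermitian A G) (supp_LQ A G)).smul_right _
lemma Mt.wt_conj {U L : Q.Op d} (h1 : Uᴴ * U = 1) (h2 : U * Uᴴ = 1) (hL : L.IsHermitian) :
    wt k A s ε (U * L * Uᴴ) = wt k A s ε L := by
  have e : ∀ X : Q.Op d, trace (U * X * Uᴴ) = trace X := fun X => by
    rw [trace_mul_cycle, h1, Matrix.one_mul]
  rw [wt, wt, psi, psi, e, ← Matrix.smul_mul, ← Matrix.mul_smul,
    show ee (U * s⁻¹ • L * Uᴴ) = _ from fc_conj _ (Mt.isHermitian_rsmul hL _) h1 h2, e]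
lemma Mt.Wm_commute_unitary {U : Q.Op d} (hs : Supp A U) (h1 : Uᴴ * U = 1) (h2 : U * Uᴴ = 1) (k : ℕ)
    (s ε M : ℝ) : Commute (Wm d k A s ε M) (tp k U) := by
  have e : Wm d k A s ε M = tp k U * Wm d k A s ε M * tp k Uᴴ := by
    rw [Mt.Wm_eq, ← Mt.integral_conj (Mt.integrable_Wm k A s ε M),
      ← Mt.integral_nu_comp (Mt.cj U) (Mt.norm_cj h1)]
    congr 1; funext G
    have e1 : LQ A (Mt.cj U G) = U * LQ A G * Uᴴ := by
      rw [LQ, Mt.hm_cj, hs.conjTranspose.E_mul', hs.E_mul, LQ]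
    rw [e1, Mt.wt_conj h1 h2 (LQ_isHermitian A G),
      show ee (U * LQ A G * Uᴴ) = _ from fc_conj _ (LQ_isHermitian A G) h1 h2, tp_mul, tp_mul,
      Matrix.mul_smul, Matrix.smul_mul]
  rw [Commute, SemiconjBy]
  conv_lhs => rw [e, Matrix.mul_assoc, ← tp_mul, h1, tp_one, Matrix.mul_one]
/-- unitary invariance -/
theorem Wm_commute_dG {h : Q.Op d} (hs : Supp Z h) (hZ : Z ⊆ A ∨ Disjoint Z A) (k : ℕ)
    (s ε M : ℝ) : Commute (Wm d k A s ε M) (dG k h) := by
  rcases hZ with hZ | hZ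
  · have H : ∀ g : Q.Op d, Supp A g → g.IsHermitian → Commute (Wm d k A s ε M) (dG k g) :=
      fun g hg hh => commute_dG_of_unitary hh fun t => by
        have e : ∀ x : ℝ, star (Complex.exp (t * Complex.I * x)) *
            Complex.exp (t * Complex.I * x) = 1 := fun x => by
          rw [Complex.star_def, ← Complex.exp_conj, ← Complex.exp_add]; simp
        refine Mt.Wm_commute_unitary (hg.fc _ hh) ?_ ?_ k s ε M
        · simp only [fc_conjTranspose, fc_mul, e, fc_one]
        · simp only [fc_conjTranspose, fc_mul, mul_comm (Complex.exp _), e, fc_one]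
    have hA := hs.mono hZ
    have e : h = (1 / 2 : ℂ) • (h + hᴴ) + (Complex.I / 2) • (Complex.I • (hᴴ - h)) := by
      rw [smul_smul, div_mul_eq_mul_div, Complex.I_mul_I]
      module
    rw [e, dG_add, dG_smul, dG_smul]
    refine ((H _ (hA.add hA.conjTranspose) (isHermitian_add_transpose_self h)).smul_right _).add_right
      ((H _ ((hA.conjTranspose.sub hA).smul _) ?_).smul_right _)
    rw [IsHermitian, conjTranspose_smul, conjTranspose_sub, conjTranspose_conjTranspose,
      Complex.star_def, Complex.conj_I, neg_smul, ← smul_neg, neg_sub]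
  · exact (commute_Wf (fun L hL hA => commute_dG_tp k (hs.commute (hA.fc _ hL) hZ)) s ε M _).symm
theorem Wm_commute_tp {O : Q.Op d} (hs : Supp Z O) (hO : O.PosSemidef) (hZ : Z ⊆ A ∨ Disjoint Z A)
    (k : ℕ) (s ε M : ℝ) : Commute (Wm d k A s ε M) (tp k O) :=
  commute_tp_of_dG hO fun _ => Wm_commute_dG (hs.fc _ hO.1) hZ k s ε M
theorem Wm_commute_Wf (hA : A' ⊆ A ∨ Disjoint A' A) (k : ℕ) (s ε M s' ε' M' : ℝ)
    (f : Q.Op d → ℂ) : Commute (Wm d k A s ε M) (Wf k A' s' ε' M' f) :=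
  commute_Wf (fun L hL h => Wm_commute_tp (h.fc _ hL) (ee_posDef L).posSemidef hA k s ε M) _ _ _ f

end Crest.Agent.N336.R
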