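import Crest.Agent.N336.R.Defs

/-! # Row 336, replica package: the symmetric space, part without tensor lemmas (helper60) -/

set_option autoImplicit false
set_option linter.unusedSectionVars false

open Matrix Finset MeasureTheory Filter
open scoped ComplexOrder MatrixOrder Matrix.Norms.L2Operator InnerProductSpace Topology

namespace Crest.Agent.N336.R

open Crest.Agent.N336.Q Crest.Agent.N336.Eng Crest.Agent.N336.C

variable {n : Type} [Fintype n] [DecidableEq n] {k : ℕ} {G G' : Mk k n}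

lemma ty_comp (σ : Fin k → n) (π : Equiv.Perm (Fin k)) : ty (σ ∘ π) = ty σ := by
  apply Subtype.ext
  change Multiset.map (σ ∘ π) univ.val = Multiset.map σ univ.val
  rw [← Multiset.map_map, Multiset.map_univ_val_equiv]

lemma count_ty (σ : Fin k → n) (b : n) :
    Multiset.count b (ty σ).1 = Fintype.card {i // σ i = b} := by
  change Multiset.count b (Multiset.map σ univ.val) = _
  rw [Multiset.count_map, Fintype.card_subtype, Finset.card, Finset.filter_val]
  congr 1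
  exact Multiset.filter_congr fun _ _ => eq_comm

lemma ty_eq_iff {σ τ : Fin k → n} : ty σ = ty τ ↔ ∃ π : Equiv.Perm (Fin k), τ = σ ∘ π := by
  constructor
  · intro h
    have e : ∀ b, {i // τ i = b} ≃ {i // σ i = b} := fun b =>
      Fintype.equivOfCardEq (by rw [← count_ty, ← count_ty, h])
    exact ⟨Equiv.ofFiberEquiv e, funext fun i => (Equiv.ofFiberEquiv_map e i).symm⟩
  · rintro ⟨π, rfl⟩
    exact (ty_comp σ π).symm

lemma ty_surjective : Function.Surjective (ty : (Fin k → n) → Sym n k) := by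
  rintro ⟨m, hm⟩
  induction m using Quotient.inductionOn with
  | h l =>
    have hl : l.length = k := hm
    subst hl
    refine ⟨l.get, Subtype.ext ?_⟩
    change Multiset.map l.get univ.val = (l : Multiset n)
    rw [Fin.univ_val_map, List.ofFn_get]

/-- size of the fibre of a type -/
def fib (t : Sym n k) : ℕ := (univ.filter fun τ : Fin k → n => ty τ = t).card

/-- normalisation of the symmetric basis vectors -/
noncomputable def cf (t : Sym n k) : ℂ := (((Real.sqrt (fib t))⁻¹ : ℝ) : ℂ)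

lemma fib_pos (t : Sym n k) : 0 < fib t := by
  obtain ⟨σ, h⟩ := ty_surjective t
  exact Finset.card_pos.2 ⟨σ, by simp [h]⟩

lemma star_cf (t : Sym n k) : star (cf t) = cf t := Complex.conj_ofReal _

lemma cf_mul_cf (t : Sym n k) : cf t * cf t * fib t = 1 := by
  have h : (0 : ℝ) < fib t := by exact_mod_cast fib_pos t
  have h2 : (Real.sqrt (fib t))⁻¹ * (Real.sqrt (fib t))⁻¹ * fib t = 1 := by
    rw [← mul_inv, Real.mul_self_sqrt h.le, inv_mul_cancel₀ h.ne']
  unfold cf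
  exact_mod_cast h2

lemma cf_ne_zero (t : Sym n k) : cf t ≠ 0 := by
  intro h
  have := cf_mul_cf t
  rw [h] at this
  simp at this

lemma J_apply (σ : Fin k → n) (t : Sym n k) : J k n σ t = if ty σ = t then cf t else 0 := rfl

lemma J_mulVec (w : Sym n k → ℂ) (σ : Fin k → n) :
    (J k n *ᵥ w) σ = cf (ty σ) * w (ty σ) := by
  simp [mulVec, dotProduct, J_apply]

lemma Jh_mulVec (v : (Fin k → n) → ℂ) (t : Sym n k) :
    ((J k n)ᴴ *ᵥ v) t = cf t * ∑ σ ∈ univ.filter (fun σ => ty σ = t), v σ := by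
  simp only [mulVec, dotProduct, conjTranspose_apply, J_apply, Finset.sum_filter, Finset.mul_sum]
  refine Finset.sum_congr rfl fun σ _ => ?_
  split_ifs
  · rw [star_cf]
  · simp

lemma Jh_mulVec_comp (w : Sym n k → ℂ) (t : Sym n k) :
    ((J k n)ᴴ *ᵥ fun σ => w (ty σ)) t = cf t * fib t * w t := by
  rw [Jh_mulVec, Finset.sum_congr rfl (g := fun _ => w t)
    (fun σ hσ => by rw [(Finset.mem_filter.1 hσ).2]), Finset.sum_const, nsmul_eq_mul, mul_assoc]
  rfl

lemma Jh_J_mulVec (w : Sym n k → ℂ) : (J k n)ᴴ *ᵥ (J k n *ᵥ w) = w := by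
  funext t
  have : J k n *ᵥ w = fun σ => (fun t => cf t * w t) (ty σ) := funext fun σ => J_mulVec w σ
  rw [this, Jh_mulVec_comp (fun t => cf t * w t)]
  linear_combination w t * cf_mul_cf t

lemma J_star_J (k : ℕ) : (J k n)ᴴ * J k n = 1 := by
  refine Matrix.ext_of_mulVec_single fun t => ?_
  rw [← mulVec_mulVec, Jh_J_mulVec, one_mulVec]

/-- `J Jᴴ` fixes the permutation invariant vectors -/
lemma J_Jh_mulVec {v : (Fin k → n) → ℂ} (h : ∀ (π : Equiv.Perm (Fin k)) σ, v (σ ∘ π) = v σ) :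
    J k n *ᵥ ((J k n)ᴴ *ᵥ v) = v := by
  obtain ⟨s, hs⟩ := (ty_surjective (n := n) (k := k)).hasRightInverse
  have hv : v = fun σ => (fun t => v (s t)) (ty σ) := by
    funext σ
    obtain ⟨π, hπ⟩ := ty_eq_iff.1 (hs (ty σ))
    conv_lhs => rw [hπ]
    exact h π _
  funext σ
  rw [J_mulVec]
  conv_lhs => rw [hv]
  rw [Jh_mulVec_comp (fun t => v (s t))]
  conv_rhs => rw [hv]
  linear_combination v (s (ty σ)) * cf_mul_cf (ty σ)

/-- precomposition with a permutation of the replicas -/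
def pc (π : Equiv.Perm (Fin k)) : (Fin k → n) ≃ (Fin k → n) where
  toFun τ := τ ∘ π
  invFun τ := τ ∘ π.symm
  left_inv τ := by funext i; simp
  right_inv τ := by funext i; simp

theorem Sy.mul_J (h : Sy G) : G * J k n = J k n * cmp G := by
  ext σ t
  have key := congrFun (J_Jh_mulVec (v := fun σ => (G * J k n) σ t) fun π σ => by
    simp only [Matrix.mul_apply]
    rw [← Equiv.sum_comp (pc π)]
    refine Finset.sum_congr rfl fun τ _ => ?_
    change G (σ ∘ π) (τ ∘ π) * J k n (τ ∘ π) t = _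
    rw [h, J_apply, J_apply, ty_comp]) σ
  rw [← key, cmp, Matrix.mul_assoc]
  rfl

lemma cmp_one : cmp (1 : Mk k n) = 1 := by rw [cmp, Matrix.mul_one, J_star_J]

lemma cmp_add (G G' : Mk k n) : cmp (G + G') = cmp G + cmp G' := by
  simp only [cmp, Matrix.mul_add, Matrix.add_mul]

lemma cmp_sub (G G' : Mk k n) : cmp (G - G') = cmp G - cmp G' := by
  simp only [cmp, Matrix.mul_sub, Matrix.sub_mul]

lemma cmp_neg (G : Mk k n) : cmp (-G) = -cmp G := by
  simp only [cmp, Matrix.mul_neg, Matrix.neg_mul]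

lemma cmp_smul (c : ℂ) (G : Mk k n) : cmp (c • G) = c • cmp G := by
  simp only [cmp, Matrix.mul_smul, Matrix.smul_mul]

lemma cmp_rsmul (c : ℝ) (G : Mk k n) : cmp (c • G) = c • cmp G := by
  simp only [cmp, Matrix.mul_smul, Matrix.smul_mul]

lemma cmp_sum {α : Type*} (s : Finset α) (G : α → Mk k n) :
    cmp (∑ a ∈ s, G a) = ∑ a ∈ s, cmp (G a) := by
  simp only [cmp, Matrix.mul_sum, Matrix.sum_mul]

lemma cmp_conjTranspose (G : Mk k n) : cmp Gᴴ = (cmp G)ᴴ := by
  simp only [cmp, conjTranspose_mul, conjTranspose_conjTranspose, Matrix.mul_assoc]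

lemma cmp_mul (G : Mk k n) (h : Sy G') : cmp (G * G') = cmp G * cmp G' := by
  calc cmp (G * G') = (J k n)ᴴ * G * (G' * J k n) := by simp only [cmp, Matrix.mul_assoc]
    _ = cmp G * cmp G' := by rw [h.mul_J, ← Matrix.mul_assoc]; rfl

lemma cmp_isHermitian (h : G.IsHermitian) : (cmp G).IsHermitian := by
  rw [IsHermitian, ← cmp_conjTranspose, h.eq]

lemma cmp_posSemidef (h : G.PosSemidef) : (cmp G).PosSemidef :=
  h.conjTranspose_mul_mul_same _

lemma J_injective : Function.Injective (J k n).mulVec :=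
  Function.LeftInverse.injective (g := ((J k n)ᴴ).mulVec) Jh_J_mulVec

lemma cmp_posDef (h : G.PosDef) : (cmp G).PosDef :=
  h.conjTranspose_mul_mul_same J_injective

lemma cmp_mono (h : G ≤ G') : cmp G ≤ cmp G' := by
  rw [Matrix.le_iff] at h ⊢
  rw [← cmp_sub]
  exact cmp_posSemidef h

lemma norm_J_le : ‖J k n‖ ≤ 1 := by
  have h := Matrix.l2_opNorm_conjTranspose_mul_self (J k n)
  rw [J_star_J] at h
  have h1 : ‖(1 : Ms k n)‖ ≤ 1 := by
    rw [← norm_ap, ap, map_one]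
    exact ContinuousLinearMap.norm_id_le
  nlinarith [norm_nonneg (J k n)]

lemma norm_cmp_le (G : Mk k n) : ‖cmp G‖ ≤ ‖G‖ := by
  have h1 := Matrix.l2_opNorm_mul ((J k n)ᴴ * G) (J k n)
  have h2 := Matrix.l2_opNorm_mul (J k n)ᴴ G
  rw [Matrix.l2_opNorm_conjTranspose] at h2
  have h3 := norm_J_le (k := k) (n := n)
  calc ‖cmp G‖ ≤ ‖(J k n)ᴴ * G‖ * ‖J k n‖ := h1
    _ ≤ ‖(J k n)ᴴ * G‖ := mul_le_of_le_one_right (norm_nonneg _) h3
    _ ≤ ‖J k n‖ * ‖G‖ := h2
    _ ≤ ‖G‖ := mul_le_of_le_one_left (norm_nonneg _) h3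

lemma cmp_fc (h : Sy G) (hG : G.IsHermitian) (f : ℝ → ℂ) : cmp (fc f G) = fc f (cmp G) := by
  rw [cmp, Matrix.mul_assoc, fc_intertwine f hG (cmp_isHermitian hG) h.mul_J, ← Matrix.mul_assoc,
    J_star_J, Matrix.one_mul]

lemma cmp_inv (h : Sy G) (hG : G.PosDef) : cmp G⁻¹ = (cmp G)⁻¹ := by
  refine (Matrix.inv_eq_left_inv ?_).symm
  rw [← cmp_mul _ h, Matrix.nonsing_inv_mul _ ((Matrix.isUnit_iff_isUnit_det G).1 hG.isUnit),
    cmp_one]

lemma cmp_commute (h : Sy G) (h' : Sy G') (hc : Commute G G') : Commute (cmp G) (cmp G') := by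
  rw [Commute, SemiconjBy, ← cmp_mul _ h', ← cmp_mul _ h, hc.eq]

lemma J_cv (k : ℕ) (χ : Q.Vec n) : J k n *ᵥ (cv k χ).ofLp = (tv k χ).ofLp :=
  J_Jh_mulVec (v := (tv k χ).ofLp) fun π σ => Equiv.prod_comp π fun i => χ (σ i)

lemma ofLp_ap_cmp_cv (G : Mk k n) (χ : Q.Vec n) :
    (ap (cmp G) (cv k χ)).ofLp = (J k n)ᴴ *ᵥ (ap G (tv k χ)).ofLp := by
  rw [ofLp_ap, ofLp_ap, cmp, ← mulVec_mulVec, ← mulVec_mulVec, J_cv]

lemma star_dot_Jh (w : Sym n k → ℂ) (v : (Fin k → n) → ℂ) :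
    star w ⬝ᵥ (J k n)ᴴ *ᵥ v = star (J k n *ᵥ w) ⬝ᵥ v := by
  rw [dotProduct_mulVec, star_mulVec]

lemma inner_cv_cmp (G : Mk k n) (χ χ' : Q.Vec n) :
    ⟪cv k χ, ap (cmp G) (cv k χ')⟫_ℂ = ⟪tv k χ, ap G (tv k χ')⟫_ℂ := by
  rw [inner_eq, inner_eq, ofLp_ap_cmp_cv, star_dot_Jh, J_cv]

lemma qf_cv_cmp (G : Mk k n) (χ : Q.Vec n) : qf (cv k χ) (cmp G) = qf (tv k χ) G := by
  rw [qf, qf, inner_cv_cmp]

/-- `J` is an isometry -/
lemma norm_eq_of_J {w : Q.Vec (Sym n k)} {v : Q.Vec (Fin k → n)} (h : J k n *ᵥ w.ofLp = v.ofLp) :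
    ‖w‖ = ‖v‖ := by
  have h1 : ⟪w, w⟫_ℂ = ⟪v, v⟫_ℂ := by
    rw [inner_eq, inner_eq, ← h, ← star_dot_Jh, Jh_J_mulVec]
  rw [inner_self_eq_norm_sq_to_K, inner_self_eq_norm_sq_to_K] at h1
  have h2 : ‖w‖ ^ 2 = ‖v‖ ^ 2 := by exact_mod_cast h1
  exact (pow_left_inj₀ (norm_nonneg _) (norm_nonneg _) two_ne_zero).1 h2

lemma norm_ap_cmp_cv (h : Sy G) (χ : Q.Vec n) : ‖ap (cmp G) (cv k χ)‖ = ‖ap G (tv k χ)‖ := by
  refine norm_eq_of_J ?_
  rw [ofLp_ap, ofLp_ap, mulVec_mulVec, ← h.mul_J, ← mulVec_mulVec, J_cv]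

lemma inner_cv_tv (χ χ' : Q.Vec n) : ⟪cv k χ, cv k χ'⟫_ℂ = ⟪tv k χ, tv k χ'⟫_ℂ := by
  have := inner_cv_cmp (1 : Mk k n) χ χ'
  rwa [cmp_one, ap_one, ap_one] at this

lemma cmp_pj_tv (χ : Q.Vec n) : cmp (pj (tv k χ)) = pj (cv k χ) := by
  rw [cmp, pj, pj, kb, kb, mul_vecMulVec, vecMulVec_mul]
  congr 1
  change _ = star ((J k n)ᴴ *ᵥ _)
  rw [star_mulVec, conjTranspose_conjTranspose]

/-- coordinates of the coherent vector -/
lemma cv_apply (χ : Q.Vec n) (t : Sym n k) :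
    cv k χ t = cf t * fib t * (t.1.map fun a => χ a).prod := by
  rw [← Jh_mulVec_comp (fun t : Sym n k => (t.1.map fun a => χ a).prod) t]
  change ((J k n)ᴴ *ᵥ _) t = _
  congr 2
  funext σ
  change ∏ i, χ (σ i) = (Multiset.map _ (Multiset.map σ univ.val)).prod
  rw [Multiset.map_map]
  rfl

lemma cv_smul (k : ℕ) (c : ℂ) (χ : Q.Vec n) : cv k (c • χ) = c ^ k • cv k χ := by
  ext t
  rw [PiLp.smul_apply, cv_apply, cv_apply]
  simp only [PiLp.smul_apply, smul_eq_mul, Multiset.prod_map_mul, Multiset.map_const',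
    Multiset.prod_replicate, t.2]
  ring

/-- monomials are linearly independent -/
lemma mon_indep {a : Sym n k → ℂ} (h : ∀ x : n → ℂ, ∑ t, a t * (t.1.map x).prod = 0) (t : Sym n k) :
    a t = 0 := by
  have hp : (∑ t : Sym n k, MvPolynomial.monomial (Multiset.toFinsupp t.1) (a t)) = 0 := by
    refine MvPolynomial.funext fun x => ?_
    rw [map_sum, map_zero, ← h x]
    refine Finset.sum_congr rfl fun t _ => ?_
    rw [MvPolynomial.eval_monomial, Finset.prod_multiset_map_count, Finsupp.prod,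
      Multiset.toFinsupp_support]
    rfl
  have := congrArg (MvPolynomial.coeff (Multiset.toFinsupp t.1)) hp
  rw [MvPolynomial.coeff_sum, Finset.sum_eq_single t, MvPolynomial.coeff_monomial, if_pos rfl] at this
  · exact this
  · intro s _ hs
    rw [MvPolynomial.coeff_monomial, if_neg]
    exact fun e => hs (Subtype.ext (Multiset.toFinsupp.injective e))
  · simp

/-- coherent vectors span -/
theorem ext_cv {M : Ms k n} (h : ∀ χ : Q.Vec n, ‖χ‖ = 1 → ap M (cv k χ) = 0) [Nonempty n] :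
    M = 0 := by
  have h' : ∀ χ : Q.Vec n, ap M (cv k χ) = 0 := by
    intro χ
    obtain ⟨c, u, hu, rfl⟩ : ∃ (c : ℂ) (u : Q.Vec n), ‖u‖ = 1 ∧ χ = c • u := by
      by_cases h0 : χ = 0
      · obtain ⟨a⟩ := ‹Nonempty n›
        exact ⟨0, EuclideanSpace.single a 1, by simp, by simp [h0]⟩
      · have hn : (‖χ‖ : ℂ) ≠ 0 := by simpa using h0
        refine ⟨‖χ‖, (‖χ‖ : ℂ)⁻¹ • χ, ?_, by rw [smul_smul, mul_inv_cancel₀ hn, one_smul]⟩
        rw [norm_smul, norm_inv, Complex.norm_real, norm_norm, inv_mul_cancel₀ (by simpa using h0)]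
    rw [cv_smul, map_smul, h u hu, smul_zero]
  ext s t
  have := mon_indep (a := fun t => M s t * (cf t * fib t)) (fun x => by
    have h1 := congrFun (congrArg WithLp.ofLp (h' (WithLp.toLp 2 x))) s
    change ∑ j, M s j * cv k (WithLp.toLp 2 x) j = 0 at h1
    rw [← h1]
    refine Finset.sum_congr rfl fun t _ => ?_
    rw [cv_apply, mul_assoc]) t
  have hf : (fib t : ℂ) ≠ 0 := by exact_mod_cast (fib_pos t).ne'
  simpa [cf_ne_zero, hf] using this

lemma dk_pos [Nonempty n] (k : ℕ) : 0 < dk k n :=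
  Fintype.card_pos_iff.2 ⟨Sym.replicate k (Classical.arbitrary n)⟩

lemma choose_half (N k : ℕ) : (k + N).choose N ≤ 2 ^ N * (k / 2 + N).choose N := by
  induction N with
  | zero => simp
  | succ N ih =>
    refine Nat.le_of_mul_le_mul_right ?_ (Nat.succ_pos N)
    have h1 := Nat.add_one_mul_choose_eq (k + N) N
    have h2 := Nat.add_one_mul_choose_eq (k / 2 + N) N
    have h3 : k + N + 1 ≤ 2 * (k / 2 + N + 1) := by omega
    calc (k + (N + 1)).choose (N + 1) * (N + 1) = (k + N + 1) * (k + N).choose N := h1.symm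
      _ ≤ (2 * (k / 2 + N + 1)) * (2 ^ N * (k / 2 + N).choose N) := Nat.mul_le_mul h3 ih
      _ = 2 ^ (N + 1) * ((k / 2 + N + 1) * (k / 2 + N).choose N) := by ring
      _ = 2 ^ (N + 1) * (k / 2 + (N + 1)).choose (N + 1) * (N + 1) := by
        rw [h2, mul_assoc]; rfl

lemma dk_le_half (k : ℕ) : dk k n ≤ 2 ^ Fintype.card n * dk (k / 2) n := by
  rw [dk, dk, Sym.card_sym_eq_choose, Sym.card_sym_eq_choose]
  rcases Fintype.card n with _ | N
  · rcases k with _ | k
    · simp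
    · rw [Nat.choose_eq_zero_of_lt (by omega)]
      exact Nat.zero_le _
  · have e : ∀ j, (N + 1 + j - 1).choose j = (j + N).choose N := fun j => by
      rw [show N + 1 + j - 1 = j + N by omega, Nat.choose_symm_add]
    rw [e, e]
    refine (choose_half N k).trans (Nat.mul_le_mul_right _ ?_)
    exact Nat.pow_le_pow_right two_pos (Nat.le_succ N)

lemma dk_le (k : ℕ) : dk k n ≤ (k + 1) ^ Fintype.card n := by
  have := Fintype.card_le_of_injective (fun (t : Sym n k) (a : n) =>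
    (⟨t.1.count a, Nat.lt_succ_of_le ((Multiset.count_le_card a _).trans t.2.le)⟩ : Fin (k + 1)))
    fun s t h => Subtype.ext (Multiset.ext.2 fun a => congrArg Fin.val (congrFun h a))
  simpa using this

lemma dk_le_exp {δ : ℝ} (hδ : 0 < δ) :
    ∀ᶠ k : ℕ in atTop, (dk k n : ℝ) ≤ Real.exp (δ * k) := by
  have h1 := (isLittleO_pow_exp_pos_mul_atTop (Fintype.card n) hδ).def (Real.exp_pos (-δ))
  have h2 : Tendsto (fun k : ℕ => (k : ℝ) + 1) atTop atTop :=
    tendsto_atTop_add_const_right _ 1 tendsto_natCast_atTop_atTop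
  filter_upwards [h2.eventually h1] with k hk
  rw [Real.norm_of_nonneg (by positivity), Real.norm_of_nonneg (Real.exp_pos _).le,
    ← Real.exp_add] at hk
  calc (dk k n : ℝ) ≤ ((k : ℝ) + 1) ^ Fintype.card n := by exact_mod_cast dk_le k
    _ ≤ _ := hk
    _ = _ := by congr 1; ring

end Crest.Agent.N336.R
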