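import Crest.Agent.N336.R.Tens
import Crest.Agent.N336.R.Sym0

/-! # Row 336, replica package: the symmetric space (most lemmas are in `R/Sym0`) (helper60) -/

set_option autoImplicit false
set_option linter.unusedSectionVars false

open Matrix Finset MeasureTheory Filter
open scoped ComplexOrder MatrixOrder Matrix.Norms.L2Operator InnerProductSpace Topology

namespace Crest.Agent.N336.R

open Crest.Agent.N336.Q Crest.Agent.N336.Eng Crest.Agent.N336.C

variable {n : Type} [Fintype n] [DecidableEq n] {k : ℕ} {G G' : Mk k n}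

lemma ap_cmp_tp (k : ℕ) (A : Matrix n n ℂ) (χ : Q.Vec n) :
    ap (cmp (tp k A)) (cv k χ) = cv k (ap A χ) := by
  apply WithLp.ofLp_injective
  rw [ofLp_ap_cmp_cv, ap_tp_tv]
  rfl

lemma ap_cmp_dG (k : ℕ) {A : Matrix n n ℂ} {χ : Q.Vec n} {c : ℂ} (h : ap A χ = c • χ) :
    ap (cmp (dG k A)) (cv k χ) = (k * c) • cv k χ := by
  apply WithLp.ofLp_injective
  rw [ofLp_ap_cmp_cv, ap_dG_tv k h, WithLp.ofLp_smul, mulVec_smul]
  rfl

lemma inner_cv (k : ℕ) (χ χ' : Q.Vec n) : ⟪cv k χ, cv k χ'⟫_ℂ = ⟪χ, χ'⟫_ℂ ^ k := by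
  rw [inner_cv_tv, inner_tv]

lemma norm_cv (k : ℕ) (χ : Q.Vec n) : ‖cv k χ‖ = ‖χ‖ ^ k := by
  rw [norm_eq_of_J (J_cv k χ), norm_tv]

lemma continuous_cv (k : ℕ) : Continuous (cv k : Q.Vec n → Q.Vec (Sym n k)) :=
  (PiLp.continuous_toLp 2 _).comp
    (continuous_const.matrix_mulVec ((PiLp.continuous_ofLp 2 _).comp (continuous_tv k)))

lemma cmp_tp_pj (k : ℕ) (χ : Q.Vec n) : cmp (tp k (pj χ)) = pj (cv k χ) := by
  rw [tp_pj, cmp_pj_tv]

end Crest.Agent.N336.R
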