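import Crest.Agent.N336.R.Defs
import Crest.Agent.N336.Eng.Pure

/-! # Row 336, replica package: tensor powers (proofs, helper31) -/

set_option autoImplicit false
set_option linter.unusedSectionVars false

open Matrix Finset MeasureTheory Filter
open scoped ComplexOrder MatrixOrder Matrix.Norms.L2Operator InnerProductSpace Topology

namespace Crest.Agent.N336.R

open Crest.Agent.N336.Q Crest.Agent.N336.Eng Crest.Agent.N336.C

attribute [local irreducible] ev eU

namespace Tn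
end Tn

open Tn

variable {n : Type} [Fintype n] [DecidableEq n] {k : ℕ} {A B : Matrix n n ℂ}

/-! ### products of different factors -/

lemma Tn.tpf_apply (B : Fin k → Matrix n n ℂ) (σ τ : Fin k → n) :
    tpf B σ τ = ∏ i, B i (σ i) (τ i) := rfl

lemma Tn.tp_apply (k : ℕ) (B : Matrix n n ℂ) (σ τ : Fin k → n) :
    tp k B σ τ = ∏ i, B (σ i) (τ i) := rfl

lemma tpf_mul (A B : Fin k → Matrix n n ℂ) : tpf A * tpf B = tpf fun i => A i * B i := by
  ext σ τ
  simp only [mul_apply, tpf_apply, Finset.prod_univ_sum, Fintype.piFinset_univ,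
    Finset.prod_mul_distrib]

lemma Tn.tpf_diagonal (l : Fin k → n → ℂ) :
    tpf (fun i => diagonal (l i)) = diagonal fun σ => ∏ i, l i (σ i) := by
  ext σ τ
  rw [tpf_apply, diagonal_apply]
  split_ifs with h
  · subst h; simp
  · obtain ⟨i, hi⟩ := Function.ne_iff.1 h
    exact Finset.prod_eq_zero (mem_univ i) (diagonal_apply_ne _ hi)

lemma Tn.tpf_one : tpf (fun _ : Fin k => (1 : Matrix n n ℂ)) = 1 := by
  have := tpf_diagonal (k := k) (n := n) fun _ _ => 1
  simpa using this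

lemma Tn.tpf_conjTranspose (B : Fin k → Matrix n n ℂ) : (tpf B)ᴴ = tpf fun i => (B i)ᴴ := by
  ext σ τ
  simp only [conjTranspose_apply, tpf_apply, star_prod]

lemma Tn.tpf_update_apply (B : Fin k → Matrix n n ℂ) (i : Fin k) (X : Matrix n n ℂ)
    (σ τ : Fin k → n) : tpf (Function.update B i X) σ τ =
      X (σ i) (τ i) * ∏ j ∈ univ.erase i, B j (σ j) (τ j) := by
  rw [tpf_apply, ← Finset.mul_prod_erase _ _ (mem_univ i), Function.update_self]
  congr 1
  exact Finset.prod_congr rfl fun j hj => by rw [Function.update_of_ne (ne_of_mem_erase hj)]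

lemma Tn.tpf_update_add (B : Fin k → Matrix n n ℂ) (i : Fin k) (X Y : Matrix n n ℂ) :
    tpf (Function.update B i (X + Y)) =
      tpf (Function.update B i X) + tpf (Function.update B i Y) := by
  ext σ τ
  simp only [Matrix.add_apply, tpf_update_apply, add_mul]

lemma Tn.tpf_update_smul (B : Fin k → Matrix n n ℂ) (i : Fin k) (c : ℂ) (X : Matrix n n ℂ) :
    tpf (Function.update B i (c • X)) = c • tpf (Function.update B i X) := by
  ext σ τ
  simp only [Matrix.smul_apply, tpf_update_apply, smul_eq_mul, mul_assoc]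

lemma Tn.exists_sq (h : A.PosSemidef) : ∃ C : Matrix n n ℂ, A = Cᴴ * C := by
  refine ⟨fr Real.sqrt A, ?_⟩
  rw [(fr_isHermitian _ _).eq, fc_mul]
  conv_lhs => rw [← fc_id h.1]
  exact fc_congr fun i => by rw [← Complex.ofReal_mul, Real.mul_self_sqrt (ev_nonneg h i)]

lemma Tn.tpf_posSemidef {B : Fin k → Matrix n n ℂ} (h : ∀ i, (B i).PosSemidef) :
    (tpf B).PosSemidef := by
  choose C hC using fun i => exists_sq (h i)
  rw [funext hC, ← tpf_mul, ← tpf_conjTranspose]
  exact posSemidef_conjTranspose_mul_self _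

lemma Tn.tpf_mono {A B : Fin k → Matrix n n ℂ} (hA : ∀ i, (A i).PosSemidef) (h : ∀ i, A i ≤ B i) :
    tpf A ≤ tpf B := by
  have hB : ∀ i, (B i).PosSemidef := fun i => ((hA i).nonneg.trans (h i)).posSemidef
  have key : ∀ s : Finset (Fin k), tpf A ≤ tpf (s.piecewise B A) := by
    intro s
    induction s using Finset.induction_on with
    | empty => simp
    | insert a s ha ih =>
      refine ih.trans ?_
      rw [piecewise_insert, show B a = A a + (B a - A a) by abel, tpf_update_add,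
        ← piecewise_eq_of_notMem s B A ha, Function.update_eq_self, le_add_iff_nonneg_right]
      refine (tpf_posSemidef fun i => ?_).nonneg
      rcases eq_or_ne i a with rfl | hi
      · rw [Function.update_self, piecewise_eq_of_notMem s B A ha]
        exact Matrix.le_iff.1 (h i)
      · rw [Function.update_of_ne hi]
        by_cases his : i ∈ s
        · rw [piecewise_eq_of_mem _ _ _ his]; exact hB i
        · rw [piecewise_eq_of_notMem _ _ _ his]; exact hA i
  simpa using key univ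

lemma Tn.tpf_smul (c : Fin k → ℂ) (B : Fin k → Matrix n n ℂ) :
    tpf (fun i => c i • B i) = (∏ i, c i) • tpf B := by
  ext σ τ
  simp only [tpf_apply, Matrix.smul_apply, smul_eq_mul, Finset.prod_mul_distrib]

lemma Tn.re_inner_smul_one (c : ℝ) (v : Q.Vec n) :
    (⟪v, ap ((c : ℂ) • (1 : Matrix n n ℂ)) v⟫_ℂ).re = c * ‖v‖ ^ 2 := by
  have := qf_smul c (1 : Matrix n n ℂ) v
  rwa [qf_one] at this

lemma Tn.sq_le_smul_one {c : ℝ} (h : ‖A‖ ≤ c) : Aᴴ * A ≤ ((c ^ 2 : ℝ) : ℂ) • (1 : Matrix n n ℂ) := by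
  rw [Matrix.le_iff]
  refine posSemidef_of_re_inner ?_ fun v => ?_
  · refine IsHermitian.sub ?_ (isHermitian_conjTranspose_mul_self A)
    unfold IsHermitian
    rw [conjTranspose_smul, conjTranspose_one, Complex.star_def, Complex.conj_ofReal]
  · rw [ap_sub, inner_sub_right, Complex.sub_re, re_inner_smul_one, ← norm_ap_sq, sub_nonneg,
      ← mul_pow]
    exact pow_le_pow_left₀ (norm_nonneg _)
      ((norm_ap_le A v).trans (mul_le_mul_of_nonneg_right h (norm_nonneg _))) 2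

lemma Tn.norm_tpf_le {B : Fin k → Matrix n n ℂ} {c : Fin k → ℝ} (h : ∀ i, ‖B i‖ ≤ c i) :
    ‖tpf B‖ ≤ ∏ i, c i := by
  have hc : 0 ≤ ∏ i, c i := Finset.prod_nonneg fun i _ => (norm_nonneg _).trans (h i)
  have h1 := tpf_mono (fun i => posSemidef_conjTranspose_mul_self (B i))
    fun i => sq_le_smul_one (h i)
  rw [← tpf_mul, ← tpf_conjTranspose, tpf_smul, tpf_one, ← Complex.ofReal_prod,
    Finset.prod_pow] at h1
  rw [← norm_ap]
  refine ContinuousLinearMap.opNorm_le_bound _ hc fun v => ?_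
  have h2 := re_inner_ap_mono h1 v
  rw [← norm_ap_sq, re_inner_smul_one, ← mul_pow] at h2
  exact (pow_le_pow_iff_left₀ (norm_nonneg _) (by positivity) two_ne_zero).1 h2

/-- product of different vectors -/
def Tn.tvf (χ : Fin k → Q.Vec n) : Q.Vec (Fin k → n) := WithLp.toLp 2 fun σ => ∏ i, χ i (σ i)

lemma Tn.tvf_apply (χ : Fin k → Q.Vec n) (σ : Fin k → n) : tvf χ σ = ∏ i, χ i (σ i) := rfl

lemma Tn.tv_apply (k : ℕ) (χ : Q.Vec n) (σ : Fin k → n) : tv k χ σ = ∏ i, χ (σ i) := rfl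

lemma Tn.tv_eq (k : ℕ) (χ : Q.Vec n) : tv k χ = tvf fun _ => χ := rfl

lemma Tn.ap_tpf_tvf (B : Fin k → Matrix n n ℂ) (χ : Fin k → Q.Vec n) :
    ap (tpf B) (tvf χ) = tvf fun i => ap (B i) (χ i) := by
  ext σ
  simp only [ap_apply, tpf_apply, tvf_apply, Finset.prod_univ_sum, Fintype.piFinset_univ,
    Finset.prod_mul_distrib]

lemma Tn.inner_tvf (χ χ' : Fin k → Q.Vec n) : ⟪tvf χ, tvf χ'⟫_ℂ = ∏ i, ⟪χ i, χ' i⟫_ℂ := by
  simp only [inner_eq_sum, tvf_apply, Finset.prod_univ_sum, Fintype.piFinset_univ,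
    Finset.prod_mul_distrib, star_prod]

lemma Tn.tvf_smul (c : Fin k → ℂ) (χ : Fin k → Q.Vec n) :
    tvf (fun i => c i • χ i) = (∏ i, c i) • tvf χ := by
  ext σ
  simp only [tvf_apply, PiLp.smul_apply, smul_eq_mul, Finset.prod_mul_distrib]

/-! ### tensor powers -/

lemma tp_mul (k : ℕ) (A B : Matrix n n ℂ) : tp k (A * B) = tp k A * tp k B :=
  (tpf_mul _ _).symm

lemma tp_one (k : ℕ) : tp k (1 : Matrix n n ℂ) = 1 := tpf_one

lemma tp_conjTranspose (k : ℕ) (A : Matrix n n ℂ) : tp k Aᴴ = (tp k A)ᴴ :=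
  (tpf_conjTranspose _).symm

lemma tp_smul (k : ℕ) (c : ℂ) (A : Matrix n n ℂ) : tp k (c • A) = c ^ k • tp k A := by
  have := tpf_smul (fun _ : Fin k => c) fun _ => A
  simpa [tp] using this

lemma tp_rsmul (k : ℕ) (c : ℝ) (A : Matrix n n ℂ) : tp k (c • A) = c ^ k • tp k A := by
  rw [← Complex.coe_smul, tp_smul, ← Complex.coe_smul, Complex.ofReal_pow]

lemma tp_isHermitian (k : ℕ) (h : A.IsHermitian) : (tp k A).IsHermitian := by
  unfold IsHermitian
  rw [← tp_conjTranspose, h.eq]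

lemma tp_posSemidef (k : ℕ) (h : A.PosSemidef) : (tp k A).PosSemidef :=
  tpf_posSemidef fun _ => h

lemma Tn.tp_mul_eq_one (k : ℕ) (h : A * B = 1) : tp k A * tp k B = 1 := by
  rw [← tp_mul, h, tp_one]

lemma tp_posDef (k : ℕ) (h : A.PosDef) : (tp k A).PosDef :=
  (tp_posSemidef k h.posSemidef).posDef_iff_isUnit.2 (IsUnit.of_mul_eq_one _
    (tp_mul_eq_one k (mul_nonsing_inv A ((isUnit_iff_isUnit_det A).1 h.isUnit))))

lemma tp_mono (k : ℕ) (hA : A.PosSemidef) (h : A ≤ B) : tp k A ≤ tp k B :=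
  tpf_mono (fun _ => hA) fun _ => h

lemma tp_inv (k : ℕ) (h : A.PosDef) : (tp k A)⁻¹ = tp k A⁻¹ :=
  inv_eq_right_inv (tp_mul_eq_one k (mul_nonsing_inv A ((isUnit_iff_isUnit_det A).1 h.isUnit)))

lemma tp_commute (k : ℕ) (h : Commute A B) : Commute (tp k A) (tp k B) := by
  unfold Commute SemiconjBy
  rw [← tp_mul, h.eq, tp_mul]

lemma norm_tp_le (k : ℕ) (A : Matrix n n ℂ) : ‖tp k A‖ ≤ ‖A‖ ^ k := by
  simpa [tp] using norm_tpf_le (B := fun _ : Fin k => A) fun _ => le_rfl

lemma continuous_tp (k : ℕ) : Continuous (tp k : Matrix n n ℂ → Mk k n) :=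
  continuous_matrix fun σ τ => by
    simp only [tp_apply]
    exact continuous_finsetProd _ fun i _ => continuous_id.matrix_elem (σ i) (τ i)

lemma ap_tp_tv (k : ℕ) (A : Matrix n n ℂ) (χ : Q.Vec n) :
    ap (tp k A) (tv k χ) = tv k (ap A χ) := ap_tpf_tvf _ _

lemma inner_tv (k : ℕ) (χ χ' : Q.Vec n) : ⟪tv k χ, tv k χ'⟫_ℂ = ⟪χ, χ'⟫_ℂ ^ k := by
  rw [tv_eq, tv_eq, inner_tvf]; simp

lemma norm_tv (k : ℕ) (χ : Q.Vec n) : ‖tv k χ‖ = ‖χ‖ ^ k := by
  have h := inner_tv k χ χ
  rw [inner_self_eq_norm_sq_to_K, inner_self_eq_norm_sq_to_K, ← pow_mul, mul_comm, pow_mul] at h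
  have h2 : ‖tv k χ‖ ^ 2 = (‖χ‖ ^ k) ^ 2 := by exact_mod_cast h
  exact (pow_left_inj₀ (norm_nonneg _) (by positivity) two_ne_zero).1 h2

lemma tv_smul (k : ℕ) (c : ℂ) (χ : Q.Vec n) : tv k (c • χ) = c ^ k • tv k χ := by
  simpa [tv_eq] using tvf_smul (fun _ : Fin k => c) fun _ => χ

lemma continuous_tv (k : ℕ) : Continuous (tv k : Q.Vec n → Q.Vec (Fin k → n)) := by
  unfold tv
  fun_prop

lemma tp_pj (k : ℕ) (χ : Q.Vec n) : tp k (pj χ) = pj (tv k χ) := by
  ext σ τ
  simp only [tp_apply, kb_apply, tv_apply, Finset.prod_mul_distrib, star_prod]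

lemma qf_tv_tp (k : ℕ) (h : A.IsHermitian) (χ : Q.Vec n) :
    qf (tv k χ) (tp k A) = qf χ A ^ k := by
  have h1 : ⟪χ, ap A χ⟫_ℂ = (qf χ A : ℂ) :=
    Complex.ext (by simp) (by rw [im_inner_ap h, Complex.ofReal_im])
  rw [qf, ap_tp_tv, inner_tv, h1, ← Complex.ofReal_pow, Complex.ofReal_re]

/-! ### second quantisation -/

lemma dG_add (k : ℕ) (A B : Matrix n n ℂ) : dG k (A + B) = dG k A + dG k B := by
  simp only [dG, tpf_update_add, Finset.sum_add_distrib]

lemma dG_smul (k : ℕ) (c : ℂ) (A : Matrix n n ℂ) : dG k (c • A) = c • dG k A := by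
  simp only [dG, tpf_update_smul, Finset.smul_sum]

lemma dG_rsmul (k : ℕ) (c : ℝ) (A : Matrix n n ℂ) : dG k (c • A) = c • dG k A := by
  rw [← Complex.coe_smul, dG_smul, Complex.coe_smul]

lemma Tn.dG_zero (k : ℕ) : dG k (0 : Matrix n n ℂ) = 0 := by
  simpa using dG_smul k 0 (0 : Matrix n n ℂ)

lemma dG_sum {α : Type*} (k : ℕ) (s : Finset α) (A : α → Matrix n n ℂ) :
    dG k (∑ a ∈ s, A a) = ∑ a ∈ s, dG k (A a) := by
  classical
  induction s using Finset.induction_on with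
  | empty => simp [dG_zero]
  | insert a s ha ih => rw [Finset.sum_insert ha, Finset.sum_insert ha, dG_add, ih]

lemma Tn.upd_cases {p : Matrix n n ℂ → Prop} (h1 : p 1) (hA : p A) (i j : Fin k) :
    p (Function.update (fun _ => (1 : Matrix n n ℂ)) i A j) := by
  rcases eq_or_ne j i with rfl | h
  · rwa [Function.update_self]
  · rwa [Function.update_of_ne h]

lemma dG_conjTranspose (k : ℕ) (A : Matrix n n ℂ) : dG k Aᴴ = (dG k A)ᴴ := by
  simp only [dG, conjTranspose_sum, tpf_conjTranspose]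
  refine Finset.sum_congr rfl fun i _ => congrArg tpf (funext fun j => ?_)
  rcases eq_or_ne j i with rfl | h
  · simp
  · simp [h]

lemma dG_isHermitian (k : ℕ) (h : A.IsHermitian) : (dG k A).IsHermitian := by
  unfold IsHermitian
  rw [← dG_conjTranspose, h.eq]

lemma dG_posSemidef (k : ℕ) (h : A.PosSemidef) : (dG k A).PosSemidef :=
  (Finset.sum_nonneg fun i _ =>
    (tpf_posSemidef (upd_cases PosSemidef.one h i)).nonneg).posSemidef

lemma norm_dG_le (k : ℕ) (A : Matrix n n ℂ) : ‖dG k A‖ ≤ k * ‖A‖ := by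
  refine (norm_sum_le _ _).trans ((Finset.sum_le_sum fun i _ => ?_).trans
    (le_of_eq (by simp : ∑ _i : Fin k, ‖A‖ = k * ‖A‖)))
  refine (norm_tpf_le (c := Function.update (fun _ => 1) i ‖A‖) fun j => ?_).trans ?_
  · rcases eq_or_ne j i with rfl | h
    · simp
    · rw [Function.update_of_ne h, Function.update_of_ne h]
      exact norm_le_one_of_le (by simp)
  · rw [Finset.prod_update_of_mem (mem_univ i)]; simp

lemma ap_dG_tv (k : ℕ) {χ : Q.Vec n} {c : ℂ} (h : ap A χ = c • χ) :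
    ap (dG k A) (tv k χ) = (k * c) • tv k χ := by
  have key : ∀ i : Fin k,
      ap (tpf (Function.update (fun _ => 1) i A)) (tv k χ) = c • tv k χ := by
    intro i
    have := tvf_smul (Function.update (fun _ => 1) i c) fun _ => χ
    rw [Finset.prod_update_of_mem (mem_univ i), Finset.prod_const_one, mul_one] at this
    rw [tv_eq, ap_tpf_tvf, ← this]
    refine congrArg tvf (funext fun j => ?_)
    rcases eq_or_ne j i with rfl | hj
    · simp [h]
    · simp [hj]
  rw [dG, ap_sum]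
  simp only [key, Finset.sum_const, card_univ, Fintype.card_fin, mul_smul]
  rw [Nat.cast_smul_eq_nsmul]

lemma inner_tv_dG (k : ℕ) (A : Matrix n n ℂ) {χ : Q.Vec n} (h : ‖χ‖ = 1) :
    ⟪tv k χ, ap (dG k A) (tv k χ)⟫_ℂ = k * ⟪χ, ap A χ⟫_ℂ := by
  have hχ : ⟪χ, χ⟫_ℂ = 1 := by rw [inner_self_eq_norm_sq_to_K, h]; simp
  have key : ∀ i : Fin k, ⟪tv k χ, ap (tpf (Function.update (fun _ => 1) i A)) (tv k χ)⟫_ℂ =
      ⟪χ, ap A χ⟫_ℂ := by
    intro i
    rw [tv_eq, ap_tpf_tvf, inner_tvf, Finset.prod_eq_single i, Function.update_self]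
    · intro j _ hj
      rw [Function.update_of_ne hj, ap_one, hχ]
    · simp
  rw [dG, ap_sum, inner_sum]
  simp [key]

/-- intertwining relation -/
lemma Tn.tp_mul_dG_of (k : ℕ) {A' : Matrix n n ℂ} (h : B * A = A' * B) :
    tp k B * dG k A = dG k A' * tp k B := by
  simp only [dG, tp, Matrix.mul_sum, Matrix.sum_mul, tpf_mul]
  refine Finset.sum_congr rfl fun i _ => congrArg tpf (funext fun j => ?_)
  rcases eq_or_ne j i with rfl | hj
  · simp [h]
  · simp [hj]

lemma tp_mul_dG (k : ℕ) {B' : Matrix n n ℂ} (h : B' * B = 1) (A : Matrix n n ℂ) :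
    tp k B * dG k A = dG k (B * A * B') * tp k B :=
  tp_mul_dG_of k (by rw [Matrix.mul_assoc, h, Matrix.mul_one])

lemma dG_mul_tp (k : ℕ) {B' : Matrix n n ℂ} (h : B * B' = 1) (A : Matrix n n ℂ) :
    dG k A * tp k B = tp k B * dG k (B' * A * B) :=
  (tp_mul_dG_of k (by rw [← Matrix.mul_assoc, ← Matrix.mul_assoc, h, Matrix.one_mul])).symm

lemma commute_dG_tp (k : ℕ) (h : Commute A B) : Commute (dG k A) (tp k B) :=
  (tp_mul_dG_of k h.symm.eq).symm

/-! ### spectral forms -/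

lemma Tn.tU1 (k : ℕ) (A : Matrix n n ℂ) : (tp k (eU A))ᴴ * tp k (eU A) = 1 := by
  rw [← tp_conjTranspose, tp_mul_eq_one k (star_mul_eU A)]

lemma Tn.tU2 (k : ℕ) (A : Matrix n n ℂ) : tp k (eU A) * (tp k (eU A))ᴴ = 1 := by
  rw [← tp_conjTranspose, tp_mul_eq_one k (eU_mul_star A)]

lemma Tn.tp_fc (k : ℕ) (f : ℝ → ℂ) (A : Matrix n n ℂ) : tp k (fc f A) =
    tp k (eU A) * diagonal (fun σ => ∏ i, f (ev A (σ i))) * (tp k (eU A))ᴴ := by
  rw [fc, tp_mul, tp_mul, tp_conjTranspose, ← tpf_diagonal fun _ j => f (ev A j)]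
  rfl

lemma Tn.dG_diagonal (k : ℕ) (l : n → ℂ) :
    dG k (diagonal l) = diagonal fun σ => ∑ i, l (σ i) := by
  have key : ∀ i : Fin k, tpf (Function.update (fun _ => 1) i (diagonal l)) =
      diagonal fun σ => l (σ i) := by
    intro i
    have := tpf_diagonal (Function.update (fun _ _ => 1) i l)
    have e : ∀ σ : Fin k → n, ∏ j, Function.update (fun _ _ => (1 : ℂ)) i l j (σ j) = l (σ i) := by
      intro σ
      rw [Finset.prod_eq_single i, Function.update_self]
      · intro j _ hj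
        rw [Function.update_of_ne hj]
      · simp
    simp only [e] at this
    rw [← this]
    refine congrArg tpf (funext fun j => ?_)
    rcases eq_or_ne j i with rfl | hj
    · simp
    · simp [hj]
  ext σ τ
  simp only [dG, key, Matrix.sum_apply, diagonal_apply]
  split_ifs <;> simp

lemma Tn.dG_fc (k : ℕ) (f : ℝ → ℂ) (A : Matrix n n ℂ) : dG k (fc f A) =
    tp k (eU A) * diagonal (fun σ => ∑ i, f (ev A (σ i))) * (tp k (eU A))ᴴ := by
  rw [← dG_diagonal k fun j => f (ev A j), tp_mul_dG k (star_mul_eU A), Matrix.mul_assoc, tU2,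
    Matrix.mul_one, fc]

lemma Tn.fc_dG (k : ℕ) (f : ℝ → ℂ) (h : A.IsHermitian) : fc f (dG k A) =
    tp k (eU A) * diagonal (fun σ => f (∑ i, ev A (σ i))) * (tp k (eU A))ᴴ := by
  rw [← fc_spec f (tU1 k A) (tU2 k A)]
  conv_lhs => rw [← fc_id h, dG_fc]
  simp only [Complex.ofReal_sum]

lemma Tn.fc_tp (k : ℕ) (f : ℝ → ℂ) (h : A.IsHermitian) : fc f (tp k A) =
    tp k (eU A) * diagonal (fun σ => f (∏ i, ev A (σ i))) * (tp k (eU A))ᴴ := by
  rw [← fc_spec f (tU1 k A) (tU2 k A)]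
  conv_lhs => rw [← fc_id h, tp_fc]
  simp only [Complex.ofReal_prod]

theorem tp_fc_exp (k : ℕ) (h : A.IsHermitian) (z : ℂ) :
    tp k (fc (fun x => Complex.exp (z * x)) A) =
      fc (fun x => Complex.exp (z * x)) (dG k A) := by
  rw [tp_fc, fc_dG k _ h]
  simp only [Complex.ofReal_sum, Finset.mul_sum, Complex.exp_sum]

lemma tp_ee (k : ℕ) (h : A.IsHermitian) : tp k (ee A) = ee (dG k A) := by
  rw [ee, ee, fr, fr, tp_fc, fc_dG k _ h]
  simp only [Real.exp_sum, Complex.ofReal_prod]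

lemma lg_tp (k : ℕ) (h : A.PosDef) : lg (tp k A) = dG k (lg A) := by
  rw [lg, lg, fr, fr, fc_tp k _ h.1, dG_fc]
  congr 3
  funext σ
  rw [Real.log_prod fun i _ => (ev_pos h _).ne', Complex.ofReal_sum]

lemma pw_tp (k : ℕ) (h : A.PosDef) (s : ℝ) : pw (tp k A) s = tp k (pw A s) := by
  rw [pw, pw, fr, fr, fc_tp k _ h.1, tp_fc]
  congr 3
  funext σ
  rw [← Real.finsetProd_rpow _ _ fun i _ => (ev_pos h _).le, Complex.ofReal_prod]

lemma Tn.commute_conj_iff {m : Type} [Fintype m] [DecidableEq m] {U G : Matrix m m ℂ}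
    (h1 : Uᴴ * U = 1) (h2 : U * Uᴴ = 1) (l : m → ℂ) :
    Commute G (U * diagonal l * Uᴴ) ↔ ∀ a b, (Uᴴ * G * U) a b ≠ 0 → l a = l b := by
  have e : Commute G (U * diagonal l * Uᴴ) ↔
      Uᴴ * G * U * diagonal l = diagonal l * (Uᴴ * G * U) := by
    constructor
    · intro h
      have := congrArg (fun M => Uᴴ * M * U) h.eq
      simp only [Matrix.mul_assoc, h1, Matrix.mul_one] at this
      rw [← Matrix.mul_assoc Uᴴ U, h1, Matrix.one_mul] at this
      simpa only [Matrix.mul_assoc] using this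
    · intro h
      have := congrArg (fun M => U * M * Uᴴ) h
      simp only [Matrix.mul_assoc, h2, Matrix.mul_one] at this
      rw [← Matrix.mul_assoc U Uᴴ, h2, Matrix.one_mul] at this
      unfold Commute SemiconjBy
      simpa only [Matrix.mul_assoc] using this
  rw [e, ← Matrix.ext_iff]
  refine forall_congr' fun a => forall_congr' fun b => ?_
  rw [mul_diagonal, diagonal_mul, mul_comm (l a)]
  constructor
  · intro h h0
    exact (mul_left_cancel₀ h0 h).symm
  · intro h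
    by_cases h0 : (Uᴴ * G * U) a b = 0
    · rw [h0, zero_mul, zero_mul]
    · rw [h h0]

/-- a matrix commuting with the one-parameter group commutes with the generator -/
theorem commute_dG_of_unitary {G : Mk k n} (h : A.IsHermitian)
    (H : ∀ t : ℝ, Commute G (tp k (fc (fun x => Complex.exp (t * Complex.I * x)) A))) :
    Commute G (dG k A) := by
  simp only [tp_fc_exp k h, fc_dG k _ h, commute_conj_iff (tU1 k A) (tU2 k A)] at H
  rw [← fc_id (dG_isHermitian k h), fc_dG k _ h, commute_conj_iff (tU1 k A) (tU2 k A)]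
  intro a b h0
  set x := ∑ i, ev A (a i)
  set y := ∑ i, ev A (b i)
  by_contra hne
  have hxy : (y : ℂ) - x ≠ 0 := sub_ne_zero.2 (Ne.symm hne)
  have h1 := H (Real.pi / (y - x)) a b h0
  have e : ((Real.pi / (y - x) : ℝ) : ℂ) * Complex.I * y =
      ((Real.pi / (y - x) : ℝ) : ℂ) * Complex.I * x + Real.pi * Complex.I := by
    push_cast; field_simp; ring
  rw [e, Complex.exp_add, Complex.exp_pi_mul_I, mul_neg, mul_one, self_eq_neg] at h1
  exact Complex.exp_ne_zero _ h1

/-- `S` is any set of matrices closed under functional calculus of its Hermitian elements -/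
theorem commute_tp_of_dG {G : Mk k n} (h : A.PosSemidef)
    (H : ∀ g : ℝ → ℝ, Commute G (dG k (fr g A))) : Commute G (tp k A) := by
  classical
  simp only [fr, dG_fc, commute_conj_iff (tU1 k A) (tU2 k A)] at H
  rw [← fc_id h.1, tp_fc, commute_conj_iff (tU1 k A) (tU2 k A)]
  intro a b h0
  have e : (univ.val.map fun i => ev A (a i)) = univ.val.map fun i => ev A (b i) := by
    ext x
    have h1 := H (fun y => if x = y then 1 else 0) a b h0
    rw [← Complex.ofReal_sum, ← Complex.ofReal_sum, Complex.ofReal_inj, Finset.sum_boole,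
      Finset.sum_boole, Nat.cast_inj] at h1
    rw [Multiset.count_map, Multiset.count_map]
    exact h1
  rw [← Complex.ofReal_prod, ← Complex.ofReal_prod]
  exact congrArg (fun s : Multiset ℝ => (s.prod : ℂ)) e

/-! ### permutation invariance -/

lemma sy_tp (k : ℕ) (A : Matrix n n ℂ) : Sy (tp k A) := fun π σ τ =>
  Equiv.prod_comp π fun i => A (σ i) (τ i)

lemma sy_dG (k : ℕ) (A : Matrix n n ℂ) : Sy (dG k A) := by
  intro π σ τ
  simp only [dG, Matrix.sum_apply]
  refine Fintype.sum_equiv π _ _ fun i => ?_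
  rw [tpf_apply, tpf_apply]
  refine Fintype.prod_equiv π _ _ fun j => ?_
  rcases eq_or_ne j i with rfl | hj
  · simp
  · rw [Function.update_of_ne hj, Function.update_of_ne (π.injective.ne hj)]
    rfl

lemma sy_one : Sy (1 : Mk k n) := tp_one (n := n) k ▸ sy_tp k 1

lemma Tn.sy_zero : Sy (0 : Mk k n) := fun _ _ _ => rfl

lemma Sy.add {G G' : Mk k n} (h : Sy G) (h' : Sy G') : Sy (G + G') := fun π σ τ => by
  rw [Matrix.add_apply, Matrix.add_apply, h, h']

lemma Sy.neg {G : Mk k n} (h : Sy G) : Sy (-G) := fun π σ τ => by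
  rw [Matrix.neg_apply, Matrix.neg_apply, h]

lemma Sy.sub {G G' : Mk k n} (h : Sy G) (h' : Sy G') : Sy (G - G') := fun π σ τ => by
  rw [Matrix.sub_apply, Matrix.sub_apply, h, h']

lemma Sy.mul {G G' : Mk k n} (h : Sy G) (h' : Sy G') : Sy (G * G') := fun π σ τ => by
  rw [mul_apply, mul_apply]
  refine (Fintype.sum_equiv (Equiv.arrowCongr π.symm (Equiv.refl n)) _ _ fun υ => ?_).symm
  rw [← h π, ← h' π]
  rfl

lemma Sy.smul {G : Mk k n} (h : Sy G) (c : ℂ) : Sy (c • G) := fun π σ τ => by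
  rw [Matrix.smul_apply, Matrix.smul_apply, h]

lemma Sy.rsmul {G : Mk k n} (h : Sy G) (c : ℝ) : Sy (c • G) := fun π σ τ => by
  rw [Matrix.smul_apply, Matrix.smul_apply, h]

lemma Sy.conjTranspose {G : Mk k n} (h : Sy G) : Sy Gᴴ := fun π σ τ => by
  rw [conjTranspose_apply, conjTranspose_apply, h]

lemma Sy.sum {α : Type*} {s : Finset α} {G : α → Mk k n} (h : ∀ a ∈ s, Sy (G a)) :
    Sy (∑ a ∈ s, G a) := fun π σ τ => by
  rw [Matrix.sum_apply, Matrix.sum_apply]
  exact Finset.sum_congr rfl fun a ha => h a ha π σ τ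

/-- the algebra of invariant matrices -/
def Tn.syA (k : ℕ) (n : Type) [Fintype n] [DecidableEq n] : Subalgebra ℂ (Mk k n) where
  carrier := {G | Sy G}
  mul_mem' := Sy.mul
  add_mem' := Sy.add
  algebraMap_mem' c := by
    rw [Algebra.algebraMap_eq_smul_one]; exact sy_one.smul c

lemma Sy.fc {G : Mk k n} (h : Sy G) (hG : G.IsHermitian) (f : ℝ → ℂ) : Sy (fc f G) :=
  fc_mem (syA k n) f hG h

lemma Sy.inv {G : Mk k n} (h : Sy G) (hG : G.PosDef) : Sy G⁻¹ := by
  rw [inv_eq_fr hG]; exact h.fc hG.1 _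

lemma Sy.integral {X : Type*} [MeasurableSpace X] {μ : Measure X} {F : X → Mk k n}
    (h : ∀ x, Sy (F x)) : Sy (∫ x, F x ∂μ) := by
  by_cases hF : Integrable F μ
  · intro π σ τ
    have key : ∀ a b : Fin k → n, (∫ x, F x ∂μ) a b = ∫ x, F x a b ∂μ := fun a b =>
      ((LinearMap.toContinuousLinearMap (Matrix.entryLinearMap ℂ ℂ a b)).integral_comp_comm
        hF).symm
    simp only [key, h _ π σ τ]
  · rw [integral_undef hF]; exact sy_zero

end Crest.Agent.N336.R
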