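import Crest.Agent.N336.R.Mat
import Crest.Agent.N336.R.Tens0

/-! # Row 336, replica package: tensor powers (proofs in `R/Tens0.lean`) -/
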